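import Vale.Agent.P022R.Alg
import Vale.Agent.P022F.Nak

/-!
# P022R, row AGEN: the variables generate the ring
-/

set_option linter.all false

noncomputable section

namespace Vale.Agent.P022R

open TrivSqZeroExt

theorem agen_sq1 {F : Type} [Field F] [CharP F 2] {x : Fˣ} (h : x * x = 1) : (x : F) = 1 := by
  have h1 : (x : F) * x = 1 := congrArg Units.val h
  have h2 : ((x : F) - 1) ^ 2 = 0 := by
    have two : (2 : F) = 0 := CharTwo.two_eq_zero
    linear_combination h1 + (1 - (x : F)) * two
  exact sub_eq_zero.1 (pow_eq_zero_iff two_ne_zero |>.1 h2)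

/-- the elements with zero derivative -/
def agenK {T F : Type} [CommRing T] [Field F] (φ : T →+* DualNumber F) : Subring T where
  carrier := {r | (φ r).snd = 0}
  one_mem' := by
    change (φ 1).snd = 0
    rw [map_one, snd_one]
  zero_mem' := by
    change (φ 0).snd = 0
    rw [map_zero, snd_zero]
  add_mem' := fun {a b} ha hb => by
    change (φ (a + b)).snd = 0
    rw [map_add, snd_add, show (φ a).snd = 0 from ha, show (φ b).snd = 0 from hb, add_zero]
  neg_mem' := fun {a} ha => by
    change (φ (-a)).snd = 0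
    rw [map_neg, snd_neg, show (φ a).snd = 0 from ha, neg_zero]
  mul_mem' := fun {a b} ha hb => by
    change (φ (a * b)).snd = 0
    rw [map_mul, DualNumber.snd_mul, show (φ a).snd = 0 from ha, show (φ b).snd = 0 from hb,
      mul_zero, zero_mul, add_zero]

theorem agen (hB : BGEN) : AGEN := by
  intro O F T G I J R _ _ _ _ _ _ _ _ _ _ red ι π χ ψ t d a b x D TT s β γ X τ M Q N hD hT hcl
  have pd : ∀ g, π (d g : T) = 1 := fun g => by
    rw [← Q.gm.det, map_sub, map_mul, Q.pa, Q.pb, Q.px, sub_zero, Q.one]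
  have pb : ∀ j h, π (bt ι x X.ξ X.n j h) = 0 := fun j h => by
    rw [bt, map_sum]
    exact Finset.sum_eq_zero fun k _ => by rw [map_mul, Q.px, mul_zero]
  have h1 : ∀ k, π (vv ι (fun g => (d g : T)) a x X τ M k) = 0 := by
    rintro (u | p | p | _ | k)
    · change π (a X.c - 1) = 0
      rw [map_sub, map_one, Q.pa, agen_sq1 (by rw [← map_mul, N.c2, map_one]), sub_self]
    · change π (yv ι (fun g => (d g : T)) τ (M p)) = 0
      rw [yv, map_sum]
      exact Finset.sum_eq_zero fun k _ => by rw [map_mul, map_sub, pd, map_one, sub_self, mul_zero]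
    · change π (xv ι x X p.1 p.2) = 0
      rw [xv, map_sum]
      exact Finset.sum_eq_zero fun k _ => by rw [map_mul, pb, mul_zero]
    · change π (a X.s - ι X.κ) = 0
      rw [map_sub, Q.pa, Q.alg, N.hκ, sub_self]
    · change π (a (τ k) - 1) = 0
      rw [map_sub, Q.pa, N.hτ, map_one, Units.val_one, sub_self]
  refine ⟨h1, fun p => ?_⟩
  letI : Algebra O T := ι.toAlgebra
  obtain ⟨n, hn⟩ := Q.nil
  obtain ⟨f, hf⟩ := P022F.Nak.nak (O := O) π (fun y => by
      obtain ⟨o, ho⟩ := Q.surj y
      exact ⟨o, (Q.alg o).trans ho⟩) ⊥ bot_le hn.le (vv ι (fun g => (d g : T)) a x X τ M)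
    (fun φ f1 f2 _ f4 => by
      have f2' : ∀ o, (φ (ι o)).snd = 0 := f2
      have z1 : ∀ i j, φ (xv ι x X i j) = 0 := fun i j =>
        TrivSqZeroExt.ext ((f1 _).trans (h1 (Sum.inr (Sum.inr (Sum.inl (i, j))))))
          (f4 (Sum.inr (Sum.inr (Sum.inl (i, j)))))
      have z2 : ∀ j h, φ (bt ι x X.ξ X.n j h) = 0 := fun j h => by
        obtain ⟨ν, -, hν⟩ := hB O F T G I red ι π ψ χ X.g0 t d b a (fun g k => x k g) γ X.ζ X.m
          Q.swap (by rw [Kr_swap]; exact N.sc) h
        have e : bt ι x X.ξ X.n j h = ∑ i, ν i * xv ι x X i j := by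
          have e1 : ∀ g, x g h = ∑ i, ν i * ∑ l, ι (X.m i l) * x g (X.ζ l) := hν
          simp only [bt, xv, e1, Finset.mul_sum]
          rw [Finset.sum_comm]
          refine Finset.sum_congr rfl fun i _ => ?_
          rw [Finset.sum_comm]
          exact Finset.sum_congr rfl fun l _ => Finset.sum_congr rfl fun k _ => by ring
        rw [e, map_sum]
        exact Finset.sum_eq_zero fun i _ => by rw [map_mul, z1, mul_zero]
      have z3 : ∀ g h, φ (x g h) = 0 := fun g h => by
        obtain ⟨μ, -, hμ⟩ := hB O F T G J red ι π χ ψ X.g0 t d a b x β X.ξ X.n Q N.sb g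
        rw [hμ, map_sum]
        exact Finset.sum_eq_zero fun i _ => by rw [map_mul, z2, mul_zero]
      have sm : ∀ r r', (φ (r * r')).snd = π r * (φ r').snd + (φ r).snd * π r' := fun r r' => by
        rw [map_mul, DualNumber.snd_mul, f1, f1]
      have s1 : (φ 1).snd = 0 := by rw [map_one, snd_one]
      have ss : ∀ r r', (φ (r - r')).snd = (φ r).snd - (φ r').snd := fun r r' => by
        rw [map_sub, snd_sub]
      obtain ⟨α, hα⟩ : ∃ α : G → F, ∀ g, (φ (a g)).snd = χ g * α g :=
        ⟨fun g => ψ g * (φ (a g)).snd, fun g => by rw [← mul_assoc, Q.one, one_mul]⟩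
      obtain ⟨δ, hδ⟩ : ∃ δ : G → F, ∀ g, (φ (b g)).snd = ψ g * δ g :=
        ⟨fun g => χ g * (φ (b g)).snd, fun g => by
          rw [← mul_assoc, mul_comm (ψ g : F), Q.one, one_mul]⟩
      have aα : Ad α := fun g h => mul_left_cancel₀ (χ (g * h)).ne_zero (by
        rw [← hα, Q.gm.am, map_add, z3, add_zero, sm, Q.pa, Q.pa, hα, hα, map_mul, Units.val_mul]
        ring)
      have aδ : Ad δ := fun g h => mul_left_cancel₀ (ψ (g * h)).ne_zero (by
        rw [← hδ, Q.gm.bm, map_add, z3, add_zero, sm, Q.pb, Q.pb, hδ, hδ, map_mul, Units.val_mul]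
        ring)
      have α0 : ∀ g, (φ (a g)).snd = 0 → α g = 0 := fun g h =>
        (mul_eq_zero.1 ((hα g).symm.trans h)).resolve_left (χ g).ne_zero
      have δ0 : ∀ g, (φ (b g)).snd = 0 → δ g = 0 := fun g h =>
        (mul_eq_zero.1 ((hδ g).symm.trans h)).resolve_left (ψ g).ne_zero
      have hd : ∀ g, (φ (d g : T)).snd = α g + δ g := fun g => by
        rw [← Q.gm.det, map_sub, z3, sub_zero, sm, Q.pa, Q.pb, hα, hδ]
        linear_combination (α g + δ g) * Q.one g
      have kα : ∀ k ∈ Kr a b x, α k = 0 := fun k hk => α0 k (by rw [hk.1, s1])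
      have kδ : ∀ k ∈ Kr a b x, δ k = 0 := fun k hk => δ0 k (by rw [hk.2.1, s1])
      have hw := N.inv (fun k => α (τ k) + δ (τ k)) fun p => by
        have e : (φ (yv ι (fun g => (d g : T)) τ (M p))).snd = 0 := f4 (Sum.inr (Sum.inl p))
        rw [yv, map_sum, snd_sum] at e
        rw [← e]
        exact Finset.sum_congr rfl fun k _ => by
          rw [sm, f2', zero_mul, add_zero, ss, s1, sub_zero, hd, Q.alg]
      have hω := N.hω (fun g => α g + δ g) (fun g h => by
          beta_reduce
          rw [aα, aδ]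
          ring) (fun k hk => by
          beta_reduce
          rw [kα k hk, kδ k hk, add_zero]) (fun g hg => by
          obtain ⟨o, ho⟩ := hD g hg
          beta_reduce
          rw [← hd, ho, f2']) fun k => congrFun hw k
      have ht : ∀ g, (φ (t g)).snd = χ g * α g + ψ g * δ g := fun g => by
        rw [← Q.gm.sum, map_add, snd_add, hα, hδ]
      have hα0 := N.hα α aα kα (fun g hg hne => by
          obtain ⟨o, ho⟩ := hT g hg
          have e1 := ht g
          rw [ho, f2'] at e1
          have e2 : ((χ g : F) - ψ g) * α g = 0 := by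
            linear_combination -e1 - (ψ g : F) * hω g
          exact (mul_eq_zero.1 e2).resolve_left (sub_ne_zero.2 fun e => hne (Units.ext e)))
        (α0 _ (by
          have e : (φ (a X.c - 1)).snd = 0 := f4 (Sum.inl ())
          rwa [ss, s1, sub_zero] at e))
        (α0 _ (by
          have e : (φ (a X.s - ι X.κ)).snd = 0 := f4 (Sum.inr (Sum.inr (Sum.inr none)))
          rwa [ss, f2', sub_zero] at e))
        fun k => α0 _ (by
          have e : (φ (a (τ k) - 1)).snd = 0 := f4 (Sum.inr (Sum.inr (Sum.inr (some k))))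
          rwa [ss, s1, sub_zero] at e)
      have hδ0 : ∀ g, δ g = 0 := fun g => by
        have e := hω g
        rwa [hα0, zero_add] at e
      intro r
      have hle : (⊤ : Subring T) ≤ agenK φ := by
        rw [← hcl, Subring.closure_le]
        rintro _ ((⟨o, rfl⟩ | ⟨g, rfl⟩) | ⟨g, rfl⟩)
        · exact f2' o
        · change (φ (t g)).snd = 0
          rw [ht, hα0, hδ0, mul_zero, mul_zero, add_zero]
        · change (φ (d g : T)).snd = 0
          rw [hd, hω]
      exact hle (Subring.mem_top r)) p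
  exact ⟨f, sub_eq_zero.1 (Ideal.mem_bot.1 hf)⟩

end Vale.Agent.P022R
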