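import Vale.Agent.P022R.Geo
import Vale.Agent.P022F.Gm
import Vale.Agent.P022F.Wiles

/-!
# P022R, generalised matrix algebras over a finite local ring (statements)
-/

set_option linter.all false

noncomputable section

namespace Vale.Agent.P022R

open Vale.Agent.P022F (Cc)
open Vale.Agent.P022F.Gm (GM)
open Vale.Agent.P022D.Core (PS)

section defs

variable {O F T G I J R : Type} [CommRing O] [Field F] [CommRing T] [Group G]

/-- additive maps -/
def Ad (p : G → F) : Prop := ∀ g h, p (g * h) = p g + p h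

/-- the elements which act trivially -/
def Kr (a b : G → T) (x : G → G → T) : Set G :=
  {n | a n = 1 ∧ b n = 1 ∧ ∀ h, x n h = 0 ∧ x h n = 0}

/-- a deformation of `χ + ψ` -/
structure Gq (red : O →+* F) (ι : O →+* T) (π : T →+* F) (χ ψ : G →* Fˣ) (g0 : G) (t : G → T)
    (d : G →* Tˣ) (a b : G → T) (x : G → G → T) : Prop where
  gm : GM t d a b x
  alg : ∀ c, π (ι c) = red c
  surj : Function.Surjective red
  nil : ∃ N : ℕ, RingHom.ker π ^ N = ⊥
  one : ∀ g, (χ g : F) * ψ g = 1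
  pa : ∀ g, π (a g) = χ g
  pb : ∀ g, π (b g) = ψ g
  px : ∀ g h, π (x g h) = 0
  x0 : ∀ h, x g0 h = 0
  x1 : ∀ h, x h g0 = 0

theorem gm_swap {t : G → T} {d : G →* Tˣ} {a b : G → T} {x : G → G → T} (h : GM t d a b x) :
    GM t d b a fun g k => x k g :=
  ⟨fun g => (add_comm _ _).trans (h.sum g), h.b1, h.a1, h.bm, fun g k => h.am g k,
    fun g g' k => (h.cr k g g').trans (add_comm _ _),
    fun g k k' => (h.cl k k' g).trans (add_comm _ _),
    fun g => by rw [mul_comm]; exact h.det g,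
    fun g k g' k' => by rw [h.sw k g k' g', mul_comm]⟩

/-- **the transposed data** -/
theorem Gq.swap {red : O →+* F} {ι : O →+* T} {π : T →+* F} {χ ψ : G →* Fˣ} {g0 : G} {t : G → T}
    {d : G →* Tˣ} {a b : G → T} {x : G → G → T} (h : Gq red ι π χ ψ g0 t d a b x) :
    Gq red ι π ψ χ g0 t d b a fun g k => x k g :=
  ⟨gm_swap h.gm, h.alg, h.surj, h.nil, fun g => (mul_comm _ _).trans (h.one g), h.pb, h.pa,
    fun g k => h.px k g, h.x1, h.x0⟩

theorem Kr_swap (a b : G → T) (x : G → G → T) : Kr b a (fun g k => x k g) = Kr a b x :=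
  Set.ext fun _ => ⟨fun h => ⟨h.2.1, h.1, fun k => (h.2.2 k).symm⟩,
    fun h => ⟨h.2.1, h.1, fun k => (h.2.2 k).symm⟩⟩

variable [Fintype I] [Fintype J] [Fintype R] [DecidableEq I] [DecidableEq J]

/-- the functions `b j` span the cocycles, with the dual family `ξ`, `n` -/
structure Sd (red : O →+* F) (χ ψ : G →* Fˣ) (g0 : G) (K : Set G) (b : J → G → F) (ξ : J → G)
    (n : J → J → O) : Prop where
  sp : ∀ f, Cc χ ψ f → f g0 = 0 → (∀ k ∈ K, f k = 0) → ∃ l : J → F, ∀ g, f g = ∑ j, l j * b j g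
  du : ∀ j j', ∑ k, red (n j k) * b j' (ξ k) = if j = j' then 1 else 0

/-- the generators of the module of the entries -/
def bt (ι : O →+* T) (x : G → G → T) (ξ : J → G) (n : J → J → O) (j : J) (h : G) : T :=
  ∑ k, ι (n j k) * x (ξ k) h

/-- the combinations of the determinants -/
def yv (ι : O →+* T) (d : G → T) (τ : R → G) (m : R → O) : T := ∑ k, ι (m k) * (d (τ k) - 1)

/-- the small elements -/
def Ia (red : O →+* F) (ι : O →+* T) (π : T →+* F) (x : G → G → T) : Ideal T :=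
  (RingHom.ker red).map ι ⊔ RingHom.ker π ^ 2 ⊔ Ideal.span {z | ∃ g h, z = x g h}

/-- second order reciprocity -/
def R2 (χ ψ : G →* Fˣ) (K D : Set G) (b : J → G → F) (τ : R → G) (s : J → R → F) (c : G) (ε : F) :
    Prop :=
  ∀ (f : G → F) (ω : J → G → F),
    (∀ g h, f (g * h) = χ g * f h + f g * ψ h + ∑ j, χ g * ω j g * b j h) → (∀ j, Ad (ω j)) →
    (∀ k ∈ K, f k = 0 ∧ ∀ j, ω j k = 0) → (∀ g ∈ D, ∀ j, ω j g = 0) →
    ∑ j, ∑ k, s j k * ω j (τ k) = ε * f c

/-- the data which do not depend on the level -/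
structure Dt (O G I J : Type) where
  g0 : G
  c : G
  s : G
  κ : O
  ξ : J → G
  n : J → J → O
  ζ : I → G
  m : I → I → O

/-- the products of the generators -/
def xv (ι : O →+* T) (x : G → G → T) (X : Dt O G I J) (i : I) (j : J) : T :=
  ∑ l, ι (X.m i l) * bt ι x X.ξ X.n j (X.ζ l)

/-- **the values of the variables** -/
def vv (ι : O →+* T) (d a : G → T) (x : G → G → T) (X : Dt O G I J) (τ : R → G)
    (M : I × J → R → O) : Vr I J (Option R) → T :=
  Sum.elim (fun _ => a X.c - 1) (Sum.elim (fun p => yv ι d τ (M p))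
    (Sum.elim (fun p => xv ι x X p.1 p.2) fun k => k.elim (a X.s - ι X.κ) fun k => a (τ k) - 1))

/-- **the input from number theory**: `K` is the set of the trivial elements, the determinant is
fixed on `D` and the trace on `TT` -/
structure Fn (red : O →+* F) (χ ψ : G →* Fˣ) (K D TT : Set G) (s : Sh I J) (b : J → G → F)
    (c : I → G → F) (X : Dt O G I J) (τ : R → G) (M : I × J → R → O) : Prop where
  sb : Sd red χ ψ X.g0 K b X.ξ X.n
  sc : Sd red ψ χ X.g0 K c X.ζ X.m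
  c2 : X.c * X.c = 1
  cc : ∀ i, c i X.c = if i = s.i0 then 1 else 0
  bG : s.G = true → ∀ j, b j X.c = if j = s.j0 then 1 else 0
  bH : s.G = false → ∀ j, b j X.c = 0
  row : ∀ i ∈ s.I0, R2 χ ψ K D b τ (fun j k => red (M (i, j) k)) X.c 0
  col : ∀ j ∈ s.J0, R2 ψ χ K D c τ (fun i k => red (M (i, j) k)) X.c 0
  lst : s.G = false → R2 χ ψ K D b τ (fun j k => red (M (s.i0, j) k)) X.c 1
  inv : ∀ w : R → F, (∀ p, ∑ k, red (M p k) * w k = 0) → w = 0
  hτ : ∀ k, χ (τ k) = 1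
  hκ : red X.κ = χ X.s
  hω : ∀ p : G → F, Ad p → (∀ k ∈ K, p k = 0) → (∀ g ∈ D, p g = 0) → (∀ k, p (τ k) = 0) →
    ∀ g, p g = 0
  hα : ∀ p : G → F, Ad p → (∀ k ∈ K, p k = 0) → (∀ g ∈ TT, χ g ≠ ψ g → p g = 0) → p X.c = 0 →
    p X.s = 0 → (∀ k, p (τ k) = 0) → ∀ g, p g = 0

end defs

/-- row BGEN: generators of the module of the entries -/
def BGEN : Prop := ∀ (O F T G J : Type) [CommRing O] [Field F] [CommRing T] [Group G] [Fintype J]
  [DecidableEq J] (red : O →+* F) (ι : O →+* T) (π : T →+* F) (χ ψ : G →* Fˣ) (g0 : G) (t : G → T)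
  (d : G →* Tˣ) (a b : G → T) (x : G → G → T) (β : J → G → F) (ξ : J → G) (n : J → J → O),
  Gq red ι π χ ψ g0 t d a b x → Sd red χ ψ g0 (Kr a b x) β ξ n →
  ∀ g, ∃ μ : J → T, (∀ j, π (μ j) = β j g) ∧ ∀ h, x g h = ∑ j, μ j * bt ι x ξ n j h

/-- row BREL (from BGEN): relations between the generators -/
def BREL : Prop := ∀ (O F T G J R : Type) [CommRing O] [Field F] [CharP F 2] [CommRing T] [Group G]
  [Fintype J] [DecidableEq J] [Fintype R] (red : O →+* F) (ι : O →+* T) (π : T →+* F)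
  (χ ψ : G →* Fˣ) (g0 : G) (t : G → T) (d : G →* Tˣ) (a b : G → T) (x : G → G → T)
  (β : J → G → F) (ξ : J → G) (n : J → J → O) (D : Set G) (τ : R → G) (s : J → R → O) (c : G)
  (ε : O), Gq red ι π χ ψ g0 t d a b x → Sd red χ ψ g0 (Kr a b x) β ξ n →
  (∀ g ∈ D, ∃ o, (d g : T) = ι o) →
  R2 χ ψ (Kr a b x) D β τ (fun j k => red (s j k)) c (red ε) → (ε = 0 ∨ ∀ j, β j c = 0) →
  ∃ ν : J → T, (∀ j, ν j ∈ Ia red ι π x) ∧
    ∀ h, ∑ j, (yv ι (fun g => (d g : T)) τ (s j) + ν j) * bt ι x ξ n j h = ι ε * x c h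

/-- row AGEN (from BGEN): the variables generate the ring -/
def AGEN : Prop := ∀ (O F T G I J R : Type) [CommRing O] [Field F] [CharP F 2] [CommRing T]
  [Group G] [Fintype I] [Fintype J] [Fintype R] [DecidableEq I] [DecidableEq J] (red : O →+* F)
  (ι : O →+* T) (π : T →+* F) (χ ψ : G →* Fˣ) (t : G → T) (d : G →* Tˣ) (a b : G → T)
  (x : G → G → T) (D TT : Set G) (s : Sh I J) (β : J → G → F) (γ : I → G → F) (X : Dt O G I J)
  (τ : R → G) (M : I × J → R → O), Gq red ι π χ ψ X.g0 t d a b x →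
  Fn red χ ψ (Kr a b x) D TT s β γ X τ M → (∀ g ∈ D, ∃ o, (d g : T) = ι o) →
  (∀ g ∈ TT, ∃ o, t g = ι o) →
  Subring.closure (Set.range ι ∪ Set.range t ∪ Set.range fun g => (d g : T)) = ⊤ →
  (∀ k, π (vv ι (fun g => (d g : T)) a x X τ M k) = 0) ∧
    ∀ p : T, ∃ f : MvPolynomial (Vr I J (Option R)) O,
      p = MvPolynomial.eval₂Hom ι (vv ι (fun g => (d g : T)) a x X τ M) f

/-- row RELP (from BGEN and BREL): the relations, lifted to the ring of power series -/
def RELP : Prop := ∀ (O F T G I J R : Type) [CommRing O] [Field F] [CharP F 2] [CommRing T]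
  [Group G] [Fintype I] [Fintype J] [Fintype R] [DecidableEq I] [DecidableEq J] (red : O →+* F)
  (ι : O →+* T) (π : T →+* F) (χ ψ : G →* Fˣ) (t : G → T) (d : G →* Tˣ) (a b : G → T)
  (x : G → G → T) (D TT : Set G) (s : Sh I J) (β : J → G → F) (γ : I → G → F) (X : Dt O G I J)
  (τ : R → G) (M : I × J → R → O) (ϖ : O) (Φ : PS O (Vr I J (Option R)) →+* T),
  Gq red ι π χ ψ X.g0 t d a b x → Fn red χ ψ (Kr a b x) D TT s β γ X τ M →
  (∀ g ∈ D, ∃ o, (d g : T) = ι o) → RingHom.ker red = Ideal.span {ϖ} →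
  (∀ o, Φ (MvPowerSeries.C o) = ι o) →
  (∀ k, Φ (MvPowerSeries.X k) = vv ι (fun g => (d g : T)) a x X τ M k) → Function.Surjective Φ →
  (∀ u, π (Φ u) = red (MvPowerSeries.constantCoeff u)) →
  ∀ j, ∃ h ∈ Er ϖ (s.wt (Option R)) (s.dg j),
    Φ (((s.eqn (Option R) O j : MvPolynomial (Vr I J (Option R)) O) : PS O (Vr I J (Option R))) +
      h) = 0

end Vale.Agent.P022R
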