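import Vale.Agent.P022R.Fnl

/-!
# P022R: the off-diagonal modules
-/

set_option linter.all false

noncomputable section

namespace Vale.Agent.P022R.Alg

open Vale.Agent.P022F (Cc)

variable {G O T M F J : Type} [Group G] [CommRing O] [CommRing T] [AddCommGroup M] [Module T M]
  [Field F] [Fintype J]

/-- dual functionals -/
theorem xi [DecidableEq J] {X : Type} {b : J → X → F} (h : LinearIndependent F b) :
    ∃ ξ : J → X →₀ F, ∀ j j', (ξ j).sum (fun g c => c * b j' g) = if j = j' then 1 else 0 := by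
  let E : (X →₀ F) →ₗ[F] (J → F) := Finsupp.linearCombination F fun g j => b j g
  have hE : LinearMap.range E = ⊤ := by
    by_contra hn
    obtain ⟨φ, h1, h2⟩ := Submodule.exists_le_ker_of_lt_top _ (lt_top_iff_ne_top.2 hn)
    apply h1
    have h3 : ∀ j, φ (Pi.single j 1) = 0 := Fintype.linearIndependent_iff.1 h _ (funext fun g => by
      have := h2 ⟨Finsupp.single g 1, rfl⟩
      rw [LinearMap.mem_ker, Finsupp.linearCombination_single, one_smul,
        LinearMap.pi_apply_eq_sum_univ] at this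
      rw [Finset.sum_apply, Pi.zero_apply, ← this]
      refine Finset.sum_congr rfl fun j _ => ?_
      rw [Pi.smul_apply, smul_eq_mul, smul_eq_mul, mul_comm]
      congr 2
      exact funext fun k => by rw [Pi.single_apply]; exact if_congr eq_comm rfl rfl)
    exact LinearMap.pi_ext' fun j => LinearMap.ext_ring (h3 j)
  choose ξ hξ using fun j : J => LinearMap.range_eq_top.1 hE (Pi.single j 1)
  refine ⟨ξ, fun j j' => ?_⟩
  have := congrFun (hξ j) j'
  rw [Finsupp.linearCombination_apply, Finsupp.sum, Finset.sum_apply, Pi.single_apply] at this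
  rw [Finsupp.sum, ← if_congr eq_comm rfl rfl, ← this]
  rfl

theorem xi_sp [DecidableEq J] {X : Type} {b : J → X → F} {ξ : J → X →₀ F}
    (h : ∀ j j', (ξ j).sum (fun g c => c * b j' g) = if j = j' then 1 else 0) {f : X → F}
    (hf : f ∈ Submodule.span F (Set.range b)) (g : X) :
    f g = ∑ j, ((ξ j).sum fun y c => c * f y) * b j g := by
  obtain ⟨e, rfl⟩ := (Submodule.mem_span_range_iff_exists_fun F).1 hf
  rw [Finset.sum_apply]
  refine Finset.sum_congr rfl fun j _ => ?_
  have : ((ξ j).sum fun y c => c * (∑ i, e i • b i) y) = e j := by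
    simp only [Finset.sum_apply, Pi.smul_apply, smul_eq_mul, Finset.mul_sum, Finsupp.sum]
    rw [Finset.sum_comm, Finset.sum_eq_single j]
    · have := h j j
      rw [if_pos rfl, Finsupp.sum] at this
      refine Eq.trans ?_ ((congrArg (e j * ·) this).trans (mul_one _))
      rw [Finset.mul_sum]
      exact Finset.sum_congr rfl fun _ _ => by ring
    · intro i _ hi
      have := h j i
      rw [if_neg hi.symm, Finsupp.sum] at this
      refine Eq.trans ?_ ((congrArg (e i * ·) this).trans (mul_zero _))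
      rw [Finset.mul_sum]
      exact Finset.sum_congr rfl fun _ _ => by ring
    · exact fun hn => absurd (Finset.mem_univ j) hn
  rw [this, Pi.smul_apply, smul_eq_mul]

/-- coefficients: `σ` is a section of `red` -/
structure Sx (red : O →+* F) (σ : F → O) (ι : O →+* T) (π : T →+* F) : Prop where
  sec : ∀ y, red (σ y) = y
  pi : ∀ c, π (ι c) = red c
  nil : ∃ n, RingHom.ker π ^ n = ⊥

/-- functionals which kill `N M` -/
structure Lam (red : O →+* F) (ι : O →+* T) (N : Ideal T) (l : M →+ F) : Prop where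
  sm : ∀ c z, l (ι c • z) = red c * l z
  ki : ∀ r ∈ N, ∀ z, l (r • z) = 0

variable {red : O →+* F} {σ : F → O} {ι : O →+* T} {π : T →+* F}

theorem Sx.sep (h : Sx red σ ι π) {N : Ideal T} (hN : ∀ c, red c = 0 → ι c ∈ N) {y : M}
    (hy : y ∉ N • (⊤ : Submodule T M)) : ∃ l : M →+ F, Lam red ι N l ∧ l y ≠ 0 := by
  letI : Module O M := Module.compHom M ι
  let N' : Submodule O M :=
    { carrier := (N • (⊤ : Submodule T M) : Submodule T M)
      zero_mem' := zero_mem _
      add_mem' := fun a b => add_mem a b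
      smul_mem' := fun c x hx => (N • (⊤ : Submodule T M)).smul_mem (ι c) hx }
  obtain ⟨l, l1, l2, l3⟩ := Fnl.fnl red (fun y => ⟨σ y, h.sec y⟩) N'
    (fun c hc v => show ι c • v ∈ N • (⊤ : Submodule T M) from
      Submodule.smul_mem_smul (hN c hc) trivial) (y := y) hy
  exact ⟨l, ⟨l1, fun r hr z => l2 _ (show r • z ∈ N • (⊤ : Submodule T M) from
    Submodule.smul_mem_smul hr trivial)⟩, l3⟩

theorem Sx.sub (h : Sx red σ ι π) (r : T) : π (r - ι (σ (π r))) = 0 := by
  rw [map_sub, h.pi, h.sec, sub_self]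

/-- the combination of the `β g` with coefficients `ξ` -/
def bt (e : F → T) (β : G → M) (ξ : G →₀ F) : M := ξ.sum fun g c => e c • β g

theorem Lam.bt (h : Sx red σ ι π) {N : Ideal T} {l : M →+ F} (hl : Lam red ι N l) (β : G → M)
    (ξ : G →₀ F) : l (bt (fun c => ι (σ c)) β ξ) = ξ.sum fun g c => c * l (β g) := by
  rw [Alg.bt, Finsupp.sum, map_sum]
  exact Finset.sum_congr rfl fun g _ => by rw [hl.sm, h.sec]

theorem coef {N : Ideal T} {γ : J → M} (hγ : Submodule.span T (Set.range γ) = ⊤) {z : M}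
    (hz : z ∈ N • (⊤ : Submodule T M)) : ∃ u : J → T, (∀ j, u j ∈ N) ∧ z = ∑ j, u j • γ j := by
  refine Submodule.smul_induction_on hz (fun r hr w _ => ?_) ?_
  · obtain ⟨e, rfl⟩ := (Submodule.mem_span_range_iff_exists_fun T).1 (hγ ▸ Submodule.mem_top :
      w ∈ Submodule.span T (Set.range γ))
    exact ⟨fun j => r * e j, fun j => N.mul_mem_right _ hr, by
      rw [Finset.smul_sum]; exact Finset.sum_congr rfl fun j _ => smul_smul _ _ _⟩
  · rintro x y ⟨u, u1, rfl⟩ ⟨v, v1, rfl⟩
    exact ⟨fun j => u j + v j, fun j => add_mem (u1 j) (v1 j), by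
      rw [← Finset.sum_add_distrib]; exact Finset.sum_congr rfl fun j _ => (add_smul _ _ _).symm⟩

variable {χ ψ : G →* Fˣ} {a δ : G → T} {β : G → M} {b : J → G → F} {ξ : J → G →₀ F}

/-- **generators** -/
theorem gen1 (h : Sx red σ ι π) (ha : ∀ g, π (a g) = χ g) (hδ : ∀ g, π (δ g) = ψ g)
    (hβ : ∀ g g', β (g * g') = a g • β g' + δ g' • β g)
    (top : Submodule.span T (Set.range β) = ⊤)
    (hd : ∀ f : G → F, Cc χ ψ f → (∀ u, β u = 0 → f u = 0) →
      ∀ g, f g = ∑ j, ((ξ j).sum fun y c => c * f y) * b j g) :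
    Submodule.span T (Set.range fun j => bt (fun c => ι (σ c)) β (ξ j)) = ⊤ ∧
    ∀ g, ∃ u : J → T, (∀ j, π (u j) = b j g) ∧
      β g = ∑ j, u j • bt (fun c => ι (σ c)) β (ξ j) := by
  have c1 : ∀ g, β g - ∑ j, ι (σ (b j g)) • bt (fun c => ι (σ c)) β (ξ j) ∈
      RingHom.ker π • (⊤ : Submodule T M) := fun g => by
    by_contra hn
    obtain ⟨l, hl, l0⟩ := h.sep (fun c hc => by rw [RingHom.mem_ker, h.pi, hc]) hn
    have sm : ∀ r z, l (r • z) = π r * l z := fun r z => by
      have := hl.ki _ (h.sub r) z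
      rwa [sub_smul, map_sub, hl.sm, h.sec, sub_eq_zero] at this
    apply l0
    rw [map_sub, map_sum, hd (fun g => l (β g)) (fun g g' => by
      show l _ = _ * l _ + l _ * _
      rw [hβ, map_add, sm, sm, ha, hδ, mul_comm (ψ g' : F)]) (fun u hu => by
      show l _ = 0
      rw [hu, map_zero]) g, sub_eq_zero]
    exact Finset.sum_congr rfl fun j _ => by rw [hl.sm, h.sec, hl.bt h, mul_comm]
  have c2 : Submodule.span T (Set.range fun j => bt (fun c => ι (σ c)) β (ξ j)) = ⊤ := by
    obtain ⟨n, hn⟩ := h.nil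
    refine top_le_iff.1 (Fnl.nak hn ?_)
    conv_lhs => rw [← top]
    refine Submodule.span_le.2 ?_
    rintro _ ⟨g, rfl⟩
    rw [← sub_add_cancel (β g) (∑ j, ι (σ (b j g)) • bt (fun c => ι (σ c)) β (ξ j))]
    exact add_mem (Submodule.mem_sup_right (c1 g)) (Submodule.mem_sup_left
      (Submodule.sum_mem _ fun j _ => Submodule.smul_mem _ _ (Submodule.subset_span ⟨j, rfl⟩)))
  refine ⟨c2, fun g => ?_⟩
  obtain ⟨u, u1, u2⟩ := coef c2 (c1 g)
  refine ⟨fun j => u j + ι (σ (b j g)), fun j => ?_, ?_⟩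
  · rw [map_add, RingHom.mem_ker.1 (u1 j), h.pi, h.sec, zero_add]
  · rw [sub_eq_iff_eq_add.1 u2, ← Finset.sum_add_distrib]
    exact Finset.sum_congr rfl fun j _ => (add_smul _ _ _).symm

/-- **relations** -/
theorem rec1 [CharP F 2] (h : Sx red σ ι π) (ha : ∀ g, π (a g) = χ g) (hδ : ∀ g, π (δ g) = ψ g)
    (inv : ∀ g, (χ g : F) * ψ g = 1) (hβ : ∀ g g', β (g * g') = a g • β g' + δ g' • β g)
    (hb : ∀ j, Cc χ ψ (b j)) {γ : J → M}
    (hγ : ∀ g, ∃ u : J → T, (∀ j, π (u j) = b j g) ∧ β g = ∑ j, u j • γ j)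
    {N : Ideal T} (hN : ∀ c, red c = 0 → ι c ∈ N) (h2 : ∀ x y, π x = 0 → π y = 0 → x * y ∈ N)
    {d : G → T} (dm : ∀ g g', d (g * g') = d g * d g')
    (δm : ∀ g g', δ (g * g') - δ g * δ g' ∈ N) (dt : ∀ g, a g * δ g - d g ∈ N)
    (d1 : ∀ g, π (d g) = 1) {K : Type} [Fintype K] (τ : K → G) (y : J → K → F) (c0 : G) (κ : F)
    (hκ : ∀ j, b j c0 * κ = 0)
    (hR : ∀ (f : G → F) (om : J → G → F),
      (∀ g k, f (g * k) = (χ g : F) * f k + f g * ψ k + ∑ j, om j g * (χ g * b j k)) →
      (∀ j g k, om j (g * k) = om j g + om j k) → (∀ j g, d g - 1 ∈ N → om j g = 0) →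
      (∀ u, β u = 0 → (∀ j, b j u = 0) → f u = 0) → ∑ k, ∑ j, y j k * om j (τ k) = f c0 * κ) :
    ∑ j, (∑ k, ι (σ (y j k)) * (d (τ k) - 1)) • γ j - ι (σ κ) • β c0 ∈
      N • (⊤ : Submodule T M) := by
  by_contra hn
  obtain ⟨l, hl, l0⟩ := h.sep hN hn
  apply l0
  have two : (2 : F) = 0 := CharTwo.two_eq_zero
  have k1 : ∀ s r z, π r = 0 → l ((s * r) • z) = π s * l (r • z) := fun s r z hr => by
    have := hl.ki _ (h2 _ _ (h.sub s) hr) z
    rwa [sub_mul, sub_smul, map_sub, mul_smul (ι _), hl.sm, h.sec, sub_eq_zero] at this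
  have k2 : ∀ r g, π r = 0 → l (r • β g) = ∑ j, b j g * l (r • γ j) := fun r g hr => by
    obtain ⟨u, u1, u2⟩ := hγ g
    rw [u2, Finset.smul_sum, map_sum]
    exact Finset.sum_congr rfl fun j _ => by rw [smul_smul, mul_comm, k1 _ _ _ hr, u1]
  have eqv : ∀ {r s : T} (z : M), r - s ∈ N → l (r • z) = l (s • z) := fun z e => by
    have := hl.ki _ e z
    rwa [sub_smul, map_sub, sub_eq_zero] at this
  let a' : G → T := fun g => a g - ι (σ (χ g))
  let δ' : G → T := fun g => δ g - ι (σ (ψ g))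
  have pa : ∀ g, π (a' g) = 0 := fun g => by rw [← h.sub (a g), ha]
  have pδ : ∀ g, π (δ' g) = 0 := fun g => by rw [← h.sub (δ g), hδ]
  have pd : ∀ g, π (d g - 1) = 0 := fun g => by rw [map_sub, d1, map_one, sub_self]
  let A : J → G → F := fun j g => l (a' g • γ j)
  let D : J → G → F := fun j g => l (δ' g • γ j)
  let om : J → G → F := fun j g => l ((d g - 1) • γ j)
  have e1 : ∀ g k, l (β (g * k)) = χ g * l (β k) + l (β g) * ψ k +
      ∑ j, (b j k * A j g + b j g * D j k) := fun g k => by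
    rw [hβ, ← sub_add_cancel (a g) (ι (σ (χ g))), ← sub_add_cancel (δ k) (ι (σ (ψ k))), add_smul,
      add_smul, map_add, map_add, map_add, hl.sm, hl.sm, h.sec, h.sec, k2 _ _ (pa g), k2 _ _ (pδ k),
      Finset.sum_add_distrib]
    ring
  have e2 : ∀ j g k, D j (g * k) = ψ g * D j k + ψ k * D j g := fun j g k => by
    have m := add_mem (δm g k) (hN (σ (ψ g) * σ (ψ k) - σ (ψ (g * k))) (by
      rw [map_sub, map_mul, h.sec, h.sec, h.sec, map_mul, Units.val_mul, sub_self]))
    show l _ = _ * l _ + _ * l _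
    rw [eqv (s := δ g * δ' k + ι (σ (ψ k)) * δ' g) _ (by
      convert m using 1
      simp only [δ', map_sub, map_mul]
      ring), add_smul, map_add, k1 _ _ _ (pδ k), k1 _ _ _ (pδ g), hδ, h.pi, h.sec]
  have e3 : ∀ j g, om j g = ψ g * A j g + χ g * D j g := fun j g => by
    have m := sub_mem (hN (σ (χ g) * σ (ψ g) - 1) (by
      rw [map_sub, map_mul, h.sec, h.sec, inv, map_one, sub_self])) (dt g)
    show l _ = _ * l _ + _ * l _
    rw [eqv (s := δ g * a' g + ι (σ (χ g)) * δ' g) _ (by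
      convert m using 1
      simp only [a', δ', map_sub, map_mul, map_one]
      ring), add_smul, map_add, k1 _ _ _ (pa g), k1 _ _ _ (pδ g), hδ, h.pi, h.sec]
  have key := hR (fun g => l (β g) + ∑ j, χ g * D j g * b j g) om (fun g k => by
      show l _ + _ = _ * (l _ + _) + (l _ + _) * _ + _
      rw [e1, mul_add, add_mul, Finset.mul_sum, Finset.sum_mul]
      have : ∑ j, (b j k * A j g + b j g * D j k) + ∑ j, χ (g * k) * D j (g * k) * b j (g * k) =
          ∑ j, (χ g : F) * (χ k * D j k * b j k) + ∑ j, χ g * D j g * b j g * ψ k +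
            ∑ j, om j g * (χ g * b j k) := by
        rw [← Finset.sum_add_distrib, ← Finset.sum_add_distrib, ← Finset.sum_add_distrib]
        refine Finset.sum_congr rfl fun j _ => ?_
        rw [e2, e3, hb j, map_mul, Units.val_mul]
        have i1 := inv g
        have i2 := inv k
        linear_combination (b j g * D j k) * two +
          (χ k * D j k * (χ g * b j k + b j g * ψ k) - A j g * b j k) * i1 +
          (χ g * D j g * (χ g * b j k + b j g * ψ k) + b j g * D j k) * i2
      linear_combination this)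
    (fun j g k => by
      show l _ = l _ + l _
      rw [dm, show d g * d k - 1 = d g * (d k - 1) + (d g - 1) by ring, add_smul, map_add,
        k1 _ _ _ (pd k), d1, one_mul, add_comm])
    (fun j g e => hl.ki _ e _)
    (fun u h1 h2 => by
      show l _ + _ = 0
      rw [h1, map_zero, zero_add]
      exact Finset.sum_eq_zero fun j _ => by rw [h2, mul_zero])
  rw [add_mul, Finset.sum_mul, Finset.sum_eq_zero (s := Finset.univ)
    (f := fun j => χ c0 * D j c0 * b j c0 * κ) fun j _ => by rw [mul_assoc, hκ, mul_zero],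
    add_zero, Finset.sum_comm] at key
  rw [map_sub, map_sum, hl.sm, h.sec, mul_comm κ, ← key, sub_eq_zero]
  refine Finset.sum_congr rfl fun j _ => ?_
  rw [Finset.sum_smul, map_sum]
  exact Finset.sum_congr rfl fun k _ => by rw [mul_smul, hl.sm, h.sec]

end Vale.Agent.P022R.Alg
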