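import Vale.Agent.P022D.As.Defs

/-!
# P022R, geometry of the patched ring (statements)
-/

set_option linter.all false

open IsLocalRing

noncomputable section

namespace Vale.Agent.P022R

open Vale.Agent.P022D.Core (PS Coef I0)

/-- the shape of the equations: rows `I0`, columns `J0`; `G` is the generic case -/
structure Sh (I J : Type) where
  I0 : Finset I
  J0 : Finset J
  i0 : I
  j0 : J
  G : Bool

variable {I J : Type} [Fintype I] [Fintype J] [DecidableEq I] [DecidableEq J]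

/-- the three cases -/
structure Sh.Ok (s : Sh I J) : Prop where
  hi : s.i0 ∉ s.I0
  cI : s.I0.card + 1 = Fintype.card J
  cJ : s.J0.card + 1 = Fintype.card I
  cG : s.G = true → s.j0 ∉ s.J0 ∧ Fintype.card I = Fintype.card J
  cH : Fintype.card I = Fintype.card J ∨ Fintype.card I = Fintype.card J + 1

/-- the variables `a`, `Y`, `x` and the free variables -/
abbrev Vr (I J K : Type) : Type := Unit ⊕ (I × J) ⊕ (I × J) ⊕ K

/-- the variables `a`, `Y`, `γ`, `β` and the free variables of the framed ring -/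
abbrev Vf (I J K : Type) : Type := Unit ⊕ (I × J) ⊕ (I ⊕ J) ⊕ K

/-- the names of the equations -/
abbrev Eq (I J : Type) : Type := (I × I × J × J) ⊕ (I × I) ⊕ (J × J) ⊕ Unit

/-- the names of the framed equations -/
abbrev Ef (I J : Type) : Type := I ⊕ J ⊕ Unit

section pol

variable (K R : Type) [CommRing R]

def va : MvPolynomial (Vr I J K) R := MvPolynomial.X (Sum.inl ())
def vY (i : I) (j : J) : MvPolynomial (Vr I J K) R := MvPolynomial.X (Sum.inr (Sum.inl (i, j)))
def vx (i : I) (j : J) : MvPolynomial (Vr I J K) R :=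
  MvPolynomial.X (Sum.inr (Sum.inr (Sum.inl (i, j))))

def fa : MvPolynomial (Vf I J K) R := MvPolynomial.X (Sum.inl ())
def fY (i : I) (j : J) : MvPolynomial (Vf I J K) R := MvPolynomial.X (Sum.inr (Sum.inl (i, j)))
def fγ (i : I) : MvPolynomial (Vf I J K) R :=
  MvPolynomial.X (Sum.inr (Sum.inr (Sum.inl (Sum.inl i))))
def fβ (j : J) : MvPolynomial (Vf I J K) R :=
  MvPolynomial.X (Sum.inr (Sum.inr (Sum.inl (Sum.inr j))))

/-- **the initial forms** -/
def Sh.eqn (s : Sh I J) : Eq I J → MvPolynomial (Vr I J K) R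
  | Sum.inl (i, k, j, l) => vx K R i j * vx K R k l - vx K R i l * vx K R k j
  | Sum.inr (Sum.inl (i, k)) => if i ∈ s.I0 then ∑ j, vY K R i j * vx K R k j else 0
  | Sum.inr (Sum.inr (Sum.inl (j, l))) => if j ∈ s.J0 then ∑ i, vY K R i j * vx K R i l else 0
  | Sum.inr (Sum.inr (Sum.inr _)) => va K R ^ 2 +
      if s.G then vx K R s.i0 s.j0 else ∑ j, vY K R s.i0 j * vx K R s.i0 j

/-- the framed equations -/
def Sh.frm (s : Sh I J) : Ef I J → MvPolynomial (Vf I J K) R
  | Sum.inl i => if i ∈ s.I0 then ∑ j, fY K R i j * fβ K R j else 0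
  | Sum.inr (Sum.inl j) => if j ∈ s.J0 then ∑ i, fY K R i j * fγ K R i else 0
  | Sum.inr (Sum.inr _) => fa K R ^ 2 + fγ K R s.i0 *
      if s.G then fβ K R s.j0 else ∑ j, fY K R s.i0 j * fβ K R j

/-- `x i j ↦ γ i * β j` -/
def toF : MvPolynomial (Vr I J K) R →ₐ[R] MvPolynomial (Vf I J K) R :=
  MvPolynomial.aeval (Sum.elim (fun _ => fa K R) (Sum.elim (fun p => fY K R p.1 p.2)
    (Sum.elim (fun p => fγ K R p.1 * fβ K R p.2)
      fun k => MvPolynomial.X (Sum.inr (Sum.inr (Sum.inr k))))))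

end pol

/-- the weights of the variables -/
def Sh.wt (s : Sh I J) (K : Type) : Vr I J K → ℕ :=
  Sum.elim (fun _ => if s.G then 2 else 3) (Sum.elim (fun _ => 2) (Sum.elim (fun _ => 4) fun _ => 2))

/-- the weights of the equations -/
def Sh.dg (s : Sh I J) : Eq I J → ℕ :=
  Sum.elim (fun _ => 8) (Sum.elim (fun _ => 6) (Sum.elim (fun _ => 6) fun _ => if s.G then 4 else 6))

/-- the series of weighted order at least `k` -/
def Fil {σ : Type} (R : Type) [CommRing R] (w : σ → ℕ) (k : ℕ) : Ideal (MvPowerSeries σ R) where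
  carrier := {u | ∀ d : σ →₀ ℕ, Finsupp.weight w d < k → MvPowerSeries.coeff d u = 0}
  zero_mem' := fun _ _ => map_zero _
  add_mem' {a b} ha hb d hd := by rw [map_add, ha d hd, hb d hd, add_zero]
  smul_mem' c a ha d hd := by
    classical
    rw [smul_eq_mul, MvPowerSeries.coeff_mul]
    refine Finset.sum_eq_zero fun p hp => ?_
    rw [ha p.2 (lt_of_le_of_lt ?_ hd), mul_zero]
    rw [← (Finset.HasAntidiagonal.mem_antidiagonal.mp hp), map_add]
    exact Nat.le_add_left _ _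

/-- the error terms -/
def Er {σ O : Type} [CommRing O] (ϖ : O) (w : σ → ℕ) (k : ℕ) : Ideal (PS O σ) :=
  Ideal.span {MvPowerSeries.C ϖ} ⊔ Fil O w (k + 1)

/-- every large prime above the perturbed equations is generated by them -/
def Geo {σ ι O : Type} [CommRing O] (ϖ : O) (D : ℕ) (e : ι → PS O σ) (bb : ι → Ideal (PS O σ)) :
    Prop :=
  ∀ g : ι → PS O σ, (∀ j, g j - e j ∈ bb j) → ∀ η : Ideal (PS O σ), η.IsPrime → I0 ϖ g ≤ η →
    (D : WithBot ℕ∞) ≤ ringKrullDim (PS O σ ⧸ η) → η ≤ I0 ϖ g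

/-- row GB: pairwise coprime leading monomials; a variable which does not occur in them is not
a zero divisor -/
def GB : Prop := ∀ (σ κ F : Type) [Field F] [Fintype κ] (m : MonomialOrder.{0,0} σ)
  (f : κ → MvPolynomial σ F) (u : σ), (∀ k, f k ≠ 0) →
  (∀ k k', k ≠ k' → ∀ s, m.degree (f k) s = 0 ∨ m.degree (f k') s = 0) →
  (∀ k, m.degree (f k) u = 0) → ∀ p, MvPolynomial.X u * p ∈ Ideal.span (Set.range f) →
    p ∈ Ideal.span (Set.range f)

/-- row NZ: the variables which are inverted are not zero divisors (`j` is any column outside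
`J0`, any column at all if `J0` is everything) -/
def NZ : Prop := ∀ (I J K F : Type) [Fintype I] [Fintype J] [DecidableEq I] [DecidableEq J]
  [Fintype K] [Field F] (s : Sh I J), s.Ok →
  (∀ i ∉ s.I0, ∀ p, fγ K F i * p ∈ Ideal.span (Set.range (s.frm K F)) →
    p ∈ Ideal.span (Set.range (s.frm K F))) ∧
  ∀ j, (j ∉ s.J0 ∨ s.J0 = Finset.univ) → ∀ p, fβ K F j * p ∈ Ideal.span (Set.range (s.frm K F)) →
    p ∈ Ideal.span (Set.range (s.frm K F))

/-- row SEC: matrices of rank one -/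
def SEC : Prop := ∀ (I J A : Type) [CommRing A] (x : I → J → A),
  (∀ i k j l, x i j * x k l = x i l * x k j) →
  ∃ ev : MvPolynomial (I ⊕ J) A →ₗ[A] A, ev 1 = 1 ∧
    (∀ i j p, ev (MvPolynomial.X (Sum.inl i) * MvPolynomial.X (Sum.inr j) * p) = x i j * ev p) ∧
    (∀ (i : I) (p : MvPolynomial I A),
      ev (MvPolynomial.X (Sum.inl i) * MvPolynomial.rename Sum.inl p) = 0) ∧
    ∀ (j : J) (p : MvPolynomial J A),
      ev (MvPolynomial.X (Sum.inr j) * MvPolynomial.rename Sum.inr p) = 0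

/-- row EMB: the ring of the initial forms embeds in the framed ring -/
def EMB : Prop := ∀ (I J K F : Type) [Fintype I] [Fintype J] [DecidableEq I] [DecidableEq J]
  [Field F] (s : Sh I J) (p : MvPolynomial (Vr I J K) F),
  (toF K F p ∈ Ideal.span (Set.range (s.frm K F)) ↔ p ∈ Ideal.span (Set.range (s.eqn K F)))

/-- row DOM: solving the equations. `Z` is the set of the solved variables, with a rank `ρ`;
`Φ` is a point of the equations which is injective on the other variables -/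
def DOM : Prop := ∀ (σ F L : Type) [Fintype σ] [DecidableEq σ] [Field F] [Field L] [Algebra F L]
  (E : Ideal (MvPolynomial σ F)) (Z : Finset σ) (ρ : σ → ℕ) (Φ : MvPolynomial σ F →ₐ[F] L),
  (∀ p ∈ E, Φ p = 0) →
  AlgebraicIndependent F (fun s : {s // s ∉ Z} => Φ (MvPolynomial.X s.1)) →
  (∀ z ∈ Z, ∃ u g : MvPolynomial σ F, u * MvPolynomial.X z - g ∈ E ∧ (∀ p, u * p ∈ E → p ∈ E) ∧
    (∀ s ∈ u.vars, s ∉ Z ∨ ρ s < ρ z) ∧ ∀ s ∈ g.vars, s ∉ Z ∨ ρ s < ρ z) →
  E.IsPrime ∧ ringKrullDim (MvPolynomial σ F ⧸ E) ≤ ((Fintype.card σ - Z.card : ℕ) : WithBot ℕ∞)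

/-- row PRM (three cases; from NZ, EMB, DOM) -/
def PRM : Prop := ∀ (I J K F : Type) [Fintype I] [Fintype J] [DecidableEq I] [DecidableEq J]
  [Fintype K] [Field F] [CharP F 2] (s : Sh I J), s.Ok →
  (Ideal.span (Set.range (s.eqn K F))).IsPrime ∧
    ringKrullDim (MvPolynomial (Vr I J K) F ⧸ Ideal.span (Set.range (s.eqn K F))) ≤
      ((Fintype.card I * Fintype.card J + Fintype.card K + 1 : ℕ) : WithBot ℕ∞)

/-- row HSP: homogeneous parameters -/
def HSP : Prop := ∀ (σ F : Type) [Fintype σ] [Field F] (w : σ → ℕ), (∀ s, 0 < w s) →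
  ∀ (d : ℕ) (S : Set (MvPolynomial σ F)), (∀ p ∈ S, ∃ n, p.IsWeightedHomogeneous w n) →
  ringKrullDim (MvPolynomial σ F ⧸ Ideal.span S) ≤ (d : WithBot ℕ∞) →
  ∃ (h : Fin d → MvPolynomial σ F) (N : ℕ), (∀ i, ∃ n, 0 < n ∧ (h i).IsWeightedHomogeneous w n) ∧
    ∀ s, (MvPolynomial.X s : MvPolynomial σ F) ^ N ∈ Ideal.span S ⊔ Ideal.span (Set.range h)

/-- row GR: passage to the initial forms, over a field -/
def GR : Prop := ∀ (σ ι F : Type) [Fintype σ] [Fintype ι] [Field F] (w : σ → ℕ), (∀ s, 0 < w s) →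
  ∀ (n : ι → ℕ) (e : ι → MvPolynomial σ F) (D : ℕ), (∀ j, (e j).IsWeightedHomogeneous w (n j)) →
  (Ideal.span (Set.range e)).IsPrime →
  ringKrullDim (MvPolynomial σ F ⧸ Ideal.span (Set.range e)) ≤ (D : WithBot ℕ∞) →
  ∀ g : ι → MvPowerSeries σ F, (∀ j, g j - (e j : MvPowerSeries σ F) ∈ Fil F w (n j + 1)) →
  ∀ η : Ideal (MvPowerSeries σ F), Ideal.span (Set.range g) ≤ η →
    (D : WithBot ℕ∞) ≤ ringKrullDim (MvPowerSeries σ F ⧸ η) → η ≤ Ideal.span (Set.range g)

/-- **block GEO** (from PRM and GR) -/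
def GEO : Prop := ∀ (O I J K : Type) [CommRing O] [IsDomain O] [IsDiscreteValuationRing O] [Coef O]
  [Fintype I] [Fintype J] [DecidableEq I] [DecidableEq J] [Fintype K] (ϖ : O) (s : Sh I J),
  Irreducible ϖ → s.Ok →
  Geo ϖ (Fintype.card I * Fintype.card J + Fintype.card K + 1)
    (fun j => ((s.eqn K O j : MvPolynomial (Vr I J K) O) : PS O (Vr I J K)))
    fun j => Er ϖ (s.wt K) (s.dg j)

end Vale.Agent.P022R
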