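import Vale.Agent.P022R.Alg0
import Vale.Agent.P022R.Geo
import Vale.Agent.P022F.Gm

/-!
# P022R: the relations between the generators
-/

set_option linter.all false

noncomputable section

namespace Vale.Agent.P022R.Alg

open Vale.Agent.P022F (Cc)
open Vale.Agent.P022F.Gm (GM)

variable {G O T F I J : Type} [Group G] [CommRing O] [CommRing T] [Field F] [Fintype I] [Fintype J]

/-- linear combinations -/
def lin (e : F → T) (ξ : G →₀ F) (f : G → T) : T := ξ.sum fun g c => e c * f g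

section lin

variable {e : F → T} {ξ ζ : G →₀ F} {f f' : G → T}

theorem lin_mul (r : T) : lin e ξ f * r = lin e ξ fun g => f g * r := by
  simp only [lin, Finsupp.sum, Finset.sum_mul, mul_assoc]

theorem mul_lin (r : T) : r * lin e ξ f = lin e ξ fun g => r * f g := by
  simp only [lin, Finsupp.sum, Finset.mul_sum, mul_left_comm r]

theorem lin_sub : lin e ξ f - lin e ξ f' = lin e ξ fun g => f g - f' g := by
  simp only [lin, Finsupp.sum, ← Finset.sum_sub_distrib, mul_sub]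

theorem lin_sum {K : Type} [Fintype K] (u : K → T) (w : K → G → T) :
    (lin e ξ fun g => ∑ k, u k * w k g) = ∑ k, u k * lin e ξ (w k) := by
  simp only [lin, Finsupp.sum, Finset.mul_sum]
  rw [Finset.sum_comm]
  exact Finset.sum_congr rfl fun _ _ => Finset.sum_congr rfl fun _ _ => mul_left_comm _ _ _

theorem lin_comm (x : G → G → T) : (lin e ξ fun g => lin e ζ fun h => x g h) =
    lin e ζ fun h => lin e ξ fun g => x g h := by
  simp only [lin, Finsupp.sum, Finset.mul_sum]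
  rw [Finset.sum_comm]
  exact Finset.sum_congr rfl fun _ _ => Finset.sum_congr rfl fun _ _ => mul_left_comm _ _ _

theorem map_lin {T' : Type} [CommRing T'] (φ : T →+* T') :
    φ (lin e ξ f) = lin (fun c => φ (e c)) ξ fun g => φ (f g) := by
  simp only [lin, Finsupp.sum, map_sum, map_mul]

theorem lin_zero (h : ∀ g, f g = 0) : lin e ξ f = 0 :=
  Finset.sum_eq_zero fun g _ => (congrArg _ (h g)).trans (mul_zero _)

theorem lin_sw (h : ∀ k k', f k * f' k' = f k' * f' k) :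
    lin e ξ f * lin e ζ f' = lin e ζ f * lin e ξ f' := by
  rw [mul_lin, lin_mul (ξ := ζ)]
  congr 1
  funext k
  rw [lin_mul, mul_lin]
  congr 1
  exact funext fun k' => h _ _

end lin

theorem flip {t : G → T} {d : G →* Tˣ} {a δ : G → T} {x : G → G → T} (h : GM t d a δ x) :
    GM t d δ a fun g k => x k g :=
  ⟨fun g => by rw [add_comm, h.sum], h.b1, h.a1, h.bm, h.am,
    fun g g' k => by rw [h.cr, add_comm], fun g k k' => by rw [h.cl, add_comm],
    fun g => by rw [mul_comm, h.det], fun g k g' k' => by rw [h.sw, mul_comm]⟩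

variable {red : O →+* F} {σ : F → O} {ι : O →+* T} {π : T →+* F} {χ ψ : G →* Fˣ}
  {t : G → T} {d : G →* Tˣ} {a δ : G → T} {x : G → G → T} {b : J → G → F} {ξ : J → G →₀ F}

/-- second order reciprocity, in terms of the ring -/
def Rr (χ ψ : G →* Fˣ) (b : J → G → F) (Z1 Z2 : G → Prop) {K : Type} [Fintype K] (τ : K → G)
    (y : J → K → F) (c0 : G) (κ : F) : Prop :=
  ∀ (f : G → F) (om : J → G → F),
    (∀ g k, f (g * k) = (χ g : F) * f k + f g * ψ k + ∑ j, om j g * (χ g * b j k)) →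
    (∀ j g k, om j (g * k) = om j g + om j k) → (∀ j g, Z1 g → om j g = 0) →
    (∀ u, Z2 u → (∀ j, b j u = 0) → f u = 0) → ∑ k, ∑ j, y j k * om j (τ k) = f c0 * κ

/-- **one side** -/
theorem side [CharP F 2] (h : Sx red σ ι π) (H : GM t d a δ x) (ha : ∀ g, π (a g) = χ g)
    (hδ : ∀ g, π (δ g) = ψ g) (inv : ∀ g, (χ g : F) * ψ g = 1) (hb : ∀ j, Cc χ ψ (b j))
    (hd : ∀ f : G → F, Cc χ ψ f → (∀ u, (∀ k, x u k = 0) → f u = 0) →
      ∀ g, f g = ∑ j, ((ξ j).sum fun y c => c * f y) * b j g) :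
    (∀ g, ∃ u : J → T, (∀ j, π (u j) = b j g) ∧
      ∀ k, x g k = ∑ j, u j * lin (fun c => ι (σ c)) (ξ j) fun g => x g k) ∧
    ∀ (N : Ideal T), (∀ c, red c = 0 → ι c ∈ N) → (∀ x y, π x = 0 → π y = 0 → x * y ∈ N) →
      (∀ g k, x g k ∈ N) → ∀ (K : Type) [Fintype K] (τ : K → G) (y : J → K → F) (c0 : G) (κ : F),
      (∀ j, b j c0 * κ = 0) →
      Rr χ ψ b (fun g => ∃ c, red c = 1 ∧ (d g : T) = ι c) (fun u => ∀ k, x u k = 0) τ y c0 κ →
      ∃ z : J → T, (∀ j, z j ∈ N) ∧ ∀ k,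
        ∑ j, (∑ s, ι (σ (y j s)) * ((d (τ s) : T) - 1)) *
          lin (fun c => ι (σ c)) (ξ j) (fun g => x g k) - ι (σ κ) * x c0 k =
        ∑ j, z j * lin (fun c => ι (σ c)) (ξ j) fun g => x g k := by
  let B : Submodule T (G → T) := Submodule.span T (Set.range x)
  let β : G → B := fun g => ⟨x g, Submodule.subset_span ⟨g, rfl⟩⟩
  have hβ : ∀ g g', β (g * g') = a g • β g' + δ g' • β g := fun g g' =>
    Subtype.ext (funext fun k => H.cl g g' k)
  have top : Submodule.span T (Set.range β) = ⊤ := by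
    refine Submodule.map_injective_of_injective B.injective_subtype ?_
    rw [Submodule.map_span, Submodule.map_top, Submodule.range_subtype, ← Set.range_comp]
    rfl
  let ev : G → B →ₗ[T] T := fun k => (LinearMap.proj k).comp B.subtype
  have e1 : ∀ k g, ev k (β g) = x g k := fun _ _ => rfl
  have e2 : ∀ k ζ, ev k (bt (fun c => ι (σ c)) β ζ) =
      lin (fun c => ι (σ c)) ζ fun g => x g k := fun k ζ => by
    simp only [bt, lin, Finsupp.sum, map_sum, map_smul, smul_eq_mul, e1]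
  obtain ⟨c1, c2⟩ := gen1 h ha hδ hβ top fun f f1 f2 =>
    hd f f1 fun u hu => f2 u (Subtype.ext (funext hu))
  refine ⟨fun g => (c2 g).imp fun u hu => ⟨hu.1, fun k => ?_⟩,
    fun N n1 n2 n3 K _ τ y c0 κ hκ hR => ?_⟩
  · have := congrArg (ev k) hu.2
    simpa only [map_sum, map_smul, smul_eq_mul, e1, e2] using this
  have px : ∀ g k, π (x g k) = 0 := fun g k => by
    have := congrArg π (H.am g k)
    rw [map_add, map_mul, ha, ha, ha, map_mul, Units.val_mul] at this
    exact left_eq_add.1 this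
  obtain ⟨z, z1, z2⟩ := coef c1 (rec1 h ha hδ inv hβ hb c2 n1 n2 (d := fun g => (d g : T))
    (fun g g' => by rw [map_mul, Units.val_mul])
    (fun g g' => by rw [H.bm, add_sub_cancel_left]; exact n3 _ _)
    (fun g => by rw [← H.det, sub_sub_cancel]; exact n3 _ _)
    (fun g => by rw [← H.det, map_sub, map_mul, ha, hδ, inv, px, sub_zero]) τ y c0 κ hκ
    fun f om f1 f2 f3 f4 => hR f om f1 f2 (fun j g ⟨c, k1, k2⟩ => f3 j g (by
      rw [k2, ← map_one ι, ← map_sub]
      exact n1 _ (by rw [map_sub, k1, map_one, sub_self])))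
      fun u hu => f4 u (Subtype.ext (funext hu)))
  refine ⟨z, z1, fun k => ?_⟩
  have := congrArg (ev k) z2
  simpa only [map_sub, map_sum, map_smul, smul_eq_mul, e1, e2] using this

/-- a filtration -/
structure Fl (red : O →+* F) (ι : O →+* T) (π : T →+* F) (M : ℕ → Ideal T) : Prop where
  mul : ∀ {k l x y}, x ∈ M k → y ∈ M l → x * y ∈ M (k + l)
  anti : ∀ {k l}, k ≤ l → M l ≤ M k
  cst : ∀ k c, red c = 0 → ι c ∈ M k
  two : ∀ x, π x = 0 → x ∈ M 2

variable {c : I → G → F} {ζ : I → G →₀ F}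

/-- both sides -/
theorem both {e : F → T}
    (h1 : ∀ g, ∃ u : J → T, (∀ j, π (u j) = b j g) ∧ ∀ k, x g k = ∑ j, u j * lin e (ξ j) fun g => x g k)
    (h2 : ∀ k, ∃ u : I → T, (∀ i, π (u i) = c i k) ∧ ∀ g, x g k = ∑ i, u i * lin e (ζ i) fun k => x g k)
    {N : Ideal T} (hN : ∀ i j, (lin e (ζ i) fun k => lin e (ξ j) fun g => x g k) ∈ N) (g k : G) :
    x g k ∈ N := by
  obtain ⟨u, -, u2⟩ := h1 g
  obtain ⟨w, -, w2⟩ := h2 k
  rw [u2]
  refine Ideal.sum_mem _ fun j _ => N.mul_mem_left _ ?_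
  rw [funext w2, lin_sum]
  exact Ideal.sum_mem _ fun i _ => N.mul_mem_left _ (by rw [lin_comm]; exact hN i j)

/-- **the equations** -/
theorem pres [CharP F 2] [DecidableEq I] [DecidableEq J] (h : Sx red σ ι π) (H : GM t d a δ x)
    (ha : ∀ g, π (a g) = χ g) (hδ : ∀ g, π (δ g) = ψ g) (inv : ∀ g, (χ g : F) * ψ g = 1)
    (hb : ∀ j, Cc χ ψ (b j)) (hc : ∀ i, Cc ψ χ (c i))
    (db : ∀ f : G → F, Cc χ ψ f → (∀ u, (∀ k, x u k = 0) → f u = 0) →
      ∀ g, f g = ∑ j, ((ξ j).sum fun y c => c * f y) * b j g)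
    (dc : ∀ f : G → F, Cc ψ χ f → (∀ u, (∀ k, x k u = 0) → f u = 0) →
      ∀ g, f g = ∑ i, ((ζ i).sum fun y c => c * f y) * c i g)
    {s : Sh I J} (hs : s.Ok) {c0 : G} (cc : c0 * c0 = 1)
    (cI : ∀ i, c i c0 = if i = s.i0 then 1 else 0)
    (bJ : ∀ j, b j c0 = if s.G = true ∧ j = s.j0 then 1 else 0)
    {K : Type} [Fintype K] {τ : K → G} {y : I → J → K → F}
    (rB : ∀ i, (i ∈ s.I0 ∨ (i = s.i0 ∧ s.G = false)) → Rr χ ψ b
      (fun g => ∃ c, red c = 1 ∧ (d g : T) = ι c) (fun u => ∀ k, x u k = 0) τ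
      (fun j k => y i j k) c0 (c i c0))
    (rC : ∀ j ∈ s.J0, Rr ψ χ c (fun g => ∃ c, red c = 1 ∧ (d g : T) = ι c)
      (fun u => ∀ k, x k u = 0) τ (fun i k => y i j k) c0 (b j c0))
    {M : ℕ → Ideal T} (hM : Fl red ι π M) {K' : Type} (Φ : MvPolynomial (Vr I J K') O →+* T)
    (p1 : Φ (va K' O) = a c0 - 1)
    (p2 : ∀ i j, Φ (vY K' O i j) = ∑ k, ι (σ (y i j k)) * ((d (τ k) : T) - 1))
    (p3 : ∀ i j, Φ (vx K' O i j) = lin (fun c => ι (σ c)) (ζ i) fun k =>
      lin (fun c => ι (σ c)) (ξ j) fun g => x g k)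
    (m2 : ∀ i j, Φ (vY K' O i j) ∈ M 2) (m3 : ∀ i j, Φ (vx K' O i j) ∈ M 4) (n : Eq I J) :
    Φ (s.eqn K' O n) ∈ M (s.dg n + 1) := by
  obtain ⟨B1, B2⟩ := side h H ha hδ inv hb db
  obtain ⟨C1, C2⟩ := side h (flip H) hδ ha (fun g => by rw [mul_comm, inv]) hc dc
  have x4 : ∀ g k, x g k ∈ M 4 := both B1 C1 fun i j => p3 i j ▸ m3 i j
  have B3 := B2 (M 4) (hM.cst 4) (fun x y a1 a2 => hM.mul (hM.two x a1) (hM.two y a2)) x4 K τ
  have C3 := C2 (M 4) (hM.cst 4) (fun x y a1 a2 => hM.mul (hM.two x a1) (hM.two y a2))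
    (fun g k => x4 k g) K τ
  set e : F → T := fun c => ι (σ c) with he
  have e0 : ∀ k, ι (σ 0) ∈ M k := fun k => hM.cst k _ (h.sec 0)
  rcases n with ⟨i, k, j, l⟩ | ⟨i, k⟩ | ⟨j, l⟩ | _
  · rw [Sh.eqn, map_sub, map_mul, map_mul, p3, p3, p3, p3, lin_sw (f := fun k => lin e (ξ j) fun g => x g k)
      (f' := fun k => lin e (ξ l) fun g => x g k) (fun k k' => by
        rw [lin_mul, lin_mul]
        congr 1
        funext g
        rw [mul_lin, mul_lin]
        congr 1
        exact funext fun g' => H.sw _ _ _ _), mul_comm, sub_self]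
    exact zero_mem _
  · rw [Sh.eqn]
    split_ifs with hi
    swap
    · rw [map_zero]; exact zero_mem _
    have k0 : c i c0 = 0 := by rw [cI, if_neg fun e : i = s.i0 => hs.hi (e ▸ hi)]
    obtain ⟨z, z1, z2⟩ := B3 (fun j k => y i j k) c0 _ (fun j => by rw [k0, mul_zero])
      (rB i (Or.inl hi))
    have := congrArg (lin e (ζ k)) (funext z2)
    rw [← lin_sub, lin_sum, lin_sum, ← mul_lin, k0, sub_eq_iff_eq_add] at this
    simp only [map_sum, map_mul, p2, p3]
    rw [this]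
    exact add_mem (Ideal.sum_mem _ fun j _ => hM.anti (show 7 ≤ 4 + 4 by omega)
      (hM.mul (z1 j) (p3 k j ▸ m3 k j))) (Ideal.mul_mem_right _ _ (e0 _))
  · rw [Sh.eqn]
    split_ifs with hj
    swap
    · rw [map_zero]; exact zero_mem _
    have k0 : b j c0 = 0 := by
      rw [bJ, if_neg fun e : s.G = true ∧ j = s.j0 => (hs.cG e.1).1 (e.2 ▸ hj)]
    obtain ⟨z, z1, z2⟩ := C3 (fun i k => y i j k) c0 _ (fun i => by rw [k0, mul_zero]) (rC j hj)
    have := congrArg (lin e (ξ l)) (funext z2)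
    rw [← lin_sub, lin_sum, lin_sum, ← mul_lin, k0, sub_eq_iff_eq_add] at this
    simp only [map_sum, map_mul, p2, p3, lin_comm (ξ := ζ _)]
    rw [this]
    exact add_mem (Ideal.sum_mem _ fun i _ => hM.anti (show 7 ≤ 4 + 4 by omega)
      (hM.mul (z1 i) (by rw [lin_comm, ← p3]; exact m3 i l))) (Ideal.mul_mem_right _ _ (e0 _))
  · have q1 := H.am c0 c0
    rw [cc, H.a1] at q1
    have q2 : ∀ k, 2 * (a c0 - 1) ∈ M k := fun k => Ideal.mul_mem_right _ _ (by
      rw [← map_ofNat ι]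
      exact hM.cst k _ (by rw [map_ofNat]; exact CharTwo.two_eq_zero))
    obtain ⟨w, w1, w2⟩ := C1 c0
    have q3 : ∀ j, Φ (vx K' O s.i0 j) - lin e (ξ j) (fun g => x g c0) ∈ M 6 := fun j => by
      have q : Φ (vx K' O s.i0 j) - lin e (ξ j) (fun g => x g c0) =
          ∑ i, ((if i = s.i0 then 1 else 0) - w i) * Φ (vx K' O i j) := by
        rw [funext w2, lin_sum]
        simp only [sub_mul, Finset.sum_sub_distrib, ite_mul, one_mul, zero_mul,
          Finset.sum_ite_eq', Finset.mem_univ, if_true, p3, lin_comm (ξ := ζ _)]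
      rw [q]
      exact Ideal.sum_mem _ fun i _ => hM.mul (hM.two _ (by
        rw [map_sub, w1, cI]
        split_ifs
        · rw [map_one, sub_self]
        · rw [map_zero, sub_self])) (m3 i j)
    have q4 : ∀ j, lin e (ξ j) (fun g => x g c0) ∈ M 4 := fun j =>
      Ideal.sum_mem _ fun g _ => Ideal.mul_mem_left _ _ (x4 _ _)
    rw [Sh.eqn, map_add, map_pow, p1]
    cases hG : s.G with
    | true =>
      obtain ⟨u, u1, u2⟩ := B1 c0
      have q : (a c0 - 1) ^ 2 + Φ (vx K' O s.i0 s.j0) =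
          (Φ (vx K' O s.i0 s.j0) - lin e (ξ s.j0) (fun g => x g c0)) +
          ∑ j, ((if j = s.j0 then 1 else 0) - u j) * lin e (ξ j) (fun g => x g c0) -
          2 * (a c0 - 1) := by
        simp only [sub_mul, Finset.sum_sub_distrib, ite_mul, one_mul, zero_mul,
          Finset.sum_ite_eq', Finset.mem_univ, if_true]
        rw [← u2]
        linear_combination -q1
      rw [if_pos rfl, q, show s.dg (Sum.inr (Sum.inr (Sum.inr _))) = 4 from if_pos hG]
      exact sub_mem (hM.anti (show 4 + 1 ≤ 6 by omega) (add_mem (q3 _)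
        (Ideal.sum_mem _ fun j _ => hM.mul (hM.two _ (by
          rw [map_sub, u1, bJ]
          by_cases hj : j = s.j0
          · rw [if_pos hj, if_pos ⟨hG, hj⟩, map_one, sub_self]
          · rw [if_neg hj, if_neg fun e => hj e.2, map_zero, sub_self])) (q4 j)))) (q2 _)
    | false =>
      obtain ⟨z, z1, z2⟩ := B3 (fun j k => y s.i0 j k) c0 _ (fun j => by
        rw [bJ, if_neg fun e => Bool.false_ne_true (hG.symm.trans e.1), zero_mul]) (rB s.i0 (Or.inr ⟨rfl, hG⟩))
      have z3 := z2 c0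
      rw [cI, if_pos rfl] at z3
      simp only [← p2] at z3
      have q : (a c0 - 1) ^ 2 + ∑ j, Φ (vY K' O s.i0 j) * Φ (vx K' O s.i0 j) =
          ∑ j, Φ (vY K' O s.i0 j) * (Φ (vx K' O s.i0 j) - lin e (ξ j) (fun g => x g c0)) +
          ∑ j, z j * lin e (ξ j) (fun g => x g c0) + ι (σ 1 - 1) * x c0 c0 - 2 * (a c0 - 1) := by
        simp only [mul_sub (Φ _), Finset.sum_sub_distrib, map_sub, map_one]
        linear_combination z3 - q1
      rw [if_neg Bool.false_ne_true, map_sum]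
      simp only [map_mul]
      rw [q, show s.dg (Sum.inr (Sum.inr (Sum.inr _))) = 6 from
        if_neg fun e => Bool.false_ne_true (hG.symm.trans e)]
      exact sub_mem (add_mem (hM.anti (show 6 + 1 ≤ 8 by omega) (add_mem
        (Ideal.sum_mem _ fun j _ => hM.mul (m2 _ j) (q3 j))
        (Ideal.sum_mem _ fun j _ => hM.mul (z1 j) (q4 j)))) (Ideal.mul_mem_right _ _
          (hM.cst _ _ (by rw [map_sub, h.sec, map_one, sub_self])))) (q2 _)

end Vale.Agent.P022R.Alg
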