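import Vale.Agent.P022R.Geo
import Vale.Agent.P022F.Gen
import Vale.Agent.P022F.OkF
import Vale.Agent.P022E.As.Defs2

/-!
# P022R: the arithmetic input of the presentation
-/

set_option linter.all false

open NumberField

noncomputable section

namespace Vale.Agent.P022R.Alg

open Vale.Agent.P022 Vale.Agent.P022D
open Vale.Agent.P022F (Cc OkF)
open Vale.Agent.P022F.Gen (Opn Unr)
open Vale.Agent.P022E.Loc (Pl)
open Vale.Agent.P022D.As (Aq)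
open Vale.Agent.P027M.S (Inert mx)

variable {F : Type} [Field F]

/-- a basis of the normalised cocycles which are unramified outside `W` and two -/
structure Bas {J : Type} (W : Finset ℕ) (g0 : GQ) (χ ψ : GQ →* Fˣ) (b : J → GQ → F) : Prop where
  coc : ∀ j, Cc χ ψ (b j)
  opn : ∀ j, Opn (b j)
  unr : ∀ j, Unr W (b j)
  nrm : ∀ j, b j g0 = 0
  li : LinearIndependent F b
  sp : ∀ f, Cc χ ψ f → Opn f → Unr W f → f g0 = 0 → f ∈ Submodule.span F (Set.range b)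

/-- second order reciprocity -/
def Rec {J : Type} [Fintype J] {r : ℕ} (W : Finset ℕ) (c0 : GQ) (χ ψ : GQ →* Fˣ)
    (b : J → GQ → F) (q : Fin r → ℕ) (τ : Fin r → GQ) (y : J → Fin r → F) (κ : F) : Prop :=
  ∀ (f : GQ → F) (om : J → GQ → F),
    (∀ g h, f (g * h) = (χ g : F) * f h + f g * ψ h + ∑ j, om j g * (χ g * b j h)) →
    (∀ j g h, om j (g * h) = om j g + om j h) → (∀ j, Opn (om j)) →
    (∀ j, Unr (Finset.univ.image q) (om j)) → (∀ j, ∀ g ∈ P022D.W.dec (Loc2.PP 2), om j g = 0) →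
    (∀ j, om j c0 = 0) → Opn f → Unr (W ∪ Finset.univ.image q) f →
    ∑ k, ∑ j, y j k * om j (τ k) = f c0 * κ

variable {I J : Type} [Fintype I] [Fintype J] [DecidableEq I] [DecidableEq J]

/-- the fixed data: `b` is indexed by the columns, `c` by the rows -/
structure Fix (W : Finset ℕ) (g0 c0 : GQ) (χ ψ : GQ →* Fˣ) (s : Sh I J) (b : J → GQ → F)
    (c : I → GQ → F) : Prop where
  ok : s.Ok
  hb : Bas W g0 χ ψ b
  hc : Bas W g0 ψ χ c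
  cI : ∀ i, c i c0 = if i = s.i0 then 1 else 0
  bJ : ∀ j, b j c0 = if s.G = true ∧ j = s.j0 then 1 else 0

/-- one level: primes `q`, generators `τ` of the inertia groups, symbols `y` -/
structure Lvl {r : ℕ} (W : Finset ℕ) (c0 : GQ) (χ ψ : GQ →* Fˣ) (s : Sh I J) (b : J → GQ → F)
    (c : I → GQ → F) (q : Fin r → ℕ) (τ : Fin r → GQ) (y : I → J → Fin r → F) : Prop where
  ine : ∀ k, ∃ P : Ideal (𝓞 Qb), P.IsPrime ∧ (q k : 𝓞 Qb) ∈ P ∧ Inert P (τ k)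
  u1 : ∀ f, Cc χ ψ f → Opn f → Unr (W ∪ Finset.univ.image q) f → Unr W f
  u2 : ∀ f, Cc ψ χ f → Opn f → Unr (W ∪ Finset.univ.image q) f → Unr W f
  ad : ∀ p : GQ → F, (∀ g h, p (g * h) = p g + p h) → Opn p → Unr (Finset.univ.image q) p →
    (∀ k, p (τ k) = 0) → Unr ∅ p
  inj : ∀ w : Fin r → F, (∀ i j, ∑ k, y i j k * w k = 0) → w = 0
  rB : ∀ i, (i ∈ s.I0 ∨ (i = s.i0 ∧ s.G = false)) → Rec W c0 χ ψ b q τ (fun j k => y i j k) (c i c0)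
  rC : ∀ j ∈ s.J0, Rec W c0 ψ χ c q τ (fun i k => y i j k) (b j c0)

/-- **row ARI** -/
def ARI : Prop := ∀ (O F : Type) [CommRing O] [IsDomain O] [IsDiscreteValuationRing O]
  [Field F] [Finite F] [CharP F 2] (S : R.Dat O F) (L : Pl O) (χ₀ ψ₀ : GQ →* Fˣ), OkF L S →
  (∀ g, (χ₀ g : F) = mx S.rb g 0 0) → (∀ g, (ψ₀ g : F) = mx S.rb g 1 1) →
  (∀ l : ℕ, l.Prime → l ∉ S.T → ∀ P : Ideal (𝓞 Qb), P.IsPrime → (l : 𝓞 Qb) ∈ P →
    ∀ s, Inert P s → L.r s = 1) →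
  (∃ g ∈ W.dec (L.P 2), mx S.rb g 0 0 ≠ mx S.rb g 1 1) →
  ∃ (χ ψ : GQ →* Fˣ) (I J : Type) (_ : Fintype I) (_ : Fintype J) (_ : DecidableEq I)
    (_ : DecidableEq J) (s : Sh I J) (b : J → GQ → F) (c : I → GQ → F) (l0 : ℕ),
    ((χ = χ₀ ∧ ψ = ψ₀) ∨ (χ = ψ₀ ∧ ψ = χ₀)) ∧ l0 ∈ L.W ∧ Fix L.W (L.g0 l0) L.c χ ψ s b c ∧
    ∀ (A : Finset ℕ) (n : ℕ), ∃ (q : Fin (Fintype.card I * Fintype.card J) → ℕ) (τ : _ → GQ)
      (y : I → J → _ → F), Function.Injective q ∧ (∀ k, Aq S.rb (A ∪ S.T) n (q k)) ∧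
      (∀ k φ, IsFrob (q k) φ → χ φ ≠ ψ φ) ∧ Lvl L.W L.c χ ψ s b c q τ y

end Vale.Agent.P022R.Alg
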