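import Vale.Agent.P022F.End0
import Vale.Agent.P022D.As.Chart
import Vale.Agent.P022D.As.Defs
import Vale.Agent.P022D.PA.Lim

/-!
# P022R: power series acting through a family of finite quotients
-/

set_option linter.all false

open IsLocalRing Filter

noncomputable section

namespace Vale.Agent.P022R.End

open Vale.Agent.P022D Vale.Agent.P022F.End0
open Vale.Agent.P022D.As (Dir Cmp Ad gr mem_gr Dis Sb)
open Vale.Agent.P022D.R (evl Van)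
open Vale.Agent.P022D.Core (Coef io y1)

variable {O T σ : Type} [CommRing O] [IsDomain O] [IsDiscreteValuationRing O] [CommRing T]
  [Fintype σ]

/-- finitely many elements suffice -/
theorem chevx [Coef O] {ϖ : O} (hϖ : Irreducible ϖ) (x : MvPowerSeries σ O →+* O)
    (hx : ∀ z ∈ maximalIdeal (MvPowerSeries σ O), x z ∈ maximalIdeal O) {W : Type}
    [AddCommGroup W] [Module (MvPowerSeries σ O) W] (dis : Dis (MvPowerSeries σ O) W)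
    (V : Set W) (j : ℕ) (h : ∀ f : MvPowerSeries σ O, (∀ w ∈ V, f • w = 0) → ϖ ^ j ∣ x f) :
    ∃ s : Finset V, ∀ u : MvPowerSeries σ O, (∀ w ∈ s, u • (w : W) = 0) → ϖ ^ j ∣ x u := by
  classical
  by_contra hn
  push Not at hn
  choose k hk using dis
  obtain ⟨y, hy⟩ := cpt (O := O) (σ := σ) (fun s : Finset V =>
    {u | (∀ w ∈ s, u • (w : W) = 0) ∧ ¬ ϖ ^ j ∣ x u})
    (fun s t => ⟨s ∪ t, fun u hu => ⟨fun w hw => hu.1 w (Finset.mem_union_left _ hw), hu.2⟩,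
      fun u hu => ⟨fun w hw => hu.1 w (Finset.mem_union_right _ hw), hu.2⟩⟩) hn fun s => by
      refine ⟨j + s.sup fun w => k w, fun z hz y hxy => ⟨fun w hw => ?_, fun hd => hz.2 ?_⟩⟩
      · have h1 : k w ≤ j + s.sup fun w => k w :=
          (Finset.le_sup (f := fun w : V => k w) hw).trans (Nat.le_add_left _ _)
        have h2 := hk w _ (Ideal.pow_le_pow_right h1 hxy)
        rwa [sub_smul, hz.1 w hw, zero_sub, neg_eq_zero] at h2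
      · have h2 : x (z - y) ∈ maximalIdeal O ^ j :=
          ((Ideal.pow_right_mono (fun a ha => hx a ha) j).trans (Ideal.le_comap_pow x j))
            (Ideal.pow_le_pow_right (Nat.le_add_right _ _) hxy)
        rw [hϖ.maximalIdeal_eq, Ideal.span_singleton_pow, Ideal.mem_span_singleton, map_sub] at h2
        have h3 := dvd_add h2 hd
        rwa [sub_add_cancel] at h3
  exact (hy ∅).2 (h y fun w hw => (hy {⟨w, hw⟩}).1 ⟨w, hw⟩ (Finset.mem_singleton_self _))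

/-- a family of ideals modulo which the elements `v s` are nilpotent -/
structure Sy (ϖ : O) (ι : O →+* T) (ev : T →+* O) (v : σ → T) (𝔊 : Set (Ideal T)) : Prop where
  irr : Irreducible ϖ
  ec : ∀ c, ev (ι c) = c
  inf : ∀ a ∈ 𝔊, ∀ b ∈ 𝔊, a ⊓ b ∈ 𝔊
  pk : ∀ k : ℕ, (Ideal.span {ϖ ^ (k + 1)}).comap ev ∈ 𝔊
  nil0 : ∀ a ∈ 𝔊, ∃ k : ℕ, ι ϖ ^ k ∈ a
  nil : ∀ a ∈ 𝔊, ∀ s, ∃ k : ℕ, v s ^ k ∈ a

variable {ϖ : O} {ι : O →+* T} {ev : T →+* O} {v : σ → T} {𝔊 : Set (Ideal T)} {a b : Ideal T}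

theorem Sy.pw (h : Sy ϖ ι ev v 𝔊) (ha : a ∈ 𝔊) :
    ∃ n, Ideal.span (Set.range fun s => Ideal.Quotient.mk a (v s)) ^ n = ⊥ := by
  have h1 : Ideal.span (Set.range fun s => Ideal.Quotient.mk a (v s)) ≤ (⊥ : Ideal _).radical := by
    refine Ideal.span_le.2 ?_
    rintro _ ⟨s, rfl⟩
    obtain ⟨k, hk⟩ := h.nil a ha s
    exact ⟨k, by rw [← map_pow, Ideal.mem_bot, Ideal.Quotient.eq_zero_iff_mem]; exact hk⟩
  obtain ⟨n, hn⟩ := Ideal.exists_pow_le_of_le_radical_of_fg h1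
    (Submodule.fg_span (Set.finite_range _))
  exact ⟨n, le_bot_iff.1 hn⟩

theorem Sy.van (h : Sy ϖ ι ev v 𝔊) (ha : a ∈ 𝔊) :
    ∃ n, Van ((Ideal.Quotient.mk a).comp ι) (fun s => Ideal.Quotient.mk a (v s)) n := by
  obtain ⟨n, hn⟩ := h.pw ha
  exact ⟨n, R.van_of_pow _ _ _ hn fun s => Ideal.subset_span ⟨s, rfl⟩⟩

theorem Sy.ker (h : Sy ϖ ι ev v 𝔊) (ha : a ∈ 𝔊) :
    ∃ k : ℕ, ∀ u ∈ maximalIdeal (MvPowerSeries σ O) ^ k, Ph ι v a u = 0 := by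
  obtain ⟨n, hn⟩ := h.van ha
  obtain ⟨m, hm⟩ := h.nil0 a ha
  refine ⟨n + m, fun u hu => R.evl_eq_zero hn fun d hd => ?_⟩
  have h1 := Ideal.pow_le_pow_right (show m ≤ n + m - d.degree by omega) (CA.Cpl.pow_le_JI _ hu d)
  rw [h.irr.maximalIdeal_eq, Ideal.span_singleton_pow, Ideal.mem_span_singleton] at h1
  obtain ⟨c, hc⟩ := h1
  rw [RingHom.comp_apply, Ideal.Quotient.eq_zero_iff_mem, hc, map_mul, map_pow]
  exact a.mul_mem_right _ hm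

theorem Sy.fac' (h : Sy ϖ ι ev v 𝔊) (ha : a ∈ 𝔊) (e : a ≤ b) (u : MvPowerSeries σ O) :
    Ideal.Quotient.factor e (Ph ι v a u) = Ph ι v b u := by
  obtain ⟨n, hn⟩ := h.van ha
  exact R.map_evl hn (Ideal.Quotient.factor e) u

theorem Sy.fac (h : Sy ϖ ι ev v 𝔊) (ha : a ∈ 𝔊) (e : a ≤ b) {u : MvPowerSeries σ O} {t : T}
    (k : Ph ι v a u = Ideal.Quotient.mk a t) : Ph ι v b u = Ideal.Quotient.mk b t := by
  rw [← h.fac' ha e, k]
  rfl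

theorem Sy.poly (h : Sy ϖ ι ev v 𝔊) (ha : a ∈ 𝔊) (f : MvPolynomial σ O) :
    Ph ι v a f = Ideal.Quotient.mk a (MvPolynomial.eval₂Hom ι v f) := by
  obtain ⟨n, hn⟩ := h.van ha
  refine (R.evl_coe hn f).trans ?_
  rw [MvPolynomial.map_eval₂Hom]

theorem Sy.cst (h : Sy ϖ ι ev v 𝔊) (ha : a ∈ 𝔊) (c : O) :
    Ph ι v a (MvPowerSeries.C c) = Ideal.Quotient.mk a (ι c) := by
  obtain ⟨n, hn⟩ := h.van ha
  exact R.evl_C hn c

theorem Sy.var (h : Sy ϖ ι ev v 𝔊) (ha : a ∈ 𝔊) (s : σ) :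
    Ph ι v a (MvPowerSeries.X s) = Ideal.Quotient.mk a (v s) := by
  obtain ⟨n, hn⟩ := h.van ha
  exact R.evl_X hn s

theorem ph_congr {v' : σ → T} (e : ∀ s, v s - v' s ∈ a) : Ph ι v a = Ph ι v' a :=
  congrArg (evl _) (funext fun s => Ideal.Quotient.eq.2 (e s))

theorem Sy.io {r : ℕ} {y : Fin r → T} (h : Sy ϖ ι ev (Sum.elim v y) 𝔊) (h' : Sy ϖ ι ev v 𝔊)
    (ha : a ∈ 𝔊) (f : MvPowerSeries σ O) :
    Ph ι (Sum.elim v y) a (io O σ r f) = Ph ι v a f := by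
  obtain ⟨n, hn⟩ := h.pw ha
  have e : Ph ι (Sum.elim v y) a = As.ext (Ph ι v a) fun i => Ideal.Quotient.mk a (y i) := by
    refine congrArg₂ evl (RingHom.ext fun c => (h'.cst ha c).symm) (funext fun s => ?_)
    rcases s with s | s
    exacts [(h'.var ha s).symm, rfl]
  rw [e]
  exact As.ext_io hn (fun s => by rw [h'.var ha]; exact Ideal.subset_span ⟨Sum.inl s, rfl⟩)
    (fun i => Ideal.subset_span ⟨Sum.inr i, rfl⟩) f

theorem Sy.dir (h : Sy ϖ ι ev v 𝔊) : Dir (GG ι v 𝔊) where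
  sur := by
    rintro _ ⟨a, ha, rfl⟩ f
    obtain ⟨t, ht⟩ := Ideal.Quotient.mk_surjective (Ph ι v a f)
    exact ⟨t, mem_gr.2 ht.symm⟩
  dir := by
    rintro _ ⟨a, ha, rfl⟩ _ ⟨b, hb, rfl⟩
    exact ⟨_, ⟨_, h.inf a ha b hb, rfl⟩,
      fun x hx => h.fac (h.inf a ha b hb) inf_le_left hx,
      fun x hx => h.fac (h.inf a ha b hb) inf_le_right hx⟩

theorem Sy.ne (h : Sy ϖ ι ev v 𝔊) : (GG ι v 𝔊).Nonempty := ⟨_, _, h.pk 0, rfl⟩

/-- solutions in all quotients at once -/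
theorem Sy.sol [Coef O] (h : Sy ϖ ι ev v 𝔊) (K : Ideal (MvPowerSeries σ O))
    (g : MvPowerSeries σ O) (t : T)
    (hs : ∀ a ∈ 𝔊, ∃ u ∈ K, Ph ι v a (g + u) = Ideal.Quotient.mk a t) :
    ∃ u ∈ K, ∀ a ∈ 𝔊, Ph ι v a (g + u) = Ideal.Quotient.mk a t := by
  haveI : Nonempty (𝔊 × ℕ) := ⟨⟨⟨_, h.pk 0⟩, 0⟩⟩
  obtain ⟨y, hy⟩ := cpt (O := O) (σ := σ)
    (fun a : 𝔊 × ℕ => {u | u ∈ K ⊔ maximalIdeal _ ^ a.2 ∧
      Ph ι v a.1.1 (g + u) = Ideal.Quotient.mk a.1.1 t})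
    (fun a b => ⟨⟨⟨_, h.inf _ a.1.2 _ b.1.2⟩, a.2 + b.2⟩,
      fun x hx => ⟨sup_le_sup_left (Ideal.pow_le_pow_right (Nat.le_add_right _ _)) K hx.1,
        h.fac (h.inf _ a.1.2 _ b.1.2) inf_le_left hx.2⟩,
      fun x hx => ⟨sup_le_sup_left (Ideal.pow_le_pow_right (Nat.le_add_left _ _)) K hx.1,
        h.fac (h.inf _ a.1.2 _ b.1.2) inf_le_right hx.2⟩⟩)
    (fun a => (hs _ a.1.2).imp fun u hu => ⟨Ideal.mem_sup_left hu.1, hu.2⟩) fun a => by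
      obtain ⟨k, hk⟩ := h.ker a.1.2
      refine ⟨k + a.2, fun x hx y hxy => ⟨?_, ?_⟩⟩
      · have := sub_mem hx.1 (Ideal.mem_sup_right
          (Ideal.pow_le_pow_right (Nat.le_add_left _ _) hxy))
        rwa [sub_sub_cancel] at this
      · have h1 := hk _ (Ideal.pow_le_pow_right (Nat.le_add_right _ _) hxy)
        rw [map_sub, sub_eq_zero] at h1
        rw [map_add, ← h1, ← map_add]
        exact hx.2
  exact ⟨y, PA.mem_of_sup K y fun k => (hy ⟨⟨_, h.pk 0⟩, k⟩).1, fun a ha => (hy ⟨⟨a, ha⟩, 0⟩).2⟩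

theorem Sy.mu [Coef O] (h : Sy ϖ ι ev v 𝔊) (t : T)
    (hs : ∀ a ∈ 𝔊, ∃ u, Ph ι v a u = Ideal.Quotient.mk a t) :
    ∃ u, ∀ a ∈ 𝔊, Ph ι v a u = Ideal.Quotient.mk a t := by
  obtain ⟨u, -, hu⟩ := h.sol ⊤ 0 t fun a ha =>
    (hs a ha).imp fun u hu => ⟨trivial, by rw [zero_add, hu]⟩
  exact ⟨0 + u, hu⟩

/-- `x` is the point -/
def Pt (ϖ : O) (ι : O →+* T) (ev : T →+* O) (v : σ → T) (x : MvPowerSeries σ O →+* O) : Prop :=
  ∀ (k : ℕ) u t, Ph ι v ((Ideal.span {ϖ ^ (k + 1)}).comap ev) u = Ideal.Quotient.mk _ t →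
    ϖ ^ (k + 1) ∣ x u - ev t

theorem Sy.exists_x [Coef O] (h : Sy ϖ ι ev v 𝔊) : ∃ x, Pt ϖ ι ev v x := by
  haveI := Coef.cpl (O := O)
  have hm : ∀ k : ℕ, maximalIdeal O ^ k = Ideal.span {ϖ ^ k} := fun k => by
    rw [h.irr.maximalIdeal_eq, Ideal.span_singleton_pow]
  let l : ∀ k : ℕ, T ⧸ (Ideal.span {ϖ ^ (k + 1)}).comap ev →+* O ⧸ maximalIdeal O ^ (k + 1) :=
    fun k => Ideal.Quotient.lift _ ((Ideal.Quotient.mk _).comp ev) fun p hp =>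
      Ideal.Quotient.eq_zero_iff_mem.2 (hm (k + 1) ▸ hp)
  let f : ∀ k : ℕ, MvPowerSeries σ O →+* O ⧸ maximalIdeal O ^ (k + 1) :=
    fun k => (l k).comp (Ph ι v _)
  have ha : StrictMono fun k : ℕ => k + 1 := strictMono_nat_of_lt_succ fun n => Nat.lt_succ_self _
  have hf : ∀ {m : ℕ}, (Ideal.Quotient.factorPow (maximalIdeal O)
      (ha.monotone m.le_succ)).comp (f (m + 1)) = f m := fun {m} => RingHom.ext fun u => by
    obtain ⟨t, ht⟩ := Ideal.Quotient.mk_surjective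
      (Ph ι v ((Ideal.span {ϖ ^ (m + 1 + 1)}).comap ev) u)
    have e := h.fac (h.pk (m + 1)) (b := (Ideal.span {ϖ ^ (m + 1)}).comap ev)
      (Ideal.comap_mono (Ideal.span_singleton_le_span_singleton.2
        (pow_dvd_pow ϖ (Nat.le_succ _)))) ht.symm
    change Ideal.Quotient.factorPow _ (ha.monotone m.le_succ) (l (m + 1) (Ph ι v _ u)) =
      l m (Ph ι v _ u)
    rw [← ht, e]
    rfl
  refine ⟨IsAdicComplete.StrictMono.liftRingHom (maximalIdeal O) ha f hf, fun k u t e => ?_⟩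
  have h1 := IsAdicComplete.StrictMono.mk_liftRingHom (maximalIdeal O) ha f hf (n := k) u
  rw [← Ideal.mem_span_singleton, ← hm, ← Ideal.Quotient.eq, h1]
  change l k (Ph ι v _ u) = _
  rw [e]
  rfl

variable {x : MvPowerSeries σ O →+* O}

theorem Sy.x_eq (h : Sy ϖ ι ev v 𝔊) (hx : Pt ϖ ι ev v x) {u : MvPowerSeries σ O} {t : T}
    (e : ∀ a ∈ 𝔊, Ph ι v a u = Ideal.Quotient.mk a t) : x u = ev t := by
  rw [← sub_eq_zero, ← Ideal.mem_bot]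
  refine PA.mem_of_sup ⊥ _ fun k => Ideal.mem_sup_right ?_
  rw [h.irr.maximalIdeal_eq, Ideal.span_singleton_pow, Ideal.mem_span_singleton]
  exact (pow_dvd_pow ϖ (Nat.le_succ k)).trans (hx k u t (e _ (h.pk k)))

theorem Sy.xm (h : Sy ϖ ι ev v 𝔊) (hx : Pt ϖ ι ev v x) :
    ∀ z ∈ maximalIdeal (MvPowerSeries σ O), x z ∈ maximalIdeal O := fun z hz => by
  obtain ⟨k, hk⟩ := h.ker (h.pk 0)
  have h1 := hx 0 (z ^ k) 0 ((hk _ (Ideal.pow_mem_pow hz k)).trans (map_zero _).symm)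
  rw [zero_add, pow_one, map_zero, sub_zero, map_pow, ← Ideal.mem_span_singleton,
    ← h.irr.maximalIdeal_eq] at h1
  exact (maximalIdeal.isMaximal O).isPrime.mem_of_pow_mem _ h1

variable {Y : Type} [AddCommGroup Y] [Module T Y]

theorem Sy.mod (h : Sy ϖ ι ev v 𝔊) (hY : Gd 𝔊 Y) :
    ∃ _ : Module (MvPowerSeries σ O) Y, Cmp (GG ι v 𝔊) Y :=
  h.dir.exists_mod fun w => by
    obtain ⟨a, ha, e⟩ := hY w
    exact ⟨_, ⟨a, ha, rfl⟩, ad_of e⟩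

variable [Module (MvPowerSeries σ O) Y]

theorem Sy.act_pow (h : Sy ϖ ι ev v 𝔊) (hc : Cmp (GG ι v 𝔊) Y) (k : ℕ) (w : Y) :
    (MvPowerSeries.C ϖ : MvPowerSeries σ O) ^ k • w = ι ϖ ^ k • w :=
  act hc (fun a ha => by rw [map_pow, map_pow, h.cst ha]) w

theorem Sy.act_one (h : Sy ϖ ι ev v 𝔊) (hc : Cmp (GG ι v 𝔊) Y) (w : Y) :
    (MvPowerSeries.C ϖ : MvPowerSeries σ O) • w = ι ϖ • w :=
  act hc (fun a ha => h.cst ha ϖ) w

theorem Sy.dis (h : Sy ϖ ι ev v 𝔊) (hc : Cmp (GG ι v 𝔊) Y) : Dis (MvPowerSeries σ O) Y :=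
  fun w => by
  obtain ⟨_, ⟨a, ha, rfl⟩, e⟩ := hc w
  obtain ⟨k, hk⟩ := h.ker ha
  exact ⟨k, fun u hu => (e u 0 (mem_gr.2 ((hk u hu).trans (map_zero _).symm))).trans (zero_smul _ _)⟩

/-- the socle -/
theorem Sy.sb (h : Sy ϖ ι ev v 𝔊) (hx : Pt ϖ ι ev v x) (hc : Cmp (GG ι v 𝔊) Y)
    (mu : ∀ t, ∃ u, ∀ a ∈ 𝔊, Ph ι v a u = Ideal.Quotient.mk a t) {b : ℕ}
    (hb : ∃ s : Fin b → Y, (∀ j, ∀ u ∈ (maximalIdeal O).comap ev, u • s j = 0) ∧
      ∀ w : Y, (∀ u ∈ (maximalIdeal O).comap ev, u • w = 0) →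
        w ∈ Submodule.span T (Set.range s)) : Sb (MvPowerSeries σ O) b Y := by
  obtain ⟨s, h1, h2⟩ := hb
  refine ⟨s, fun j u hu => ?_, fun w hw => ?_⟩
  · obtain ⟨p, hp⟩ : ∃ p, u • s j = p • s j ∧ ϖ ^ (0 + 1) ∣ x u - ev p := by
      obtain ⟨_, ⟨a, ha, rfl⟩, e⟩ := hc (s j)
      have ha' := h.inf a ha _ (h.pk 0)
      obtain ⟨t, ht⟩ := Ideal.Quotient.mk_surjective
        (Ph ι v (a ⊓ (Ideal.span {ϖ ^ (0 + 1)}).comap ev) u)
      exact ⟨t, e u t (mem_gr.2 (h.fac ha' inf_le_left ht.symm)),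
        hx 0 u t (h.fac ha' inf_le_right ht.symm)⟩
    rw [hp.1]
    refine h1 j p ?_
    have h3 := hp.2
    rw [zero_add, pow_one, ← Ideal.mem_span_singleton, ← h.irr.maximalIdeal_eq] at h3
    have h4 := sub_mem (h.xm hx u hu) h3
    rwa [sub_sub_cancel] at h4
  · have h3 := h2 w fun p hp => by
      obtain ⟨u, hu⟩ := mu p
      rw [← act hc hu]
      exact hw u fun c => hp (h.x_eq hx hu ▸ c.map x)
    refine Submodule.span_induction (fun v hv => Submodule.subset_span hv) (Submodule.zero_mem _)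
      (fun _ _ _ _ a b => Submodule.add_mem _ a b) (fun p v _ a => ?_) h3
    obtain ⟨u, hu⟩ := mu p
    rw [← act hc hu]
    exact Submodule.smul_mem _ u a

end Vale.Agent.P022R.End
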