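import Vale.Agent.P022R.EndA
import Vale.Agent.P022R.EndB
import Vale.Agent.P022F.End1
import Vale.Agent.P022E.As.Bas
import Vale.Agent.P022D.As.LevA

/-!
# P022R: from the forms side, generators and relations to the conclusion
-/

set_option linter.all false

open IsLocalRing Filter NumberField

noncomputable section

namespace Vale.Agent.P022R.End

open Vale.Agent.P022 Vale.Agent.P022E Vale.Agent.P022E.R Vale.Agent.P022E.As
  Vale.Agent.P022F.End0
open Vale.Agent.P022D.Core (Coef PS io y1)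
open Vale.Agent.P027M.S (Inert mx)
open Vale.Agent.P022E.Sel (M2)
open Vale.Agent.P022E.Loc (Pl)
open Vale.Agent.P022D.As (Cmp gr mem_gr two_act two_zero nrm2 pow_two_pow)

section defs
variable {O F : Type} [CommRing O] [IsLocalRing O] [Field F]

/-- auxiliary primes, generators and relations -/
def LevR {σ ρ : Type} [Fintype σ] (ϖ : O) (S : Dat O F) (L : Pl O) (r : ℕ) (g : ρ → PS O σ)
    (H : ρ → Ideal (PS O σ)) (v0 : σ → Tg O) : Prop :=
  ∀ (A : Finset ℕ) (n : ℕ), ∃ q : Fin r → ℕ, Function.Injective q ∧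
    (∀ i, Aq S.rb (A ∪ S.T) n (q i)) ∧ (∀ i φ, IsFrob (q i) φ → IsUnit (L.r φ).trace) ∧
    ∃ v : σ → Tg O, (∀ s, v s ∈ mT L.r) ∧ (∀ s a, Gw ϖ L S.T ∅ 0 a → v s - v0 s ∈ a) ∧
      ∀ a, Gw ϖ L S.T (Finset.univ.image q) r a →
        (∀ γ, ∃ f : MvPolynomial σ O, tt γ - MvPolynomial.aeval v f ∈ a) ∧
        (∀ γ, ∃ f : MvPolynomial σ O, dd γ - MvPolynomial.aeval v f ∈ a) ∧
        ∀ j, ∃ h ∈ H j, Ph (MvPolynomial.C : O →+* Tg O) v a (g j + h) = 0

theorem gw_mono {ϖ : O} {L : Pl O} {T Q : Finset ℕ} {r : ℕ} {a : Ideal (Tg O)}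
    (h : Gw ϖ L T ∅ 0 a) : Gw ϖ L T Q r a :=
  ⟨h.fin, h.nil0, h.nilt, h.nild, h.nily, h.t1, h.tc, h.tm, h.d1, h.dm, h.opn,
    fun l h1 h2 _ => h.unr l h1 h2 (Finset.notMem_empty l), h.clt, h.cld,
    fun i _ => h.yz i (Nat.zero_le i)⟩

theorem nD_act {r n : ℕ} (τ : Fin r → GQ) {Y : Type} [AddCommGroup Y] [Module (Tg O) Y]
    (h2 : ∀ w : Y, (2 : Tg O) • w = 0) (w : Y) :
    (∏ s, ((dl n τ s : Tg O) - 1) ^ (2 ^ n - 1)) • w = (nD n τ : Tg O) • w := by
  refine two_act h2 ?_ w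
  rw [Vale.Agent.P022D.As.nD]
  simp only [map_prod, map_sum, map_pow, map_sub, map_one]
  exact nrm2 (two_zero (Tg O)) n fun s => Ideal.Quotient.mk _ (dl n τ s)

theorem nil_act {Y : Type} [AddCommGroup Y] [Module (Tg O) Y] (h2 : ∀ w : Y, (2 : Tg O) • w = 0)
    {p : Tg O} {n : ℕ} (h : ∀ w : Y, p ^ 2 ^ n • w = w) (w : Y) : (p - 1) ^ 2 ^ n • w = 0 := by
  rw [two_act (b := p ^ 2 ^ n - 1) h2 (by
      simp only [map_pow, map_sub, map_one]
      exact pow_two_pow (two_zero _) _ n), sub_smul, h, one_smul, sub_self]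

end defs

section main
variable {O F : Type} [CommRing O] [IsDomain O] [IsDiscreteValuationRing O] [Coef O] [Field F]
  {ϖ : O} {S : Dat O F} {L : Pl O}
  {I : Type} {Y0 : I → Type} {W0 : Type} [∀ i, AddCommGroup (Y0 i)]
  [∀ i, Module (Tg O) (Y0 i)] [AddCommGroup W0] [Module (Tg O) W0] {ses : I → I → I → Prop}
  {ig : I} {iJ : Finset L.C → I}

theorem gd {T Q : Finset ℕ} {r : ℕ} {Y : Type} [AddCommGroup Y] [Module (Tg O) Y]
    (h : Gm ϖ L T Q r Y) : Gd {a | Gw ϖ L T Q r a} Y := fun w =>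
  ⟨_, h w, fun t ht => (Ideal.mem_torsionOf_iff _ _).1 ht⟩

/-- a large prime in the support of the generic module of the base level -/
theorem bigT {σ : Type} [Fintype σ] {v : σ → Tg O} {x : PS O σ →+* O}
    (hC : ∀ l ∈ L.C, l.Prime ∧ l ≠ 2)
    (hS : Sy ϖ (MvPolynomial.C : O →+* Tg O) (ev0 L.r) v {a | Gw ϖ L S.T ∅ 0 a})
    (hx : Pt ϖ (MvPolynomial.C : O →+* Tg O) (ev0 L.r) v x)
    (mu : ∀ t, ∃ u, ∀ a ∈ {a | Gw ϖ L S.T ∅ 0 a},
      Ph (MvPolynomial.C : O →+* Tg O) v a u = Ideal.Quotient.mk a t)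
    (H : HD2 ϖ S L Y0 W0 ses ig iJ) [Module (PS O σ) (Y0 ig)]
    (c1 : Cmp (GG (MvPolynomial.C : O →+* Tg O) v {a | Gw ϖ L S.T ∅ 0 a}) (Y0 ig)) :
    ∃ 𝔭 : Ideal (PS O σ), 𝔭.IsPrime ∧ (2 : WithBot ℕ∞) ≤ ringKrullDim (PS O σ ⧸ 𝔭) ∧
      ∀ z : PS O σ, (∀ w : Y0 ig, z • w = 0) → z ∈ 𝔭 := by
  classical
  obtain ⟨b, c, n₀, A, hl⟩ := H.lev 0
  obtain ⟨τ, φ, Yb, Wc, _, _, _, _, V⟩ := hl 0 Fin.elim0 (fun i => i.elim0) fun i => i.elim0
  have eQ : (Finset.univ.image (Fin.elim0 : Fin 0 → ℕ)) = ∅ := by simp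
  have eD : (Dq Fin.elim0 φ : Tg O) ^ c = 1 := by
    rw [Vale.Agent.P022D.As.Dq, Fin.prod_univ_zero, one_pow]
  choose iY cY using fun i => hS.mod (gd (Y := Yb i) (eQ ▸ V.gm i))
  obtain ⟨i0, c0⟩ := hS.mod (gd (H.gm0 (iJ Finset.univ)))
  choose a u ha using fun l : L.C => (exists_a (hC l l.2).1 (hC l l.2).2).1
  choose a' u' ha' using fun l : L.C => (exists_a (hC l l.2).1 (hC l l.2).2).2
  obtain ⟨𝔭, p1, p2, p3⟩ := @H.big Finset.univ (fun l _ => Finset.mem_univ l) (PS O σ) _ _ _ i0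
    (fun u s => by
      obtain ⟨Γ, h1, h2⟩ := c0.fin hS.dir hS.ne s
      obtain ⟨t, ht⟩ := hS.dir.sur Γ h1 u
      exact ⟨t, fun w hw => h2 w hw u t ht⟩)
    (fun u hu w => by
      obtain ⟨k, hk⟩ := hS.dis c0 w
      exact ⟨k, hk _ (Ideal.pow_mem_pow hu k)⟩)
    fun p => by
      obtain ⟨u, hu⟩ := mu p
      exact ⟨u, fun hp c => hp (hS.x_eq hx hu ▸ c.map x), act c0 hu⟩
  refine ⟨𝔭, p1, p3, fun g hg => ?_⟩
  have h2 : Nl g (Yb ig) := by
    obtain ⟨β, -, -, hβ⟩ := V.fib ig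
    refine ⟨1, fun w => ?_⟩
    obtain ⟨z, hz⟩ := hβ w (by rintro (i | i) <;> exact i.elim0)
    rw [eD, one_smul] at hz
    rw [pow_one, ← hz]
    refine (((c1.pi hS.dir hS.ne _).lin hS.dir (cY ig) β).map_smul g z).symm.trans ?_
    rw [show g • z = 0 from funext fun i => hg _, map_zero]
  have h1 := H.comb a a' (fun l => ⟨_, ha l⟩) (fun l => ⟨_, ha' l⟩)
    (fun i => if Nl g (Yb i) then 0 else ⊤) (fun i j k h => by
      obtain ⟨f, f', h1, h2, h3⟩ := V.ex i j k h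
      have h4 := nl_iff (g := g) ((cY i).lin hS.dir (cY j) f) ((cY j).lin hS.dir (cY k) f')
        h1 h2 h3
      by_cases hi : Nl g (Yb i) <;> by_cases hk : Nl g (Yb k) <;> simp [h4, hi, hk])
    Finset.univ
  have h3 : Nl g (Yb (iJ Finset.univ)) := by
    by_contra h3
    have h4 : mul2 a a' Finset.univ ≠ 0 := by
      rw [Vale.Agent.P022D.As.mul2]
      exact Finset.prod_ne_zero_iff.2 fun l _ => by split_ifs <;> positivity
    rw [if_pos h2, if_neg h3, ENat.mul_top (by exact_mod_cast h4)] at h1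
    exact absurd h1 (by simp)
  obtain ⟨β, -, hβ, -⟩ := V.fib (iJ Finset.univ)
  obtain ⟨k, hk⟩ := @Nl.inj _ _ _ _ _ i0 _ _ g h3
    (@Cmp.lin _ _ _ _ _ _ _ _ _ _ _ i0 _ hS.dir c0 (cY _)
      (β.comp (LinearMap.pi fun _ => LinearMap.id)))
    ((injective_iff_map_eq_zero _).2 fun w hw => by
      have h1 := hβ _ hw
      rw [eD, one_smul] at h1
      exact congrFun h1 ∅)
  exact p1.mem_of_pow_mem k (p2 (Module.mem_annihilator.2 hk))

theorem gen_all {σ : Type} [Fintype σ] {r : ℕ} {v : σ → Tg O} {𝔊 : Set (Ideal (Tg O))}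
    (hS : Sy ϖ (MvPolynomial.C : O →+* Tg O) (ev0 L.r) (Sum.elim v fun i : Fin r => yy i) 𝔊)
    {a : Ideal (Tg O)} (ha : a ∈ 𝔊)
    (h1 : ∀ γ, ∃ f : MvPolynomial σ O, tt γ - MvPolynomial.aeval v f ∈ a)
    (h2 : ∀ γ, ∃ f : MvPolynomial σ O, dd γ - MvPolynomial.aeval v f ∈ a)
    (h3 : ∀ i, r ≤ i → yy i ∈ a) (p : Tg O) :
    ∃ u, Ph (MvPolynomial.C : O →+* Tg O) (Sum.elim v fun i : Fin r => yy i) a u =
      Ideal.Quotient.mk a p := by
  have key : ∀ (f : MvPolynomial σ O) (t : Tg O), t - MvPolynomial.aeval v f ∈ a →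
      ∃ u, Ph (MvPolynomial.C : O →+* Tg O) (Sum.elim v fun i : Fin r => yy i) a u =
        Ideal.Quotient.mk a t := fun f t h =>
    ⟨_, (hS.poly ha (MvPolynomial.rename Sum.inl f)).trans (by
      rw [MvPolynomial.eval₂Hom_rename]
      exact (Ideal.Quotient.eq.2 h).symm)⟩
  induction p using MvPolynomial.induction_on with
  | C c => exact ⟨_, hS.cst ha c⟩
  | add p p' hp hp' =>
    obtain ⟨u, hu⟩ := hp
    obtain ⟨u', hu'⟩ := hp'
    exact ⟨u + u', by rw [map_add, map_add, hu, hu']⟩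
  | mul_X p s hp =>
    obtain ⟨u, hu⟩ := hp
    obtain ⟨u', hu'⟩ : ∃ u', Ph (MvPolynomial.C : O →+* Tg O)
        (Sum.elim v fun i : Fin r => yy i) a u' = Ideal.Quotient.mk a (MvPolynomial.X s) := by
      rcases s with γ | γ | i
      · exact (h1 γ).elim fun f hf => key f _ hf
      · exact (h2 γ).elim fun f hf => key f _ hf
      · by_cases hi : i < r
        · exact ⟨_, hS.var ha (Sum.inr ⟨i, hi⟩)⟩
        · exact ⟨0, (map_zero _).trans
            (Ideal.Quotient.eq_zero_iff_mem.2 (h3 i (not_lt.1 hi))).symm⟩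
    exact ⟨u * u', by rw [map_mul, map_mul, hu, hu']⟩

/-- **the end game** -/
theorem endR {σ ρ : Type} [Fintype σ] {r : ℕ} {g : ρ → PS O σ} {K : ρ → Ideal (PS O σ)}
    {v0 : σ → Tg O} (hϖ : Irreducible ϖ) (hC : ∀ l ∈ L.C, l.Prime ∧ l ≠ 2)
    (cont : ∀ k : ℕ, IsOpen {g : GQ | (L.r g).map (Ideal.Quotient.mk (maximalIdeal O ^ k)) = 1})
    (unr : ∀ l : ℕ, l.Prime → l ∉ S.T → ∀ P : Ideal (𝓞 Qb), P.IsPrime → (l : 𝓞 Qb) ∈ P →
      ∀ s, Inert P s → L.r s = 1) (h2T : 2 ∈ S.T)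
    (hL : LevR ϖ S L r g K v0) (hG : GR ϖ r g K) (H : HD2 ϖ S L Y0 W0 ses ig iJ) :
    Out2 ϖ L W0 := by
  classical
  intro j
  have hm := hϖ.maximalIdeal_eq
  have hpk := gw_pk hϖ cont unr
  obtain ⟨b, c, n₀, A, hl⟩ := H.lev r
  choose q qi qa qu v vm v0e hv using fun n => hL A (n + n₀)
  choose τ φ Yb Wc i1 i2 i3 i4 V using fun n => hl n (q n) (qi n) (qa n)
  let 𝔊 : ℕ → Set (Ideal (Tg O)) := fun n => {a | Gw ϖ L S.T (Finset.univ.image (q n)) r a}
  let ι : O →+* Tg O := MvPolynomial.C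
  let W : ℕ → σ ⊕ Fin r → Tg O := fun n => Sum.elim (v n) fun i : Fin r => yy i
  let W' : σ ⊕ Fin r → Tg O := Sum.elim v0 fun i : Fin r => yy i
  have hS' : ∀ n, Sy ϖ ι (ev0 L.r) (v n) (𝔊 n) := fun n =>
    ⟨hϖ, evc _, fun _ ha _ hb => gw_inf ha hb, fun k => gw_mono (hpk k), fun _ ha => ha.nil0,
      fun a ha s => Bas.rad ha hm (vm n s)⟩
  have hS : ∀ n, Sy ϖ ι (ev0 L.r) (W n) (𝔊 n) := fun n =>
    ⟨hϖ, evc _, (hS' n).inf, (hS' n).pk, (hS' n).nil0, fun a ha s => by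
      rcases s with s | s
      exacts [(hS' n).nil a ha s, ha.nily s]⟩
  have hS0 : Sy ϖ ι (ev0 L.r) W' {a | Gw ϖ L S.T ∅ 0 a} :=
    ⟨hϖ, evc _, fun _ ha _ hb => gw_inf ha hb, hpk, fun _ ha => ha.nil0, fun a ha s => by
      rcases s with s | s
      · have h1 := sub_mem (Bas.rad ha hm (vm 0 s)) (Ideal.le_radical (v0e 0 s a ha))
        rwa [sub_sub_cancel] at h1
      · exact ha.nily s⟩
  have eP : ∀ n a, Gw ϖ L S.T ∅ 0 a → Ph ι (W n) a = Ph ι W' a := fun n a ha =>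
    ph_congr fun s => by
      rcases s with s | s
      · exact v0e n s a ha
      · exact (sub_self (yy s : Tg O)).symm ▸ a.zero_mem
  have sur : ∀ n, ∀ a ∈ 𝔊 n, ∀ p, ∃ u, Ph ι (W n) a u = Ideal.Quotient.mk a p := fun n a ha =>
    gen_all (hS n) ha (hv n a ha).1 (hv n a ha).2.1 ha.yz
  choose μ hμ using fun n p => (hS n).mu p fun a ha => sur n a ha p
  have mu0 : ∀ p, ∀ a ∈ {a | Gw ϖ L S.T ∅ 0 a}, Ph ι W' a (μ 0 p) = Ideal.Quotient.mk a p :=
    fun p a ha => eP 0 a ha ▸ hμ 0 p a (gw_mono ha)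
  obtain ⟨x, hx0⟩ := hS0.exists_x
  have hx : ∀ n, Pt ϖ ι (ev0 L.r) (W n) x := fun n k u t e => hx0 k u t (eP n _ (hpk k) ▸ e)
  have up : ∀ n (Y : Type) [AddCommGroup Y] [Module (Tg O) Y] [Module (PS O (σ ⊕ Fin r)) Y],
      Cmp (GG ι W' {a | Gw ϖ L S.T ∅ 0 a}) Y → Cmp (GG ι (W n) (𝔊 n)) Y := fun n Y _ _ _ h w => by
    obtain ⟨_, ⟨a, ha, rfl⟩, e⟩ := h w
    exact ⟨_, ⟨a, gw_mono ha, by rw [eP n a ha]⟩, e⟩
  choose iY cY using fun n => (hS n).mod (gd ((V n).gm ig))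
  choose iW cW using fun n => (hS n).mod (gd (V n).gmC)
  obtain ⟨i0, c0⟩ := hS0.mod (gd (H.gm0 ig))
  obtain ⟨iW0, cW0⟩ := hS0.mod (gd H.gmW)
  have cG := c0.pi hS0.dir hS0.ne (Finset (Fin r))
  choose α hα using fun n i => (hS' n).mu (tt (τ n i) - 2) fun a ha => by
    obtain ⟨f, hf⟩ := (hv n a ha).1 (τ n i)
    refine ⟨(f : PS O σ) - 2, ?_⟩
    rw [map_sub, map_sub, map_ofNat, map_ofNat, (hS' n).poly ha]
    exact congrArg (· - _) (Ideal.Quotient.eq.2 hf).symm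
  choose β hβ using fun n i => (hS' n).mu (dd (τ n i) - tt (τ n i) + 1) fun a ha => by
    obtain ⟨f, hf⟩ := (hv n a ha).1 (τ n i)
    obtain ⟨f', hf'⟩ := (hv n a ha).2.1 (τ n i)
    refine ⟨(f' : PS O σ) - (f : PS O σ) + 1, ?_⟩
    rw [map_add, map_add, map_sub, map_sub, map_one, map_one, (hS' n).poly ha, (hS' n).poly ha]
    exact congrArg (· + _) (congrArg₂ (· - ·) (Ideal.Quotient.eq.2 hf').symm
      (Ideal.Quotient.eq.2 hf).symm)
  choose k hk hf using fun n i => (hS' n).sol (K i) (g i) 0 fun a ha =>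
    ((hv n a ha).2.2 i).imp fun u hu => ⟨hu.1, hu.2.trans (map_zero _).symm⟩
  have eio : ∀ n {z : PS O σ} {t : Tg O}, (∀ a ∈ 𝔊 n, Ph ι (v n) a z = Ideal.Quotient.mk a t) →
      ∀ a ∈ 𝔊 n, Ph ι (W n) a (io O σ r z) = Ideal.Quotient.mk a t := fun n z t h a ha =>
    ((hS n).io (hS' n) ha z).trans (h a ha)
  let u : ℕ → Fin r ⊕ Fin r → PS O (σ ⊕ Fin r) := fun n =>
    Sum.elim (y1 O σ) fun i => μ n (ee n (τ n) i - 1)
  have hu : ∀ n s, ∀ a ∈ 𝔊 n, Ph ι (W n) a (u n s) = Ideal.Quotient.mk a (dl n (τ n) s - 1) :=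
    fun n s a ha => by
    rcases s with i | i
    · exact ((hS n).var ha (Sum.inr i)).trans (congrArg _ (add_sub_cancel_left 1 _).symm)
    · exact hμ n _ a ha
  have fx : ∀ n (Y : Type) [AddCommGroup Y] [Module (Tg O) Y] [Module (PS O (σ ⊕ Fin r)) Y],
      Cmp (GG ι (W n) (𝔊 n)) Y → ∀ s (w : Y), u n s • w = 0 ↔ (dl n (τ n) s : Tg O) • w = w :=
    fun n Y _ _ _ h s w => by rw [act h (hu n s), sub_smul, one_smul, sub_eq_zero]
  have hτ : ∀ n i, L.r (τ n i) = 1 := fun n i => by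
    obtain ⟨P, h1, h2, h3⟩ := (V n).hτ i
    exact unr _ (qa n i).prime (fun h => (qa n i).out (Finset.mem_union_right _ h)) P h1 h2 _ h3
  have tτ : ∀ n i, ev0 L.r (tt (τ n i)) = 2 := fun n i => by
    rw [evt, hτ, Matrix.trace_one, Fintype.card_fin, Nat.cast_ofNat]
  have dτ : ∀ n i, ev0 L.r (dd (τ n i)) = 1 := fun n i => by rw [evd, hτ, Matrix.det_one]
  obtain ⟨e2, he2⟩ : ϖ ∣ 2 := by
    rw [← Ideal.mem_span_singleton, ← hm]
    exact Coef.two
  have two : ∀ n (w : Yb n ig), (2 : Tg O) • w = 0 := fun n w => by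
    rw [← map_ofNat ι 2, he2, mul_comm, map_mul, mul_smul]
    exact (congrArg _ ((V n).pi ig w)).trans (smul_zero _)
  choose e einj eran using fun n => (V n).red
  obtain ⟨𝔭, p1, p2, p3⟩ := bigT hC hS0 hx0 (fun p => ⟨_, mu0 p⟩) H c0
  obtain ⟨b0, hb0⟩ := H.sb0 ig
  have hP : PD ϖ x u α β (fun n => μ n (Dq (q n) (φ n) ^ c)) (fun n i => g i + k n i)
      (fun n => Yb n ig) Wc (Finset (Fin r) → Y0 ig)
      fun n => (cY n).lin (hS n).dir (cW n) (e n) :=
    { xC := fun o => (hS0.x_eq hx0 fun a ha => hS0.cst ha o).trans (evc _ o)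
      xm := hS0.xm hx0
      xu := fun n s => ((hS n).x_eq (hx n) (hu n s)).trans (by
        rcases s with i | i
        · exact (congrArg _ (add_sub_cancel_left 1 _)).trans (evy _ _)
        · change ev0 L.r (Vale.Agent.P022D.As.ee n (τ n) i - 1) = 0
          rw [Vale.Agent.P022D.As.ee, map_sub, map_mul, map_sub, map_pow, map_add, map_one, evy,
            tτ]
          norm_num)
      u1 := fun _ _ => rfl
      xα := fun n i => ((hS n).x_eq (hx n) (eio n (hα n i))).trans (by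
        rw [map_sub, tτ, map_ofNat, sub_self])
      xβ := fun n i => ((hS n).x_eq (hx n) (eio n (hβ n i))).trans (by
        rw [map_add, map_sub, tτ, dτ, map_one]; norm_num)
      xD := fun n => by
        rw [(hS n).x_eq (hx n) (hμ n _), map_pow, Vale.Agent.P022D.As.Dq, map_prod]
        refine (IsUnit.prod_univ_iff.2 fun i => ?_).pow c
        rw [map_sub, map_mul, map_mul, map_pow, map_pow, map_add, map_natCast, map_one, evt, evd]
        obtain ⟨m, hm'⟩ := (qa n i).prime.odd_of_ne_two fun h =>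
          (qa n i).out (Finset.mem_union_right _ (h ▸ h2T))
        have h3 := (qu n i _ ((V n).hφ i)).pow 2
        by_contra h4
        have h5 := sub_mem (show _ ∈ maximalIdeal O from h4) (Ideal.mul_mem_right
          (m * (L.r (φ n i)).trace ^ 2 - 2 * (m + 1) ^ 2 * (L.r (φ n i)).det) _ Coef.two)
        refine h5 ?_
        rw [hm']
        push_cast
        convert h3 using 1
        ring
      xf := fun n i => ((hS n).x_eq (hx n) (eio n (hf n i))).trans (map_zero _)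
      rel := fun n i w => by
        rw [act (cW n) (t := dd (τ n i) - (1 + yy i) * (tt (τ n i) - (1 + yy i))) (fun a ha => by
          rw [map_add, map_sub, map_mul, map_pow, eio n (hα n i) a ha, eio n (hβ n i) a ha,
            show Ph ι (W n) a (y1 O σ i) = Ideal.Quotient.mk a (yy i) from
              (hS n).var ha (Sum.inr i), ← map_pow, ← map_mul, ← map_sub, ← map_add]
          congr 1
          ring), sub_smul, (V n).diaC.dq, sub_self]
      relf := fun n i w => (act (cW n) (eio n (hf n i)) w).trans (zero_smul _ _)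
      dis := fun n => (hS n).dis (cY n)
      disC := fun n => (hS n).dis (cW n)
      dis0 := hS0.dis cG
      sb := ⟨b ig, fun n => (hS n).sb (hx n) (cY n) (fun p => ⟨_, hμ n p⟩) ((V n).sb ig)⟩
      sb0 := ⟨_, Bas.sb_pi (hS0.sb hx0 c0 (fun p => ⟨_, mu0 p⟩) hb0) _⟩
      nil := fun n s w => (act (cY n) (fun a ha => by rw [map_pow, hu n s a ha, ← map_pow]) w).trans
        (nil_act (two n) (((V n).dia ig).grp s) w)
      free := fun n w hw => by
        obtain ⟨w', rfl⟩ := (V n).free ig w fun s => (fx n _ (cY n) s w).1 (hw s)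
        refine ⟨w', ((act (cY n) (fun a ha => ?_) w').trans (nD_act (τ n) (two n) w')).symm⟩
        rw [map_prod, map_prod]
        exact Finset.prod_congr rfl fun s _ => by rw [map_pow, hu n s a ha, ← map_pow]
      fib := fun n => by
        obtain ⟨γ, b1, b2, b3⟩ := (V n).fib ig
        have cG' := up n _ cG
        exact ⟨cG'.lin (hS n).dir (cY n) γ, fun s w => (fx n _ (cY n) s _).2 (b1 s w),
          fun w hw => (act cG' (hμ n _) w).trans (b2 w hw), fun w hw => by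
            rw [act (cY n) (hμ n _)]
            exact b3 w fun s => (fx n _ (cY n) s w).1 (hw s)⟩
      qinj := einj
      qran := fun n w => by rw [(hS n).act_one (cW n)]; exact eran n w
      piC := fun n w => ((hS n).act_pow (cW n) _ w).trans ((V n).piC w)
      flat := fun n w hw => ((V n).flat w (((hS n).act_one (cW n) w).symm.trans hw)).imp
        fun w' h => h.trans ((hS n).act_pow (cW n) n w').symm
      grp := fun n s w => (act (cW n) (t := dl n (τ n) s ^ 2 ^ n) (fun a ha => by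
        rw [map_pow, map_add, map_one, hu n s a ha, map_sub, map_one, add_sub_cancel, map_pow])
          w).trans ((V n).diaC.grp s w)
      big := ⟨𝔭, p1, p2, fun z hz => p3 z fun w => congrFun (hz fun _ => w) ∅⟩ }
  obtain ⟨j0, n, hn, h1⟩ := endA hϖ hP (fun n i => by rw [add_sub_cancel_left]; exact hk n i) hG j
  obtain ⟨s, hs⟩ := chevx hϖ x hP.xm (hS0.dis cW0) {w : W0 | cc ϖ ^ j0 • w = 0} j fun z hz =>
    h1 z fun w hw hw' => by
      obtain ⟨s, s1, s2⟩ := (V n).desc j0 hn w (((hS n).act_pow (cW n) j0 w).symm.trans hw)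
        fun i => (fx n _ (cW n) i w).1 (hw' i)
      obtain ⟨Γ, g1, g2⟩ := (up n _ cW0).fin (hS n).dir (hS n).ne s
      obtain ⟨Γ', g3, g4⟩ := cW n w
      obtain ⟨Γ'', g5, g6, g7⟩ := (hS n).dir.dir Γ g1 Γ' g3
      obtain ⟨t, ht⟩ := (hS n).dir.sur _ g5 z
      rw [mul_smul, g4 z t (g7 ht), act (cW n) (hμ n _), ← mul_smul]
      exact s2 t fun y hy => (g2 y hy z t (g6 ht)).symm.trans (hz y (s1 y hy))
  refine ⟨s.image Subtype.val, fun p hp => ?_⟩
  rw [← hS0.x_eq hx0 (mu0 p)]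
  exact hs _ fun w hw => (act cW0 (mu0 p) _).trans (hp _ (Finset.mem_image_of_mem _ hw))

end main

end Vale.Agent.P022R.End
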