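import Vale.Agent.P022R.Alg
import Vale.Agent.P022R.End
import Vale.Agent.P022F.Gen
import Vale.Agent.P022F.OkF

/-!
# P022R, the arithmetic input (statements)
-/

set_option linter.all false

open IsLocalRing NumberField

noncomputable section

namespace Vale.Agent.P022R

open Vale.Agent.P022 Vale.Agent.P022D
open Vale.Agent.P022E.As (Tg cc tt dd yy ev0 mT Gw)
open Vale.Agent.P022E.Loc (Pl Tm)
open Vale.Agent.P027M.S (Inert)
open Vale.Agent.P022F (Cc)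
open Vale.Agent.P022F.Gen (Opn Unr)
open Vale.Agent.P022F.Gm (en2 xx)
open Vale.Agent.P022D.Gma (ent)
open Vale.Agent.P022D.Core (PS Coef)

section defs

variable {O F I J : Type} [CommRing O] [Field F]

/-- the characters -/
structure Ch (S : Finset ℕ) (χ ψ : GQ →* Fˣ) : Prop where
  one : ∀ g, (χ g : F) * ψ g = 1
  opn : ∃ U : Subgroup GQ, IsOpen (U : Set GQ) ∧ ∀ u ∈ U, χ u = 1 ∧ ψ u = 1
  unr : ∀ l : ℕ, l.Prime → l ≠ 2 → l ∉ S → ∀ P : Ideal (𝓞 Qb), P.IsPrime → (l : 𝓞 Qb) ∈ P →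
    ∀ s, Inert P s → χ s = 1 ∧ ψ s = 1
  pr : ∀ l ∈ S, l.Prime ∧ l ≠ 2
  reg : ∀ l ∈ S, ∃ P : Ideal (𝓞 Qb), P.IsPrime ∧ (l : 𝓞 Qb) ∈ P ∧ ∃ g ∈ W.dec P, χ g ≠ ψ g
  two : ∃ g ∈ W.dec (Loc2.PP 2), χ g ≠ ψ g

theorem Ch.swap {S : Finset ℕ} {χ ψ : GQ →* Fˣ} (h : Ch S χ ψ) : Ch S ψ χ :=
  ⟨fun g => (mul_comm _ _).trans (h.one g), h.opn.imp fun _ k => ⟨k.1, fun u hu => (k.2 u hu).symm⟩,
    fun l a b c P d e s f => (h.unr l a b c P d e s f).symm, h.pr,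
    fun l hl => (h.reg l hl).imp fun _ k => ⟨k.1, k.2.1, k.2.2.imp fun _ m => ⟨m.1, m.2.symm⟩⟩,
    h.two.imp fun _ m => ⟨m.1, m.2.symm⟩⟩

/-- the normalised cocycles which are unramified outside `S` and two -/
def Hh (S : Finset ℕ) (χ ψ : GQ →* Fˣ) (g0 : GQ) (b : GQ → F) : Prop :=
  Cc χ ψ b ∧ Opn b ∧ Unr S b ∧ b g0 = 0

/-- trivial at two -/
def T2 (χ ψ : GQ →* Fˣ) (b : GQ → F) : Prop :=
  ∃ m : F, ∀ g ∈ W.dec (Loc2.PP 2), b g = m * (χ g + ψ g)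

/-- adapted bases -/
structure Bas [Fintype I] [Fintype J] [DecidableEq I] [DecidableEq J] (S : Finset ℕ)
    (χ ψ : GQ →* Fˣ) (g0 c0 : GQ) (s : Sh I J) (b : J → GQ → F) (c : I → GQ → F) : Prop where
  hb : ∀ j, Hh S χ ψ g0 (b j)
  hc : ∀ i, Hh S ψ χ g0 (c i)
  lb : LinearIndependent F b
  lc : LinearIndependent F c
  sb : ∀ f, Hh S χ ψ g0 f → f ∈ Submodule.span F (Set.range b)
  sc : ∀ f, Hh S ψ χ g0 f → f ∈ Submodule.span F (Set.range c)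
  I0 : ∀ i ∈ s.I0, T2 ψ χ (c i)
  J0 : ∀ j ∈ s.J0, T2 χ ψ (b j) ∧ b j c0 = 0
  cc : ∀ i, c i c0 = if i = s.i0 then 1 else 0
  bG : s.G = true → ∀ j, b j c0 = if j = s.j0 then 1 else 0
  bH : s.G = false → (∀ j, b j c0 = 0) ∧ T2 ψ χ (c s.i0)

/-- adapted bases exist -/
def ExB (S : Finset ℕ) (χ ψ : GQ →* Fˣ) (g0 c0 : GQ) : Prop :=
  ∃ (I J : Type) (_ : Fintype I) (_ : Fintype J) (_ : DecidableEq I) (_ : DecidableEq J)
    (s : Sh I J) (b : J → GQ → F) (c : I → GQ → F), s.Ok ∧ Bas S χ ψ g0 c0 s b c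

/-- the places and the point -/
structure Hx [IsLocalRing O] (red : O →+* F) (L : Pl O) (T : Finset ℕ) (χ ψ : GQ →* Fˣ) :
    Prop where
  ch : Ch L.W χ ψ
  surj : Function.Surjective red
  ker : ∀ c, red c = 0 ↔ c ∈ maximalIdeal O
  tr : ∀ g, red (L.r g).trace = (χ g : F) + ψ g
  det : ∀ g, red (L.r g).det = 1
  hT : ∀ l : ℕ, l.Prime → (l ∈ T ↔ l = 2 ∨ l ∈ L.W)
  hP : ∀ l ∈ L.W, (L.P l).IsPrime ∧ (l : 𝓞 Qb) ∈ L.P l
  h2 : L.P 2 = Loc2.PP 2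
  cj : IsConj L.c
  tm : ∀ l ∈ L.W, Tm l (L.P l) (L.τ l) (L.φ l)
  reg : ∀ l ∈ L.W, χ (L.g0 l) ≠ ψ (L.g0 l)

theorem Hx.swap [IsLocalRing O] {red : O →+* F} {L : Pl O} {T : Finset ℕ} {χ ψ : GQ →* Fˣ}
    (h : Hx red L T χ ψ) : Hx red L T ψ χ :=
  ⟨h.ch.swap, h.surj, h.ker, fun g => (h.tr g).trans (add_comm _ _), h.det, h.hT, h.hP, h.h2, h.cj,
    h.tm, fun l hl => (h.reg l hl).symm⟩

/-- an auxiliary prime with an element of an inertia group -/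
structure Ax (A : Finset ℕ) (n : ℕ) (χ ψ : GQ →* Fˣ) (q : ℕ) (τ : GQ) : Prop where
  prime : q.Prime
  out : q ∉ A
  one : 2 ^ n ∣ q - 1
  two : ∃ z : ZMod q, z ^ 2 ^ n = 2
  reg : ∀ φ, IsFrob q φ → χ φ ≠ ψ φ
  ine : ∃ P : Ideal (𝓞 Qb), P.IsPrime ∧ (q : 𝓞 Qb) ∈ P ∧ Inert P τ

/-- `K` contains an open subgroup and the inertia groups outside `S`, `Q` and two -/
def Ak (S Q : Finset ℕ) (K : Set GQ) : Prop :=
  (∃ U : Subgroup GQ, IsOpen (U : Set GQ) ∧ ∀ u ∈ U, u ∈ K) ∧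
    ∀ l : ℕ, l.Prime → l ≠ 2 → l ∉ S → l ∉ Q → ∀ P : Ideal (𝓞 Qb), P.IsPrime →
      (l : 𝓞 Qb) ∈ P → ∀ s, Inert P s → s ∈ K

/-- the entries as symbols -/
def eA (g0 : GQ) (β u : O) : GQ → Tg O := ent tt g0 (cc β) (cc u)
def eB (g0 : GQ) (β u : O) : GQ → Tg O := en2 tt g0 (cc β) (cc u)
def eX (g0 : GQ) (β u : O) : GQ → GQ → Tg O := xx tt g0 (cc β) (cc u)

/-- the eigenvalues of `L.r g0` -/
structure Ev (red : O →+* F) (L : Pl O) (χ ψ : GQ →* Fˣ) (g0 : GQ) (α β u : O) : Prop where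
  hs : α + β = (L.r g0).trace
  hp : α * β = (L.r g0).det
  hu : (α - β) * u = 1
  ha : red α = χ g0
  hb : red β = ψ g0
  ht : g0 ∈ L.TT
  hd : g0 ∈ L.DD

end defs

/-- row WNE: a character of odd order is ramified at an odd prime -/
def WNE : Prop := ∀ (F : Type) [Field F] [Finite F] [CharP F 2] (χ ψ : GQ →* Fˣ), ¬ Ch ∅ χ ψ

/-- **block CNT** -/
def CNT : Prop := ∀ (F : Type) [Field F] [Finite F] [CharP F 2] (S : Finset ℕ) (χ ψ : GQ →* Fˣ)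
  (g0 c0 : GQ), Ch S χ ψ → χ g0 ≠ ψ g0 → IsConj c0 → ExB S χ ψ g0 c0 ∨ ExB S ψ χ g0 c0

/-- **block FNA** (from `Rel.ee`, `Rel.rec2`, `Chb.chb`, `Cnt.loc`, `Gen.quad`) -/
def FNA : Prop := ∀ (O F I J : Type) [CommRing O] [IsLocalRing O] [Field F] [Finite F] [CharP F 2]
  [Fintype I] [Fintype J] [DecidableEq I] [DecidableEq J] (red : O →+* F) (L : Pl O)
  (T : Finset ℕ) (χ ψ : GQ →* Fˣ) (g0 : GQ) (s : Sh I J) (b : J → GQ → F) (c : I → GQ → F),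
  Hx red L T χ ψ → χ g0 ≠ ψ g0 → s.Ok → Bas L.W χ ψ g0 L.c s b c →
  ∃ X : Dt O GQ I J, X.g0 = g0 ∧ ∀ (A : Finset ℕ) (n : ℕ),
    ∃ (q : Fin (Fintype.card I * Fintype.card J) → ℕ)
      (τ : Fin (Fintype.card I * Fintype.card J) → GQ)
      (M : I × J → Fin (Fintype.card I * Fintype.card J) → O), Function.Injective q ∧
      (∀ k, Ax A n χ ψ (q k) (τ k)) ∧
      ∀ K, Ak L.W (Finset.univ.image q) K → Fn red χ ψ K L.DD L.TT s b c X τ M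

/-- row GWQ: the good quotients without the symbols `y` -/
def GWQ : Prop := ∀ (O F : Type) [CommRing O] [IsLocalRing O] [Field F] (red : O →+* F) (L : Pl O)
  (T Q : Finset ℕ) (χ ψ : GQ →* Fˣ) (ϖ : O) (g0 : GQ) (α β u : O) (a : Ideal (Tg O)),
  Hx red L T χ ψ → maximalIdeal O = Ideal.span {ϖ} → Ev red L χ ψ g0 α β u → Gw ϖ L T Q 0 a →
  a ≠ ⊤ → ∃ (π : Tg O ⧸ a →+* F) (d : GQ →* (Tg O ⧸ a)ˣ),
    (∀ p, π (Ideal.Quotient.mk a p) = red (ev0 L.r p)) ∧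
    (∀ g, (d g : Tg O ⧸ a) = Ideal.Quotient.mk a (dd g)) ∧
    Gq red ((Ideal.Quotient.mk a).comp MvPolynomial.C) π χ ψ g0
      (fun g => Ideal.Quotient.mk a (tt g)) d (fun g => Ideal.Quotient.mk a (eA g0 β u g))
      (fun g => Ideal.Quotient.mk a (eB g0 β u g))
      (fun g h => Ideal.Quotient.mk a (eX g0 β u g h)) ∧
    (∀ n, (∀ g, tt (g * n) - tt g ∈ a) → n ∈ Kr (fun g => Ideal.Quotient.mk a (eA g0 β u g))
      (fun g => Ideal.Quotient.mk a (eB g0 β u g))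
      fun g h => Ideal.Quotient.mk a (eX g0 β u g h)) ∧
    Subring.closure (Set.range ((Ideal.Quotient.mk a).comp MvPolynomial.C) ∪
      Set.range (fun g => Ideal.Quotient.mk a (tt g)) ∪ Set.range fun g => (d g : Tg O ⧸ a)) = ⊤

/-- the free variables -/
abbrev Fr (I J : Type) [Fintype I] [Fintype J] : Type :=
  Option (Fin (Fintype.card I * Fintype.card J))

/-- **block LX** (from FNA, GWQ, AGEN, RELP): generators and relations -/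
def LX : Prop := ∀ (O F I J : Type) [CommRing O] [IsDomain O] [IsDiscreteValuationRing O] [Coef O]
  [Field F] [Finite F] [CharP F 2] [Fintype I] [Fintype J] [DecidableEq I] [DecidableEq J]
  (ϖ : O) (S : R.Dat O F) (L : Pl O) (χ ψ : GQ →* Fˣ) (g0 : GQ) (α β u : O) (s : Sh I J)
  (b : J → GQ → F) (c : I → GQ → F), Irreducible ϖ → Hx S.red L S.T χ ψ →
  (∀ g, χ g ≠ ψ g → ¬ Sel.Sc S.rb g) → Ev S.red L χ ψ g0 α β u → s.Ok →
  Bas L.W χ ψ g0 L.c s b c →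
  ∃ v0 : Vr I J (Fr I J) → Tg O,
    End.LevR ϖ S L (Fintype.card I * Fintype.card J)
      (fun j => ((s.eqn (Fr I J) O j : MvPolynomial (Vr I J (Fr I J)) O) : PS O (Vr I J (Fr I J))))
      (fun j => Er ϖ (s.wt (Fr I J)) (s.dg j)) v0

end Vale.Agent.P022R
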