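import Vale.Agent.P022R.Rel3
import Vale.Agent.P022R.AlgDefs

/-!
# P022R: the auxiliary primes of one level
-/

set_option linter.all false

noncomputable section

namespace Vale.Agent.P022R.Ari

open NumberField
open Vale.Agent.P022 Vale.Agent.P022.H443 Vale.Agent.P022E.GW Vale.Agent.P022R.Rel
open Vale.Agent.P027M.S (Inert)
open Vale.Agent.P022D.W (dec inP_le_dec exists_phi phi_mem)
open Vale.Agent.P022D.Loc2 (PP)
open Vale.Agent.P022D.L2c (up)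
open Vale.Agent.P022F (Cc)
open Vale.Agent.P022F.Gen (Opn Unr)
open Vale.Agent.P022R.Alg (Bas Rec Fix Lvl)
open scoped Pointwise

variable {F : Type} [Field F] [Finite F] [CharP F 2] {χ ψ : GQ →* Fˣ} {W : Finset ℕ}

/-- one more prime -/
theorem extra (ho : IsOpen (χ.ker : Set GQ)) {g₀ : GQ} (n0 : χ g₀ ≠ 1) (T : Finset ℕ)
    (hu : ∀ l : ℕ, l.Prime → l ∉ T → ∀ u, P022D.G.Inert l u → χ u = 1) (A : Finset ℕ) (n : ℕ) :
    ∃ q : ℕ, q.Prime ∧ q ∉ A ∧ 2 ^ n ∣ q - 1 ∧ (∃ z : ZMod q, z ^ 2 ^ n = 2) ∧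
      ∀ φ, IsFrob q φ → χ φ ≠ 1 := by
  obtain ⟨γ, hγ, s, hs, e0⟩ := P022D.Sel.odd χ.ker g₀ _ ho (Chb.odd_ord (χ g₀))
    (by rw [MonoidHom.mem_ker, map_pow, pow_orderOf_eq_one])
  have ns : χ s ≠ 1 := fun h => n0 (by rw [e0, map_mul, MonoidHom.mem_ker.1 hγ, h, mul_one])
  obtain ⟨V, hV, h2⟩ := P022D.Sel.cong n
  obtain ⟨q, a1, a2, φ, m, a3, a4, a5, a6⟩ := Chb.prime (U := χ.ker ⊓ V) (ho.inter hV)
    (fun u hu => hu.1) ns (insert 2 (A ∪ T))
  rw [Finset.mem_insert, Finset.mem_union, not_or, not_or] at a1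
  obtain ⟨b1, b2⟩ := h2 _ m _ φ a2 a1.1 hs a3 a5.2
  refine ⟨q, a2, a1.2.1, b1, b2, fun φ' h' h => ?_⟩
  obtain ⟨g, hg⟩ := Chb.frob_rel a2 a3 h'
  have u0 := hu _ a2 a1.2.2 _ hg
  have v0 : χ (φ⁻¹ * s ^ m) = 1 := a5.1
  rw [map_mul, map_inv, h, inv_one, mul_one, map_mul, map_mul, map_inv,
    mul_inv_cancel_comm] at u0
  exact a6 (by rwa [map_mul, map_inv, u0, inv_one, one_mul] at v0)

theorem two_out {α : Type} [Fintype α] [DecidableEq α] {s : Finset α} {a b : α}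
    (h : s.card + 1 = Fintype.card α) (ha : a ∉ s) (hb : b ∉ s) : a = b := by
  by_contra ne
  have := Finset.card_le_univ (insert a (insert b s))
  rw [Finset.card_insert_of_notMem (by simp [ne, ha]), Finset.card_insert_of_notMem hb] at this
  omega

theorem unrQ (B : Bs χ ψ W) {ι : Type} [Fintype ι] {q : ι → ℕ} {P : ι → Ideal (𝓞 Qb)}
    {φ : ι → GQ} (o : ∀ k, Ov (q k) (P k)) (qW : ∀ k, q k ∉ W) (hφ : ∀ k, φ k ∈ dec (P k))
    (ne : ∀ k, χ (φ k) ≠ ψ (φ k)) {f : GQ → F} (hf : Cc χ ψ f) (of : Opn f)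
    (uf : Unr (W ∪ Finset.univ.image q) f) : Unr W f := by
  intro l lp l2 hl P' p1 p2 i hi
  by_cases h : l ∈ Finset.univ.image q
  · obtain ⟨k, -, rfl⟩ := Finset.mem_image.1 h
    have o' : Ov (q k) P' := ⟨lp, p1, p2⟩
    obtain ⟨m, hm⟩ := tr_reg B hf of o' l2 (reg_all (o k) o' ⟨φ k, hφ k, ne k⟩)
    have i1 := B.unr _ hl l2 P' o' i hi
    rw [hm i (inP_le_dec hi), i1, B.one i1, CharTwo.add_self_eq_zero, mul_zero]
  · exact uf l lp l2 (fun k => (Finset.mem_union.1 k).elim hl h) P' p1 p2 i hi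

variable {I J : Type} [Fintype I] [Fintype J] [DecidableEq I] [DecidableEq J] {s : Sh I J}
  {b : J → GQ → F} {c : I → GQ → F} {g0 c0 : GQ}

/-- **one level** -/
theorem lvl (B : Bs χ ψ W)
    (reg : ∀ l ∈ W, l ≠ 2 → l.Prime → ∃ P, Ov l P ∧ ∃ g ∈ dec P, χ g ≠ ψ g) (ne0 : χ g0 ≠ ψ g0)
    (hc0 : IsConj c0) (X : Fix W g0 c0 χ ψ s b c)
    (v1 : ∀ i, (i ∈ s.I0 ∨ (i = s.i0 ∧ s.G = false)) → Tr ψ χ (dec (PP 2)) (c i))
    (v2 : ∀ j ∈ s.J0, Tr χ ψ (dec (PP 2)) (b j)) (A : Finset ℕ) (n : ℕ) :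
    ∃ (q : Fin (Fintype.card I * Fintype.card J) → ℕ) (τ : _ → GQ) (y : I → J → _ → F),
      Function.Injective q ∧
      (∀ k, (q k).Prime ∧ q k ∉ A ∧ 2 ^ n ∣ q k - 1 ∧ ∃ z : ZMod (q k), z ^ 2 ^ n = 2) ∧
      (∀ k φ, IsFrob (q k) φ → χ φ ≠ ψ φ) ∧ Lvl W c0 χ ψ s b c q τ y := by
  classical
  obtain rfl : ψ = χ⁻¹ := MonoidHom.ext fun g => Units.ext (by
    rw [Chb.iv]; exact eq_inv_of_mul_eq_one_right (B.inv g))
  have n1 : ∀ {g}, χ g ≠ 1 → χ g ≠ χ⁻¹ g := fun {g} h => Chb.ne1 h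
  have n0 : χ g0 ≠ 1 := fun h => ne0 (by rw [MonoidHom.inv_apply, h, inv_one])
  have cb : ∀ j, Co χ χ⁻¹ W (b j) := fun j => mkCo B reg (X.hb.coc j) (X.hb.opn j) (X.hb.unr j)
  have cc : ∀ i, Co χ⁻¹ χ W (c i) := fun i => mkCo B.symm (fun l a1 a2 a3 => by
    obtain ⟨P, o, g, hg, ne⟩ := reg l a1 a2 a3
    exact ⟨P, o, g, hg, ne.symm⟩) (X.hc.coc i) (X.hc.opn i) (X.hc.unr i)
  let K := {p : J × I // ¬ (s.G = true ∧ p.1 = s.j0 ∧ p.2 = s.i0)}
  have ex : ∀ p : K, ∃ e, Ee χ χ⁻¹ (b p.1.1) (c p.1.2) e := by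
    rintro ⟨⟨j, i⟩, hp⟩
    refine ee B (cb j) (cc i) Cnt.ov2 ?_ hc0 ?_
    · by_cases hi : i ∈ s.I0
      · exact Or.inr (v1 i (Or.inl hi))
      by_cases hj : j ∈ s.J0
      · exact Or.inl (v2 j hj)
      have h1 := Finset.card_le_univ (insert j s.J0)
      rw [Finset.card_insert_of_notMem hj, X.ok.cJ] at h1
      have h2 : Fintype.card I = Fintype.card J := X.ok.cH.elim id fun h => by omega
      have h3 : i = s.i0 := two_out (X.ok.cI.trans h2.symm) hi X.ok.hi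
      rcases Bool.eq_false_or_eq_true s.G with hG | hG
      swap
      · exact Or.inr (v1 i (Or.inr ⟨h3, hG⟩))
      · exact absurd ⟨hG, two_out (X.ok.cJ.trans h2) hj (X.ok.cG hG).1, h3⟩ hp
    · show b j c0 * c i c0 = 0
      rw [X.cI, X.bJ]
      by_cases hi : i = s.i0
      · rw [if_neg fun h => hp ⟨h.1, h.2, hi⟩, zero_mul]
      · rw [if_neg hi, mul_zero]
  choose e he using ex
  have hT : ∀ l : ℕ, l.Prime → l ∉ insert 2 W → ∀ u, P022D.G.Inert l u → χ u = 1 ∧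
      (∀ j, b j u = 0) ∧ (∀ i, c i u = 0) ∧ ∀ k, e k u = 0 := by
    rintro l lp hl u ⟨P, p1, p2, hu⟩
    rw [Finset.mem_insert, not_or] at hl
    have o : Ov l P := ⟨lp, p1, p2⟩
    have i1 := B.unr l hl.2 hl.1 P o u hu
    exact ⟨Units.ext i1, fun j => (cb j).unr l hl.2 hl.1 P o u hu,
      fun i => (cc i).unr l hl.2 hl.1 P o u hu, fun k => (he k).unr l hl.1 P o u hu i1⟩
  obtain ⟨Y, hY, hq⟩ := Chb.chb (p := Subtype.val) Subtype.val_injective X.hb.coc X.hc.coc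
    (fun k => (he k).pr B) X.hb.li X.hc.li X.hb.nrm X.hc.nrm n0 (by
      choose U hU h1 using X.hb.opn
      choose V hV h2 using X.hc.opn
      choose Z hZ h3 using fun k => (he k).opn (coc1 (cb _).coc)
      refine ⟨χ.ker ⊓ ((⨅ j, U j) ⊓ ((⨅ i, V i) ⊓ ⨅ k, Z k)), ?_, fun u hu => ⟨hu.1,
        fun j => h1 j u (Subgroup.mem_iInf.1 hu.2.1 j),
        fun i => h2 i u (Subgroup.mem_iInf.1 hu.2.2.1 i),
        fun k => h3 k u (Subgroup.mem_iInf.1 hu.2.2.2 k)⟩⟩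
      simp only [Subgroup.coe_inf, Subgroup.coe_iInf]
      exact B.opn.inter ((isOpen_iInter_of_finite hU).inter
        ((isOpen_iInter_of_finite hV).inter (isOpen_iInter_of_finite hZ)))) (insert 2 W) hT
  let A' := insert 2 (insert 7 (A ∪ W))
  obtain ⟨q0, inj0, h0⟩ := hq A' n
  obtain ⟨q1, x1, x2, x3, x4, x5⟩ := extra B.opn n0 (insert 2 W) (fun l a1 a2 u a3 =>
    (hT l a1 a2 u a3).1) (A' ∪ Finset.univ.image q0) n
  rw [Finset.mem_union, not_or] at x2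
  let ε : Fin (Fintype.card I * Fintype.card J) ≃ J × I :=
    (Fintype.equivFinOfCardEq (by rw [Fintype.card_prod, mul_comm])).symm
  let q' : J × I → ℕ := fun p =>
    if h : ¬ (s.G = true ∧ p.1 = s.j0 ∧ p.2 = s.i0) then q0 ⟨p, h⟩ else q1
  have qK : ∀ p : K, q' p.1 = q0 p := fun p => dif_pos p.2
  have qN : ∀ p : J × I, (s.G = true ∧ p.1 = s.j0 ∧ p.2 = s.i0) → q' p = q1 := fun p h =>
    dif_neg (not_not.2 h)
  have hq' : ∀ p, (q' p).Prime ∧ q' p ∉ A' ∧ 2 ^ n ∣ q' p - 1 ∧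
      (∃ z : ZMod (q' p), z ^ 2 ^ n = 2) ∧ ∀ φ, IsFrob (q' p) φ → χ φ ≠ 1 := fun p => by
    by_cases h : s.G = true ∧ p.1 = s.j0 ∧ p.2 = s.i0
    · rw [qN p h]
      exact ⟨x1, x2.1, x3, x4, x5⟩
    · rw [qK ⟨p, h⟩]
      obtain ⟨a1, a2, a3, a4, a5⟩ := h0 ⟨p, h⟩
      exact ⟨a1, a2, a3, a4, fun φ k => (a5 φ k).1⟩
  have inj' : Function.Injective q' := fun p p' e => by
    by_cases h : s.G = true ∧ p.1 = s.j0 ∧ p.2 = s.i0 <;>
      by_cases h' : s.G = true ∧ p'.1 = s.j0 ∧ p'.2 = s.i0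
    · exact Prod.ext (h.2.1.trans h'.2.1.symm) (h.2.2.trans h'.2.2.symm)
    · rw [qN p h, qK ⟨p', h'⟩] at e
      exact absurd (Finset.mem_image.2 ⟨_, Finset.mem_univ _, e.symm⟩) x2.2
    · rw [qN p' h', qK ⟨p, h⟩] at e
      exact absurd (Finset.mem_image.2 ⟨_, Finset.mem_univ _, e⟩) x2.2
    · rw [qK ⟨p, h⟩, qK ⟨p', h'⟩] at e
      exact congrArg Subtype.val (inj0 e)
  have out : ∀ p, q' p ≠ 2 ∧ q' p ≠ 7 ∧ q' p ∉ A ∧ q' p ∉ W := fun p => by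
    simpa only [A', Finset.mem_insert, Finset.mem_union, not_or, and_assoc] using (hq' p).2.1
  choose P o using fun k => ex_ov (hq' (ε k)).1
  choose φ hφ using fun k => exists_phi (o k).1 (o k).2.1 (o k).2.2
  choose τ hτ using fun k => Tg.ex_gn (o k) (out _).1
  have fr : ∀ k, IsFrob (q' (ε k)) (φ k) := fun k => ⟨P k, (o k).2.1, (o k).2.2, hφ k⟩
  have ne : ∀ k, χ (φ k) ≠ χ⁻¹ (φ k) := fun k => n1 ((hq' _).2.2.2.2 _ (fr k))
  have hd : ∀ k, φ k ∈ dec (P k) := fun k => phi_mem (o k).1 (o k).2.1 (hφ k)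
  let y : I → J → Fin (Fintype.card I * Fintype.card J) → F := fun i j k =>
    if h : ¬ (s.G = true ∧ j = s.j0 ∧ i = s.i0) then sy χ χ⁻¹ (b j) (c i) (e ⟨(j, i), h⟩) (φ k)
    else if ε k = (j, i) then 1 else 0
  have yK : ∀ (p : K) k, y p.1.2 p.1.1 k = sy χ χ⁻¹ (b p.1.1) (c p.1.2) (e p) (φ k) :=
    fun p k => dif_pos p.2
  have hQ : ∀ k, Ov (q' (ε k)) (P k) ∧ q' (ε k) ≠ 2 ∧ q' (ε k) ≠ 7 ∧ Gn (q' (ε k)) (P k) (τ k) ∧
      Fb (q' (ε k)) (P k) (φ k) := fun k => ⟨o k, (out _).1, (out _).2.1, hτ k, hφ k⟩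
  have im : ∀ p ∈ Finset.univ.image fun k => q' (ε k), ∃ k, q' (ε k) = p := fun p hp => by
    simpa using hp
  refine ⟨fun k => q' (ε k), τ, y, inj'.comp ε.injective,
    fun k => ⟨(hq' _).1, (out _).2.2.1, (hq' _).2.2.1, (hq' _).2.2.2.1⟩,
    fun k φ' h => n1 ((hq' _).2.2.2.2 _ h), fun k => ⟨P k, (o k).2.1, (o k).2.2, (hτ k).1⟩,
    fun f => unrQ B o (fun k => (out _).2.2.2) hd ne,
    fun f => unrQ B.symm o (fun k => (out _).2.2.2) hd fun k => (ne k).symm,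
    fun p pa po pu p0 l lp l2 _ P' p1 p2 i hi => ?_, fun w hw => ?_,
    fun i hi f om fc oa oo ou o2 oc fo fu => ?_, fun j hj f om fc oa oo ou o2 oc fo fu => ?_⟩
  · by_cases h : l ∈ Finset.univ.image fun k => q' (ε k)
    · obtain ⟨k, rfl⟩ := im l h
      obtain ⟨t, rfl⟩ := Tg.trans (o k) ⟨lp, p1, p2⟩
      have := Tg.mult (o k) l2 (hτ k) (a := p) (fun s _ t _ => pa s t)
        (po.imp fun U hU => ⟨hU.1, fun σ k _ => hU.2 σ k⟩) (Tg.inert_conj hi)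
      rw [p0, mul_zero] at this
      rw [← this, ← P022F.Gen.addcj pa t⁻¹ i, inv_inv]
    · exact pu l lp l2 h P' p1 p2 i hi
  · have w0 : ∀ k, (s.G = true ∧ (ε k).1 = s.j0 ∧ (ε k).2 = s.i0) → w k = 0 := fun k h => by
      have := hw (ε k).2 (ε k).1
      rw [Finset.sum_eq_single k (fun k' _ hk => by
        simp only [y, dif_neg (not_not.2 h), Prod.mk.eta, if_neg fun e => hk (ε.injective e),
          zero_mul]) (fun h => (h (Finset.mem_univ _)).elim)] at this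
      simpa only [y, dif_neg (not_not.2 h), Prod.mk.eta, if_true, one_mul] using this
    have w1 : Y.mulVec (fun t : K => w (ε.symm t.1)) = 0 := by
      funext p
      have := hw p.1.2 p.1.1
      rw [← ε.symm.sum_comp, ← Fintype.sum_subtype_add_sum_subtype
        (fun p : J × I => ¬ (s.G = true ∧ p.1 = s.j0 ∧ p.2 = s.i0)),
        Finset.sum_eq_zero (s := Finset.univ (α := {x : J × I // ¬¬ _})) (fun t _ => by
          rw [w0 _ (by rw [ε.apply_symm_apply]; exact not_not.1 t.2), mul_zero]), add_zero] at this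
      rw [Pi.zero_apply, ← this]
      refine Finset.sum_congr rfl fun t _ => ?_
      have k := fr (ε.symm t.1)
      rw [ε.apply_symm_apply, qK t] at k
      rw [yK, sy_eq B, ((h0 t).2.2.2.2 _ k).2 p]
    have w2 := (Matrix.mulVec_injective_iff_isUnit.2 hY) (w1.trans (Matrix.mulVec_zero Y).symm)
    funext k
    by_cases h : s.G = true ∧ (ε k).1 = s.j0 ∧ (ε k).2 = s.i0
    · exact w0 k h
    · simpa using congrFun w2 ⟨ε k, h⟩
  · have hp : ∀ j, ¬ (s.G = true ∧ j = s.j0 ∧ i = s.i0) := fun j h => hi.elim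
      (fun k => X.ok.hi (h.2.2 ▸ k)) fun k => by simp [k.2] at h
    have := recA B cb (cc i) (e := fun j => e ⟨(j, i), hp j⟩) (fun j => he ⟨(j, i), hp j⟩)
      (v1 i hi) (inj'.comp ε.injective) hQ (fun k => (out _).2.2.2) ne im hc0 f om
      (fun g h => by
        rw [fc]; congr 1; exact Finset.sum_congr rfl fun j _ => by ring) oa oo o2 oc ou fo fu
    rw [← this, Finset.sum_comm]
    exact Finset.sum_congr rfl fun j _ => Finset.sum_congr rfl fun k _ => by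
      rw [← yK ⟨(j, i), hp j⟩]
  · have hp : ∀ i, ¬ (s.G = true ∧ j = s.j0 ∧ i = s.i0) := fun i h =>
      (X.ok.cG h.1).1 (h.2.1 ▸ hj)
    have := recA B.symm cc (cb j) (e := fun i g => e ⟨(j, i), hp i⟩ g + b j g * c i g)
      (fun i => (he ⟨(j, i), hp i⟩).swap B (cb j) (cc i))
      (v2 j hj) (inj'.comp ε.injective) hQ (fun k => (out _).2.2.2) (fun k => (ne k).symm) im hc0
      f om (fun g h => by
        rw [fc]; congr 1; exact Finset.sum_congr rfl fun j _ => by ring) oa oo o2 oc ou fo fu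
    rw [← this, Finset.sum_comm]
    exact Finset.sum_congr rfl fun i _ => Finset.sum_congr rfl fun k _ => by
      rw [sy_swap B fun h => ne k (Units.ext h), ← yK ⟨(j, i), hp i⟩]

end Vale.Agent.P022R.Ari
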