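import Vale.Agent.P022R.Ari0

/-!
# P022R: the arithmetic input of the presentation
-/

set_option linter.all false

open NumberField

noncomputable section

namespace Vale.Agent.P022R.Alg

open Vale.Agent.P022 Vale.Agent.P022D Vale.Agent.P022E.GW
open Vale.Agent.P022F (Cc OkF)
open Vale.Agent.P022E.Loc (Pl)
open Vale.Agent.P022D.As (Aq)
open Vale.Agent.P027M.S (Inert mx)

/-- **row ARI**, with at least one regular prime -/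
def ARI2 : Prop := ∀ (O F : Type) [CommRing O] [IsDomain O] [IsDiscreteValuationRing O]
  [Field F] [Finite F] [CharP F 2] (S : R.Dat O F) (L : Pl O) (χ₀ ψ₀ : GQ →* Fˣ), OkF L S →
  (∀ g, (χ₀ g : F) = mx S.rb g 0 0) → (∀ g, (ψ₀ g : F) = mx S.rb g 1 1) →
  (∀ l : ℕ, l.Prime → l ∉ S.T → ∀ P : Ideal (𝓞 Qb), P.IsPrime → (l : 𝓞 Qb) ∈ P →
    ∀ s, Inert P s → L.r s = 1) →
  (∃ g ∈ W.dec (L.P 2), mx S.rb g 0 0 ≠ mx S.rb g 1 1) → L.W.Nonempty →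
  ∃ (χ ψ : GQ →* Fˣ) (I J : Type) (_ : Fintype I) (_ : Fintype J) (_ : DecidableEq I)
    (_ : DecidableEq J) (s : Sh I J) (b : J → GQ → F) (c : I → GQ → F) (l0 : ℕ),
    ((χ = χ₀ ∧ ψ = ψ₀) ∨ (χ = ψ₀ ∧ ψ = χ₀)) ∧ l0 ∈ L.W ∧ Fix L.W (L.g0 l0) L.c χ ψ s b c ∧
    ∀ (A : Finset ℕ) (n : ℕ), ∃ (q : Fin (Fintype.card I * Fintype.card J) → ℕ) (τ : _ → GQ)
      (y : I → J → _ → F), Function.Injective q ∧ (∀ k, Aq S.rb (A ∪ S.T) n (q k)) ∧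
      (∀ k φ, IsFrob (q k) φ → χ φ ≠ ψ φ) ∧ Lvl L.W L.c χ ψ s b c q τ y

/-- the adapted bases -/
def FIX : Prop := ∀ (F : Type) [Field F] [Finite F] [CharP F 2] (χ₀ ψ₀ : GQ →* Fˣ) (W : Finset ℕ)
  (g0 c0 : GQ), Rel.Bs χ₀ ψ₀ W → 2 ∉ W →
  (∀ l ∈ W, l.Prime ∧ ∃ P, Ov l P ∧ ∃ g ∈ P022D.W.dec P, χ₀ g ≠ ψ₀ g) →
  (∃ g ∈ P022D.W.dec (Loc2.PP 2), χ₀ g ≠ ψ₀ g) → χ₀ g0 ≠ ψ₀ g0 → IsConj c0 →
  ∃ (χ ψ : GQ →* Fˣ) (I J : Type) (_ : Fintype I) (_ : Fintype J) (_ : DecidableEq I)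
    (_ : DecidableEq J) (s : Sh I J) (b : J → GQ → F) (c : I → GQ → F),
    ((χ = χ₀ ∧ ψ = ψ₀) ∨ (χ = ψ₀ ∧ ψ = χ₀)) ∧ Fix W g0 c0 χ ψ s b c ∧
    (∀ j ∈ s.J0, Rel.Tr χ ψ (P022D.W.dec (Loc2.PP 2)) (b j)) ∧
    ∀ i, (i ∈ s.I0 ∨ (i = s.i0 ∧ s.G = false)) → Rel.Tr ψ χ (P022D.W.dec (Loc2.PP 2)) (c i)

theorem ari2 (h : FIX) : ARI2 := by
  intro O F _ _ _ _ _ _ S L χ₀ ψ₀ hL h0 h1 unr d2 ⟨l0, hl0⟩
  have mW : ∀ {l}, l ∈ L.W → l ∈ L.W ∪ L.C := Finset.mem_union_left _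
  have one : ∀ g, S.rb g = 1 → mx S.rb g = 1 := fun g k => congrArg Units.val k
  have B : Rel.Bs χ₀ ψ₀ L.W := by
    refine Rel.mkBs (fun g => ?_) (Subgroup.isOpen_mono (H₁ := S.rb.ker) (fun g k => Units.ext ?_)
      hL.dh.opn) fun p hp p2 P o i hi => Units.ext ?_
    · have := hL.det g
      rwa [Matrix.det_fin_two, hL.lo, mul_zero, sub_zero, ← h0, ← h1] at this
    · rw [h0, one g k, Matrix.one_apply_eq, Units.val_one]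
    · have hT : p ∉ S.T := by
        rw [hL.hT, hL.hC, Finset.union_empty, Finset.mem_insert, Finset.mem_insert, not_or, not_or]
        exact ⟨o.1.ne_zero, p2, hp⟩
      rw [h0, ← hL.lift, unr p o.1 hT P o.2.1 o.2.2 i hi]
      simp
  have ne : ∀ l ∈ L.W, χ₀ (L.g0 l) ≠ ψ₀ (L.g0 l) := fun l hl k => (hL.reg l hl).2.2 (by
    rw [hL.d0, hL.d1, ← h0, ← h1, k])
  have reg : ∀ l ∈ L.W, l.Prime ∧ ∃ P, Ov l P ∧ ∃ g ∈ W.dec P, χ₀ g ≠ ψ₀ g := fun l hl =>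
    ⟨(hL.pr l (mW hl)).1, L.P l, ⟨(hL.pr l (mW hl)).1, hL.hP l (mW hl)⟩, L.g0 l,
      (hL.reg l hl).1, ne l hl⟩
  obtain ⟨χ, ψ, I, J, i1, i2, i3, i4, s, b, c, ho, X, v2, v1⟩ := h F χ₀ ψ₀ L.W (L.g0 l0) L.c B
    (fun k => (hL.pr 2 (mW k)).2 rfl) reg (by
      obtain ⟨g, hg, k⟩ := d2
      exact ⟨g, hL.h2 ▸ hg, fun e => k (by rw [← h0, ← h1, e])⟩) (ne l0 hl0) hL.cj
  refine ⟨χ, ψ, I, J, i1, i2, i3, i4, s, b, c, l0, ho, hl0, X, fun A n => ?_⟩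
  have sw : ∀ g, χ g ≠ ψ g ↔ χ₀ g ≠ ψ₀ g := fun g => by
    rcases ho with ⟨rfl, rfl⟩ | ⟨rfl, rfl⟩
    exacts [Iff.rfl, ne_comm]
  have B' : Rel.Bs χ ψ L.W := by
    rcases ho with ⟨rfl, rfl⟩ | ⟨rfl, rfl⟩
    exacts [B, B.symm]
  obtain ⟨q, τ, y, a1, a2, a3, a4⟩ := Ari.lvl B' (fun l hl _ _ => by
    obtain ⟨-, P, o, g, hg, k⟩ := reg l hl
    exact ⟨P, o, g, hg, (sw g).2 k⟩) ((sw _).2 (ne l0 hl0)) hL.cj X v1 v2 (A ∪ S.T) n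
  exact ⟨q, τ, y, a1, fun k => ⟨(a2 k).1, (a2 k).2.1, (a2 k).2.2.1, (a2 k).2.2.2, fun φ hφ sc =>
    (sw φ).1 (a3 k φ hφ) (Units.ext (by rw [h0, h1, sc.2.2]))⟩, a3, a4⟩

end Vale.Agent.P022R.Alg
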