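import Vale.Agent.P022R.Geo

/-!
P022R: the three cases, with adapted bases.
-/

set_option linter.all false

open Module

noncomputable section

namespace Vale.Agent.P022R.Cas

variable {F W : Type} [Field F] [AddCommGroup W] [Module F W]

theorem span_bas {S : Submodule F W} {ι : Type} (b : Basis ι F S) :
    Submodule.span F (Set.range fun i => (b i : W)) = S := by
  rw [show (fun i => (b i : W)) = S.subtype ∘ b from rfl, Set.range_comp, ← Submodule.map_span,
    b.span_eq, Submodule.map_top, Submodule.range_subtype]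

theorem adA {S K : Submodule F W} [FiniteDimensional F K] (h : S ≤ K) :
    ∃ (J : Type) (_ : Fintype J) (_ : DecidableEq J) (J0 : Finset J) (b : J → W),
      LinearIndependent F b ∧ Submodule.span F (Set.range b) = K ∧ (∀ j ∈ J0, b j ∈ S) ∧
      J0.card = finrank F S := by
  obtain ⟨Q, hQ⟩ := S.exists_isCompl
  haveI := Submodule.finiteDimensional_of_le h
  haveI : FiniteDimensional F (Q ⊓ K : Submodule F W) :=
    Submodule.finiteDimensional_of_le inf_le_right
  let u := finBasis F S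
  let v := finBasis F (Q ⊓ K : Submodule F W)
  refine ⟨_, inferInstance, inferInstance, Finset.univ.map Function.Embedding.inl,
    Sum.elim (fun i => (u i : W)) fun i => (v i : W), ?_, ?_, fun j hj => ?_, ?_⟩
  · refine LinearIndependent.sum_type (u.linearIndependent.map' S.subtype S.ker_subtype)
      (v.linearIndependent.map' (Q ⊓ K).subtype (Q ⊓ K).ker_subtype) ?_
    rw [span_bas, span_bas]
    exact hQ.disjoint.mono_right inf_le_left
  · rw [Set.Sum.elim_range, Submodule.span_union, span_bas, span_bas, ← sup_inf_assoc_of_le _ h,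
      hQ.sup_eq_top, top_inf_eq]
  · obtain ⟨i, -, rfl⟩ := Finset.mem_map.1 hj
    exact (u i).2
  · rw [Finset.card_map, Finset.card_univ, Fintype.card_fin]

theorem adB (ε : W →ₗ[F] F) {S H : Submodule F W} [FiniteDimensional F H]
    (h : S ≤ H ⊓ LinearMap.ker ε) {d : W} (hd : d ∈ H) (h1 : ε d = 1) :
    ∃ (I : Type) (_ : Fintype I) (_ : DecidableEq I) (I0 : Finset I) (i0 : I) (c : I → W),
      LinearIndependent F c ∧ Submodule.span F (Set.range c) = H ∧ (∀ i ∈ I0, c i ∈ S) ∧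
      I0.card = finrank F S ∧ i0 ∉ I0 ∧ c i0 = d ∧ ∀ i, i ≠ i0 → ε (c i) = 0 := by
  haveI : FiniteDimensional F (H ⊓ LinearMap.ker ε : Submodule F W) :=
    Submodule.finiteDimensional_of_le inf_le_left
  obtain ⟨J, _, _, J0, b, b1, b2, b3, b4⟩ := adA h
  have bm : ∀ j, b j ∈ H ⊓ LinearMap.ker ε := fun j => b2 ▸ Submodule.subset_span ⟨j, rfl⟩
  refine ⟨Option J, inferInstance, inferInstance, J0.map Function.Embedding.some, none,
    fun o => Option.casesOn' o d b, b1.option ?_, le_antisymm (Submodule.span_le.2 ?_)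
      fun x hx => ?_, fun i hi => ?_, by rw [Finset.card_map, b4], by simp, rfl, ?_⟩
  · rw [b2]
    exact fun e => one_ne_zero (h1.symm.trans e.2)
  · rintro _ ⟨_ | j, rfl⟩
    exacts [hd, (bm j).1]
  · have e : x - ε x • d ∈ Submodule.span F (Set.range b) := by
      rw [b2]
      exact ⟨H.sub_mem hx (H.smul_mem _ hd), by
        show ε _ = 0
        rw [map_sub, map_smul, h1, smul_eq_mul, mul_one, sub_self]⟩
    rw [← sub_add_cancel x (ε x • d)]
    refine add_mem (Submodule.span_mono ?_ e)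
      (Submodule.smul_mem _ _ (Submodule.subset_span ⟨none, rfl⟩))
    rintro _ ⟨j, rfl⟩
    exact ⟨some j, rfl⟩
  · obtain ⟨j, hj, rfl⟩ := Finset.mem_map.1 hi
    exact b3 j hj
  · rintro (_ | j) hi
    exacts [(hi rfl).elim, (bm j).2]

/-- **adapted bases** -/
structure Cs (ε : W →ₗ[F] F) (Hp Hm Vp Vm : Submodule F W) {I J : Type} [Fintype I] [Fintype J]
    [DecidableEq I] [DecidableEq J] (s : Sh I J) (b : J → W) (c : I → W) : Prop where
  ok : s.Ok
  lb : LinearIndependent F b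
  lc : LinearIndependent F c
  sb : Submodule.span F (Set.range b) = Hp
  sc : Submodule.span F (Set.range c) = Hm
  vb : ∀ j ∈ s.J0, b j ∈ Vp
  vc : ∀ i ∈ s.I0, c i ∈ Vm
  c1 : ε (c s.i0) = 1
  c0 : ∀ i, i ≠ s.i0 → ε (c i) = 0
  b1 : s.G = true → ε (b s.j0) = 1
  b0 : ∀ j, (s.G = true → j ≠ s.j0) → ε (b j) = 0
  gI : s.G = true → ∀ i, i ≠ s.i0 → i ∈ s.I0
  gJ : s.G = true → ∀ j, j ≠ s.j0 → j ∈ s.J0
  nv : ¬ s.G = true → c s.i0 ∈ Vm

theorem ex1 (ε : W →ₗ[F] F) {H : Submodule F W} (h : ¬ H ≤ LinearMap.ker ε) :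
    ∃ d ∈ H, ε d = 1 := by
  obtain ⟨x, hx, h0⟩ := SetLike.not_le_iff_exists.1 h
  exact ⟨(ε x)⁻¹ • x, H.smul_mem _ hx, by
    rw [map_smul, smul_eq_mul, inv_mul_cancel₀ (show ε x ≠ 0 from h0)]⟩

theorem rk1 (ε : W →ₗ[F] F) (H : Submodule F W) [FiniteDimensional F H] :
    finrank F H ≤ finrank F (H ⊓ LinearMap.ker ε : Submodule F W) + 1 := by
  by_cases h : H ≤ LinearMap.ker ε
  · rw [inf_eq_left.2 h]; omega
  · obtain ⟨d, hd, h1⟩ := ex1 ε h
    obtain ⟨I, _, _, I0, i0, c, c1, c2, c3, c4, c5, c6, c7⟩ := adB ε le_rfl hd h1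
    have e : finrank F (Submodule.span F (Set.range (c ∘ (Subtype.val : {i // i ≠ i0} → I)))) ≤
        finrank F (H ⊓ LinearMap.ker ε : Submodule F W) := by
      haveI : FiniteDimensional F (H ⊓ LinearMap.ker ε : Submodule F W) :=
        Submodule.finiteDimensional_of_le inf_le_left
      refine Submodule.finrank_mono (Submodule.span_le.2 ?_)
      rintro _ ⟨i, rfl⟩
      exact ⟨c2 ▸ Submodule.subset_span ⟨i.1, rfl⟩, c7 _ i.2⟩
    rw [finrank_span_eq_card (c1.comp Subtype.val Subtype.val_injective),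
      Fintype.card_subtype_compl, Fintype.card_subtype_eq] at e
    rw [← c2, finrank_span_eq_card c1, c2]
    omega

theorem all {I : Type} [Fintype I] [DecidableEq I] {I0 : Finset I} {i0 : I} (h : i0 ∉ I0)
    (hc : I0.card + 1 = Fintype.card I) (i : I) (hi : i ≠ i0) : i ∈ I0 := by
  have := Finset.eq_univ_of_card (insert i0 I0) (by rw [Finset.card_insert_of_notMem h, hc])
  exact (Finset.mem_insert.1 (this ▸ Finset.mem_univ i)).resolve_left hi

section
variable (ε : W →ₗ[F] F) {Hp Hm Vp Vm : Submodule F W} [FiniteDimensional F Hp]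
  [FiniteDimensional F Hm] (lp : Vp ≤ Hp) (lm : Vm ≤ Hm)
  (e1 : finrank F (Vm ⊓ LinearMap.ker ε : Submodule F W) + 1 = finrank F Hp)
  (e2 : finrank F (Vp ⊓ LinearMap.ker ε : Submodule F W) + 1 = finrank F Hm)
include lp lm e1 e2

theorem half (v1 : finrank F (Hp ⊓ LinearMap.ker ε : Submodule F W) ≤ finrank F Vm)
    (km : finrank F Hm ≤ finrank F Vm + 1) (h : Hp ≤ LinearMap.ker ε) :
    ∃ (I J : Type) (_ : Fintype I) (_ : Fintype J) (_ : DecidableEq I) (_ : DecidableEq J)
      (s : Sh I J) (b : J → W) (c : I → W), Cs ε Hp Hm Vp Vm s b c := by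
  haveI := Submodule.finiteDimensional_of_le lm
  haveI := Submodule.finiteDimensional_of_le lp
  rw [inf_eq_left.2 h] at v1
  obtain ⟨d, hd, h1⟩ := ex1 ε (H := Vm) fun k => by
    rw [inf_eq_left.2 k] at e1
    omega
  obtain ⟨I, _, _, I0, i0, c, c1, c2, c3, c4, c5, c6, c7⟩ :=
    adB ε (inf_le_inf_right _ lm) (lm hd) h1
  obtain ⟨J, _, _, J0, b, b1, b2, b3, b4⟩ := adA (S := Vp ⊓ LinearMap.ker ε) (inf_le_left.trans lp)
  have nI : Fintype.card I = finrank F Hm := by rw [← c2, finrank_span_eq_card c1]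
  have nJ : Fintype.card J = finrank F Hp := by rw [← b2, finrank_span_eq_card b1]
  obtain ⟨j0⟩ : Nonempty J := Fintype.card_pos_iff.1 (by omega)
  have r1 := rk1 ε Vm
  have r2 := Submodule.finrank_mono lm
  exact ⟨I, J, _, _, _, _, ⟨I0, J0, i0, j0, false⟩, b, c, ⟨c5, by simp only; omega,
    by simp only; omega, by simp, by omega⟩, b1, c1, b2, c2, fun j hj => (b3 j hj).1,
    fun i hi => (c3 i hi).1, by simp only; rw [c6, h1], c7, by simp,
    fun j _ => h (b2 ▸ Submodule.subset_span ⟨j, rfl⟩), by simp, by simp,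
    fun _ => by simp only; rw [c6]; exact hd⟩

/-- **CASES** -/
theorem cas (v1 : finrank F (Hp ⊓ LinearMap.ker ε : Submodule F W) ≤ finrank F Vm)
    (v2 : finrank F (Hm ⊓ LinearMap.ker ε : Submodule F W) ≤ finrank F Vp)
    (kp : finrank F Hp ≤ finrank F Vp + 1) (km : finrank F Hm ≤ finrank F Vm + 1) :
    ∃ (I J : Type) (_ : Fintype I) (_ : Fintype J) (_ : DecidableEq I) (_ : DecidableEq J)
      (s : Sh I J) (b : J → W) (c : I → W), Cs ε Hp Hm Vp Vm s b c ∨ Cs ε Hm Hp Vm Vp s b c := by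
  by_cases hp : Hp ≤ LinearMap.ker ε
  · obtain ⟨I, J, _, _, _, _, s, b, c, h⟩ := half ε lp lm e1 e2 v1 km hp
    exact ⟨I, J, _, _, _, _, s, b, c, Or.inl h⟩
  by_cases hm : Hm ≤ LinearMap.ker ε
  · obtain ⟨I, J, _, _, _, _, s, b, c, h⟩ := half ε lm lp e2 e1 v2 kp hm
    exact ⟨I, J, _, _, _, _, s, b, c, Or.inr h⟩
  obtain ⟨d, hd, h1⟩ := ex1 ε hm
  obtain ⟨d', hd', h1'⟩ := ex1 ε hp
  obtain ⟨I, _, _, I0, i0, c, c1, c2, c3, c4, c5, c6, c7⟩ := adB ε (inf_le_inf_right _ lm) hd h1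
  obtain ⟨J, _, _, J0, j0, b, b1, b2, b3, b4, b5, b6, b7⟩ := adB ε (inf_le_inf_right _ lp) hd' h1'
  have nI : Fintype.card I = finrank F Hm := by rw [← c2, finrank_span_eq_card c1]
  have nJ : Fintype.card J = finrank F Hp := by rw [← b2, finrank_span_eq_card b1]
  have kI := Finset.card_le_univ (insert i0 I0)
  have kJ := Finset.card_le_univ (insert j0 J0)
  rw [Finset.card_insert_of_notMem c5] at kI
  rw [Finset.card_insert_of_notMem b5] at kJ
  exact ⟨I, J, _, _, _, _, ⟨I0, J0, i0, j0, true⟩, b, c, Or.inl ⟨⟨c5, by simp only; omega,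
    by simp only; omega, fun _ => ⟨b5, by omega⟩, by omega⟩, b1, c1, b2, c2,
    fun j hj => (b3 j hj).1, fun i hi => (c3 i hi).1, by simp only; rw [c6, h1], c7,
    fun _ => by simp only; rw [b6, h1'], fun j hj => b7 j (hj rfl),
    fun _ => all (I0 := I0) c5 (by omega), fun _ => all (I0 := J0) b5 (by omega), by simp⟩⟩

end

end Vale.Agent.P022R.Cas
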