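import Vale.Agent.P022F.Wiles
import Vale.Agent.P022D.Twq.Main
import Vale.Agent.P022D.Good.Cliff
import Vale.Agent.P022D.G.Defs
import Vale.Agent.P027M.F.Tra

/-!
P022R: auxiliary primes with prescribed second order symbols.
-/

set_option linter.all false

open NumberField
open scoped Pointwise

noncomputable section

namespace Vale.Agent.P022R.Chb

open Vale.Agent.P022 Vale.Agent.P022D Vale.Agent.P022D.Sel
open Vale.Agent.P022F (Cc)

section grp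

variable {G F : Type} [Group G] [Field F] {χ : G →* Fˣ} {b c e : G → F}

/-- `e` is a primitive of the cup product of `b` and `c` -/
def Pr (χ : G →* Fˣ) (b c e : G → F) : Prop :=
  ∀ g h, e (g * h) = e g + e h + b g * c h / (χ g * χ h)

/-- the symbol -/
def sy (χ : G →* Fˣ) (b c e : G → F) (g : G) : F :=
  e g + b g * c g / (χ g * (χ g + (χ g : F)⁻¹))

theorem iv (χ : G →* Fˣ) (g : G) : (χ⁻¹ g : F) = (χ g : F)⁻¹ := by
  rw [MonoidHom.inv_apply, Units.val_inv_eq_inv_val]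

theorem sy_r (hb : Cc χ χ⁻¹ b) (hc : Cc χ⁻¹ χ c) (he : Pr χ b c e) (g : G) {u : G} (h0 : χ u = 1)
    (h1 : b u = 0) (h2 : c u = 0) : sy χ b c e (g * u) = sy χ b c e g + e u := by
  rw [sy, sy, he, hb, hc, map_mul, iv χ u, h0, h1, h2]
  simp only [Units.val_one, inv_one, mul_one, mul_zero, zero_add, zero_div, add_zero]
  ring

theorem sy_l (hb : Cc χ χ⁻¹ b) (hc : Cc χ⁻¹ χ c) (he : Pr χ b c e) (g : G) {u : G} (h0 : χ u = 1)
    (h1 : b u = 0) (h2 : c u = 0) : sy χ b c e (u * g) = sy χ b c e g + e u := by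
  rw [sy, sy, he, hb, hc, map_mul, iv χ u, h0, h1, h2]
  simp only [Units.val_one, inv_one, one_mul, zero_mul, zero_add, zero_div, add_zero]
  ring

variable [CharP F 2]

theorem ne0 {x : Fˣ} (h : x ≠ 1) : (x : F) + (x : F)⁻¹ ≠ 0 := fun e => h (by
  have two : (2 : F) = 0 := CharTwo.two_eq_zero
  have h1 : (x : F) * (x : F)⁻¹ = 1 := mul_inv_cancel₀ x.ne_zero
  have h2 : ((x : F) - 1) ^ 2 = 0 := by
    linear_combination (x : F) * e - h1 - (x : F) * two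
  exact Units.ext (sub_eq_zero.1 (pow_eq_zero_iff two_ne_zero |>.1 h2)))

theorem cj {χ ψ : G →* Fˣ} (hb : Cc χ ψ b) (g s : G) :
    b (g * s * g⁻¹) * ψ g = χ g * b s + ((χ s : F) + ψ s) * b g := by
  have two : (2 : F) = 0 := CharTwo.two_eq_zero
  have h1 := hb (g * s * g⁻¹) g
  rw [inv_mul_cancel_right, hb g s, map_mul, map_mul, map_inv, mul_inv_cancel_comm] at h1
  linear_combination -h1 - (χ s : F) * b g * two

theorem sy_mul {g : G} (h : χ g ≠ 1) :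
    χ g * ((χ g : F) + (χ g : F)⁻¹) * sy χ b c e g =
      χ g * ((χ g : F) + (χ g : F)⁻¹) * e g + b g * c g := by
  rw [sy, mul_add, mul_div_cancel₀ _ (mul_ne_zero (χ g).ne_zero (ne0 h))]

theorem sy_cj (hb : Cc χ χ⁻¹ b) (hc : Cc χ⁻¹ χ c) (he : Pr χ b c e) (g : G) {s : G}
    (h : χ s ≠ 1) : sy χ b c e (g * s * g⁻¹) = sy χ b c e s := by
  have two : (2 : F) = 0 := CharTwo.two_eq_zero
  have e0 : χ (g * s * g⁻¹) = χ s := by rw [map_mul, map_mul, map_inv, mul_inv_cancel_comm]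
  have a1 := cj hb g s
  have a2 := cj hc g s
  have a3 := he (g * s * g⁻¹) g
  rw [inv_mul_cancel_right, he g s, e0] at a3
  rw [iv, iv] at a1 a2
  have x0 := (χ g).ne_zero
  have y0 := (χ s).ne_zero
  have d0 := ne0 h
  have k1 := sy_mul (b := b) (c := c) (e := e) h
  have k2 := sy_mul (b := b) (c := c) (e := e) (g := g * s * g⁻¹) (by rw [e0]; exact h)
  rw [e0] at k2
  refine mul_left_cancel₀ (mul_ne_zero y0 d0) ?_
  rw [k1, k2]
  rw [add_comm (χ s : F)⁻¹] at a2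
  rw [div_eq_mul_inv, div_eq_mul_inv, mul_inv, mul_inv] at a3
  have i1 : (χ g : F) * (χ g : F)⁻¹ = 1 := mul_inv_cancel₀ x0
  have i2 : (χ s : F) * (χ s : F)⁻¹ = 1 := mul_inv_cancel₀ y0
  generalize (χ s : F) + (χ s : F)⁻¹ = D at a1 a2 ⊢
  linear_combination (-(χ s : F) * D) * a3 +
    D * (χ g : F)⁻¹ * (b g * c s - b (g * s * g⁻¹) * c g) * i2 +
    (b s * c s - b (g * s * g⁻¹) * c (g * s * g⁻¹)) * i1 +
    (c (g * s * g⁻¹) * χ g - D * c g) * a1 + (χ g * b s + D * b g) * a2 +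
    D * (χ g : F)⁻¹ * b g * c s * two

theorem cc_pow {χ ψ : G →* Fˣ} (hb : Cc χ ψ b) (s : G) (m : ℕ) :
    ((χ s : F) + ψ s) * b (s ^ m) = ((χ s : F) ^ m + (ψ s : F) ^ m) * b s := by
  have two : (2 : F) = 0 := CharTwo.two_eq_zero
  induction m with
  | zero =>
    have h := hb s 1
    rw [mul_one, map_one, Units.val_one, mul_one] at h
    have h1 : b 1 = 0 := (mul_eq_zero.1 (show (χ s : F) * b 1 = 0 by
      linear_combination -h)).resolve_left (χ s).ne_zero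
    rw [pow_zero, h1]
    linear_combination (-b s) * two
  | succ m ih =>
    rw [pow_succ s, hb, map_pow, Units.val_pow_eq_pow_val]
    linear_combination (ψ s : F) * ih + (χ s : F) ^ m * ψ s * b s * two

theorem e_pow (hb : Cc χ χ⁻¹ b) (he : Pr χ b c e) (hc : Cc χ⁻¹ χ c) {s : G} (h : χ s ≠ 1)
    (m : ℕ) : e (s ^ m) + b s * c s * ((χ s : F) ^ m + (χ s : F)⁻¹ ^ m) /
      (((χ s : F) + (χ s : F)⁻¹) ^ 2 * (χ s : F) ^ m) = m * sy χ b c e s := by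
  have two : (2 : F) = 0 := CharTwo.two_eq_zero
  have y0 := (χ s).ne_zero
  have d0 := ne0 h
  induction m with
  | zero =>
    have h1 := cc_pow hb s 0
    rw [iv, pow_zero, pow_zero, pow_zero, one_add_one_eq_two, two, zero_mul] at h1
    have h2 := he 1 1
    rw [mul_one, (mul_eq_zero.1 h1).resolve_left d0, zero_mul, zero_div, add_zero] at h2
    rw [pow_zero, pow_zero, pow_zero, one_add_one_eq_two, two, mul_zero, zero_div, add_zero,
      Nat.cast_zero, zero_mul]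
    linear_combination -h2
  | succ m ih =>
    have h1 := cc_pow hb s m
    rw [iv] at h1
    have h2 : b (s ^ m) = ((χ s : F) ^ m + (χ s : F)⁻¹ ^ m) * b s / ((χ s : F) + (χ s : F)⁻¹) := by
      rw [eq_div_iff d0, mul_comm, h1]
    rw [Nat.cast_succ, add_mul, ← ih, one_mul, pow_succ s, he, h2, map_pow,
      Units.val_pow_eq_pow_val, sy]
    have i2 : (χ s : F) * (χ s : F)⁻¹ = 1 := mul_inv_cancel₀ y0
    have p0 := pow_ne_zero m y0
    rw [pow_succ (χ s : F), pow_succ (χ s : F)⁻¹]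
    generalize (χ s : F)⁻¹ ^ m = z at *
    generalize (χ s : F) ^ m = w at *
    generalize (χ s : F)⁻¹ = y at *
    generalize (χ s : F) = x at *
    field_simp
    linear_combination (b s * c s * (z * y + w * x) - x * w * b s * c s) * two

theorem sy_pow (hb : Cc χ χ⁻¹ b) (hc : Cc χ⁻¹ χ c) (he : Pr χ b c e) {s : G} {m : ℕ}
    (hm : Odd m) (h : χ (s ^ m) ≠ 1) : sy χ b c e (s ^ m) = sy χ b c e s := by
  have h0 : χ s ≠ 1 := fun e => h (by rw [map_pow, e, one_pow])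
  have d0 := ne0 h0
  have d1 := ne0 h
  have h1 := cc_pow hb s m
  have h2 := cc_pow hc s m
  rw [iv] at h1 h2
  rw [add_comm (χ s : F)⁻¹, add_comm (_ ^ m)] at h2
  have h3 := e_pow hb he hc h0 m
  have h4 : (m : F) = 1 := by
    obtain ⟨k, rfl⟩ := hm
    rw [Nat.cast_add, Nat.cast_one, Nat.cast_mul, Nat.cast_ofNat, CharTwo.two_eq_zero, zero_mul,
      zero_add]
  rw [h4, one_mul] at h3
  rw [← h3, sy, (eq_div_iff d0).2 ((mul_comm _ _).trans h1),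
    (eq_div_iff d0).2 ((mul_comm _ _).trans h2)]
  rw [map_pow, Units.val_pow_eq_pow_val, ← inv_pow] at d1 ⊢
  have p0 := pow_ne_zero m (χ s).ne_zero
  generalize (χ s : F) ^ m + (χ s : F)⁻¹ ^ m = z at *
  field_simp

theorem sah {χ ψ : G →* Fˣ} (hb : Cc χ ψ b) {g₀ s : G} (h0 : b g₀ = 0) (n0 : χ g₀ ≠ ψ g₀)
    (ns : χ s ≠ ψ s) (h : ∀ g, χ (g * s * g⁻¹ * s⁻¹) = 1 ∧ b (g * s * g⁻¹ * s⁻¹) = 0) (g : G) :
    b g = 0 := by
  have k : ∀ g, ((χ s : F) - ψ s) * b g = ((χ g : F) - ψ g) * b s := fun g => by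
    have h1 := hb (g * s * g⁻¹ * s⁻¹) (s * g)
    rw [(h g).1, (h g).2, show g * s * g⁻¹ * s⁻¹ * (s * g) = g * s by group, hb, hb] at h1
    rw [Units.val_one] at h1
    linear_combination -h1
  have h1 := k g₀
  rw [h0, mul_zero, eq_comm] at h1
  have h2 := k g
  rw [(mul_eq_zero.1 h1).resolve_left (sub_ne_zero.2 fun e => n0 (Units.ext e)), mul_zero] at h2
  exact (mul_eq_zero.1 h2).resolve_left (sub_ne_zero.2 fun e => ns (Units.ext e))

theorem res {χ ψ : G →* Fˣ} {J : Type} [Fintype J] {b : J → G → F} (hb : ∀ j, Cc χ ψ (b j))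
    (li : LinearIndependent F b) {g₀ s : G} (h0 : ∀ j, b j g₀ = 0) (n0 : χ g₀ ≠ ψ g₀)
    (ns : χ s ≠ ψ s) {M : Set G}
    (hM : ∀ g, χ (g * s * g⁻¹ * s⁻¹) = 1 ∧ g * s * g⁻¹ * s⁻¹ ∈ M) (μ : J → F)
    (h : ∀ x ∈ M, ∑ j, μ j * b j x = 0) (j : J) : μ j = 0 := by
  refine Fintype.linearIndependent_iff.1 li μ (funext fun g => ?_) j
  rw [Finset.sum_apply]
  refine sah (χ := χ) (ψ := ψ) (b := fun g => ∑ j, μ j * b j g) (fun g h => ?_)
    (Finset.sum_eq_zero fun j _ => by rw [h0, mul_zero]) n0 ns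
    (fun g => ⟨(hM g).1, h _ (hM g).2⟩) g
  rw [Finset.mul_sum, Finset.sum_mul, ← Finset.sum_add_distrib]
  exact Finset.sum_congr rfl fun j _ => by rw [hb j]; ring

theorem ne1 {x : Fˣ} (h : x ≠ 1) : x ≠ x⁻¹ := fun e => ne0 h (by
  rw [← Units.val_inv_eq_inv_val, ← e, CharTwo.add_self_eq_zero])

/-- **the symbols span** -/
theorem span {I J K : Type} [Fintype I] [Fintype J] [Fintype K] {b : J → G → F} {c : I → G → F}
    {e : K → G → F} {p : K → J × I} (hp : Function.Injective p) (hb : ∀ j, Cc χ χ⁻¹ (b j))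
    (hc : ∀ i, Cc χ⁻¹ χ (c i)) (he : ∀ k, Pr χ (b (p k).1) (c (p k).2) (e k))
    (lb : LinearIndependent F b) (lc : LinearIndependent F c) {g₀ : G} (b0 : ∀ j, b j g₀ = 0)
    (c0 : ∀ i, c i g₀ = 0) (n0 : χ g₀ ≠ 1) (Γ : Subgroup G) [hΓ : Γ.Normal] {s : G} (hs : s ∈ Γ)
    (ns : χ s ≠ 1) (μ : K → F)
    (h : ∀ σ ∈ Γ, χ σ ≠ 1 → ∑ k, μ k * sy χ (b (p k).1) (c (p k).2) (e k) σ = 0) (k : K) :
    μ k = 0 := by
  classical
  have two : (2 : F) = 0 := CharTwo.two_eq_zero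
  have hN : ∀ u ∈ Γ, χ u = 1 → (∀ j, b j u = 0) → (∀ i, c i u = 0) → ∑ k, μ k * e k u = 0 :=
    fun u hu u0 u1 u2 => by
      have h1 := h (s * u) (Γ.mul_mem hs hu) (by rw [map_mul, u0, mul_one]; exact ns)
      simp only [sy_r (hb _) (hc _) (he _) s u0 (u1 _) (u2 _), mul_add,
        Finset.sum_add_distrib] at h1
      rwa [h s hs ns, zero_add] at h1
  have add : ∀ {χ' ψ' : G →* Fˣ} {f : G → F}, Cc χ' ψ' f → ∀ x y, χ' (x * y * x⁻¹ * y⁻¹) = 1 →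
      χ' x = 1 → χ' y = 1 → ψ' x = 1 → ψ' y = 1 → f (x * y * x⁻¹ * y⁻¹) = 0 :=
    fun {χ' ψ' f} hf x y a0 a1 a2 a3 a4 => by
      have h1 := hf (x * y * x⁻¹ * y⁻¹) (y * x)
      rw [show x * y * x⁻¹ * y⁻¹ * (y * x) = x * y by group, hf, hf, map_mul ψ', a0, a1, a2, a3,
        a4] at h1
      simp only [Units.val_one, mul_one, one_mul] at h1
      linear_combination -h1
  have cm : ∀ x y, χ (x * y * x⁻¹ * y⁻¹) = 1 := fun x y => by
    rw [map_mul, map_mul, map_mul, map_inv, map_inv, mul_inv_cancel_comm, mul_inv_cancel]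
  have i1 : ∀ {x}, χ x = 1 → χ⁻¹ x = 1 := fun hx => by rw [MonoidHom.inv_apply, hx, inv_one]
  have hB : ∀ x ∈ Γ, χ x = 1 → ∀ y ∈ Γ, χ y = 1 →
      ∑ k, μ k * (b (p k).1 x * c (p k).2 y) = ∑ k, μ k * (b (p k).1 y * c (p k).2 x) :=
    fun x hx x0 y hy y0 => by
      have u1 := fun j => add (hb j) x y (cm x y) x0 y0 (i1 x0) (i1 y0)
      have h1 := hN _ (Γ.mul_mem (hΓ.conj_mem y hy x) (Γ.inv_mem hy)) (cm x y) u1
        fun i => add (hc i) x y (i1 (cm x y)) (i1 x0) (i1 y0) x0 y0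
      rw [← sub_eq_zero, ← Finset.sum_sub_distrib, ← h1]
      refine Finset.sum_congr rfl fun k _ => ?_
      have h2 := he k (x * y * x⁻¹ * y⁻¹) (y * x)
      rw [show x * y * x⁻¹ * y⁻¹ * (y * x) = x * y by group, he k x, he k y, u1, x0, y0] at h2
      simp only [Units.val_one, mul_one, div_one, zero_mul, zero_div, add_zero] at h2
      linear_combination μ k * h2
  have hC : ∀ x ∈ Γ, χ x = 1 → ∀ y ∈ Γ, χ y = 1 →
      ∑ k, μ k * (b (p k).1 x * c (p k).2 y) = 0 := fun x hx x0 y hy y0 => by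
    have i2 : (χ s : F) * (χ s : F)⁻¹ = 1 := mul_inv_cancel₀ (χ s).ne_zero
    have h1 := hB _ (hΓ.conj_mem x hx s) (by
      rw [map_mul, map_mul, map_inv, mul_inv_cancel_comm, x0]) y hy y0
    have e1 : ∀ j, b j (s * x * s⁻¹) = (χ s : F) ^ 2 * b j x := fun j => by
      have := cj (hb j) s x
      rw [i1 x0, x0, iv, Units.val_one] at this
      linear_combination (χ s : F) * this - b j (s * x * s⁻¹) * i2 + χ s * b j s * two
    have e2 : ∀ i, c i (s * x * s⁻¹) = (χ s : F)⁻¹ ^ 2 * c i x := fun i => by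
      have := cj (hc i) s x
      rw [i1 x0, x0, iv, Units.val_one] at this
      linear_combination (χ s : F)⁻¹ * this - c i (s * x * s⁻¹) * i2 + (χ s : F)⁻¹ * c i s * two
    simp only [e1, e2] at h1
    simp only [mul_assoc, mul_left_comm _ ((χ s : F) ^ 2),
      mul_left_comm _ ((χ s : F)⁻¹ ^ 2), ← Finset.mul_sum] at h1
    rw [← hB x hx x0 y hy y0] at h1
    refine (mul_eq_zero.1 ?_).resolve_left (pow_ne_zero 2 (ne0 ns))
    linear_combination h1 + ((χ s : F)⁻¹ ^ 2 + χ s * (χ s : F)⁻¹) *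
      (∑ k, μ k * (b (p k).1 x * c (p k).2 y)) * two
  have hM : ∀ g, g * s * g⁻¹ * s⁻¹ ∈ {x | x ∈ Γ ∧ χ x = 1} := fun g =>
    ⟨Γ.mul_mem (hΓ.conj_mem s hs g) (Γ.inv_mem hs), cm g s⟩
  let Λ : J → I → F := fun j i => ∑ k, if p k = (j, i) then μ k else 0
  have hΛ : ∀ x y, ∑ j, (∑ i, Λ j i * c i y) * b j x =
      ∑ k, μ k * (b (p k).1 x * c (p k).2 y) := fun x y => by
    simp only [Λ, Finset.sum_mul]
    rw [← Fintype.sum_prod_type', Finset.sum_comm]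
    refine Finset.sum_congr rfl fun k _ => ?_
    rw [Finset.sum_eq_single (p k) (fun z _ hz => by rw [if_neg hz.symm, zero_mul, zero_mul])
      fun hz => (hz (Finset.mem_univ _)).elim, if_pos rfl]
    ring
  have h1 : Λ (p k).1 (p k).2 = 0 :=
    res hc lc c0 (ne1 n0).symm (ne1 ns).symm (fun g => ⟨i1 (cm g s), hM g⟩) _
      (fun y hy => res hb lb b0 (ne1 n0) (ne1 ns) (fun g => ⟨cm g s, hM g⟩) _
        (fun x hx => (hΛ x y).trans (hC x hx.1 hx.2 y hy.1 hy.2)) _) _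
  rwa [show Λ (p k).1 (p k).2 = μ k from (Finset.sum_eq_single k
    (fun k' _ hk => if_neg fun e => hk (hp e)) fun hz => (hz (Finset.mem_univ _)).elim).trans
      (if_pos rfl)] at h1

end grp

theorem basis {F K X : Type} [Field F] [Fintype K] [DecidableEq K] (v : X → K → F)
    (h : ∀ μ : K → F, (∀ x, ∑ k, μ k * v x k = 0) → ∀ k, μ k = 0) :
    ∃ σ : K → X, IsUnit (Matrix.of fun k t => v (σ t) k) := by
  have h1 : Submodule.span F (Set.range v) = ⊤ := by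
    by_contra hn
    obtain ⟨f, f0, hf⟩ := Submodule.exists_le_ker_of_lt_top _ (lt_top_iff_ne_top.2 hn)
    have := h (fun k => f fun j => if k = j then 1 else 0) fun x => by
      have e : f (v x) = 0 := hf (Submodule.subset_span ⟨x, rfl⟩)
      rw [LinearMap.pi_apply_eq_sum_univ] at e
      exact (Finset.sum_congr rfl fun k _ => mul_comm _ _).trans e
    refine f0 (LinearMap.ext fun y => ?_)
    rw [LinearMap.pi_apply_eq_sum_univ]
    exact Finset.sum_eq_zero fun k _ => by rw [this k, smul_zero]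
  obtain ⟨κ, a, -, h2, h3⟩ := exists_linearIndependent' F v
  let ε := (Module.Basis.mk h3 (h2.trans h1).ge).indexEquiv (Pi.basisFun F K)
  exact ⟨fun t => a (ε.symm t),
    Matrix.linearIndependent_cols_iff_isUnit.1 (h3.comp _ ε.symm.injective)⟩

theorem frob_rel {l : ℕ} (hl : l.Prime) {φ φ' : GQ} (h : IsFrob l φ) (h' : IsFrob l φ') :
    ∃ g : GQ, G.Inert l (g * φ * g⁻¹ * φ'⁻¹) := by
  obtain ⟨P, hP, h1, h2⟩ := h
  obtain ⟨Q, hQ, h3, h4⟩ := h'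
  obtain ⟨g, rfl⟩ := P027M.F.Tra.trans hl hP hQ h1 h3
  refine ⟨g, _, hQ, h3, fun x => ?_⟩
  have h6 := Ideal.smul_mem_pointwise_smul g _ P (h2 (g⁻¹ • φ'⁻¹ • x))
  have h7 := h4 (φ'⁻¹ • x)
  rw [smul_sub, smul_pow', smul_inv_smul] at h6
  rw [smul_inv_smul] at h7
  have h8 := Ideal.sub_mem _ h6 h7
  rw [sub_sub_sub_cancel_right] at h8
  rw [mul_smul, mul_smul, mul_smul]
  exact h8

variable {F : Type} [Field F] [Finite F] [CharP F 2] {χ : GQ →* Fˣ}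

theorem odd_ord (x : Fˣ) : Odd (orderOf x) := by
  rw [← Nat.not_even_iff_odd]
  rintro ⟨j, hj⟩
  have h1 : x ^ j = 1 := by
    by_contra hn
    exact ne1 hn (eq_inv_of_mul_eq_one_left (by rw [← pow_add, ← hj, pow_orderOf_eq_one]))
  have h2 := orderOf_pos x
  have := Nat.le_of_dvd (by omega) (orderOf_dvd_iff_pow_eq_one.2 h1)
  omega

/-- a prime whose Frobenius element is an odd power of `σ` -/
theorem prime {U : Subgroup GQ} (hU : IsOpen (U : Set GQ)) (h1 : ∀ u ∈ U, χ u = 1) {σ : GQ}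
    (hσ : χ σ ≠ 1) (A : Finset ℕ) : ∃ q ∉ A, q.Prime ∧ ∃ φ m, IsFrob q φ ∧ Odd m ∧
      φ⁻¹ * σ ^ m ∈ U ∧ χ (σ ^ m) ≠ 1 := by
  have t1 : orderOf (χ σ) ≠ 1 := fun e => hσ (orderOf_eq_one_iff.1 e)
  obtain ⟨q, φ, k, m, o, q1, q2, q3, k1, k2, m1, hv, hc, ho⟩ := AuxP.key P027M.TW.dens U hU A σ
    _ (Nat.minFac_prime t1) fun e => (odd_ord (χ σ)).not_two_dvd_nat (e ▸ Nat.minFac_dvd _)
  refine ⟨q, q2, q1, φ, k * m, q3, k1.mul m1, hv, fun hs => k2 ((Nat.minFac_dvd _).trans ?_)⟩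
  have e1 : (χ σ ^ k) ^ m = 1 := by rw [← pow_mul, ← map_pow, hs]
  have e2 : (χ σ ^ k) ^ o = 1 := by rw [← map_pow, ← map_pow, h1 _ ho]
  have e3 := Nat.dvd_gcd (orderOf_dvd_iff_pow_eq_one.2 e1) (orderOf_dvd_iff_pow_eq_one.2 e2)
  rw [hc.gcd_eq_one, Nat.dvd_one, orderOf_eq_one_iff] at e3
  exact orderOf_dvd_iff_pow_eq_one.2 e3

/-- **CHB** -/
theorem chb {I J K : Type} [Fintype I] [Fintype J] [Fintype K] [DecidableEq K]
    {b : J → GQ → F} {c : I → GQ → F} {e : K → GQ → F} {p : K → J × I}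
    (hp : Function.Injective p) (hb : ∀ j, Cc χ χ⁻¹ (b j)) (hc : ∀ i, Cc χ⁻¹ χ (c i))
    (he : ∀ k, Pr χ (b (p k).1) (c (p k).2) (e k)) (lb : LinearIndependent F b)
    (lc : LinearIndependent F c) {g₀ : GQ} (b0 : ∀ j, b j g₀ = 0) (c0 : ∀ i, c i g₀ = 0)
    (n0 : χ g₀ ≠ 1)
    (ho : ∃ U : Subgroup GQ, IsOpen (U : Set GQ) ∧ ∀ u ∈ U, χ u = 1 ∧ (∀ j, b j u = 0) ∧
      (∀ i, c i u = 0) ∧ ∀ k, e k u = 0) (T : Finset ℕ)
    (hu : ∀ l : ℕ, l.Prime → l ∉ T → ∀ u, G.Inert l u → χ u = 1 ∧ (∀ j, b j u = 0) ∧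
      (∀ i, c i u = 0) ∧ ∀ k, e k u = 0) :
    ∃ Y : Matrix K K F, IsUnit Y ∧ ∀ (A : Finset ℕ) (n : ℕ), ∃ q : K → ℕ, Function.Injective q ∧
      ∀ t, (q t).Prime ∧ q t ∉ A ∧ 2 ^ n ∣ q t - 1 ∧ (∃ z : ZMod (q t), z ^ 2 ^ n = 2) ∧
        ∀ φ, IsFrob (q t) φ → χ φ ≠ 1 ∧
          ∀ k, sy χ (b (p k).1) (c (p k).2) (e k) φ = Y k t := by
  obtain ⟨U, hU, h1⟩ := ho
  haveI := Good.ginf_normal
  obtain ⟨γ, hγ, s, hs, e0⟩ := odd χ.ker g₀ _ (Subgroup.isOpen_mono (fun u hu => (h1 u hu).1) hU)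
    (odd_ord (χ g₀)) (by rw [MonoidHom.mem_ker, map_pow, pow_orderOf_eq_one])
  have ns : χ s ≠ 1 := fun h => n0 (by rw [e0, map_mul, MonoidHom.mem_ker.1 hγ, h, mul_one])
  obtain ⟨σ, hσ⟩ := basis (X := {σ // σ ∈ Ginf ∧ χ σ ≠ 1})
    (fun σ k => sy χ (b (p k).1) (c (p k).2) (e k) σ) fun μ h =>
      span hp hb hc he lb lc b0 c0 n0 Ginf hs ns μ fun σ a1 a2 => h ⟨σ, a1, a2⟩
  refine ⟨_, hσ, fun A n => ?_⟩
  obtain ⟨V, hV, h2⟩ := cong n
  let ε := Fintype.equivFin K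
  obtain ⟨q, hq, h3⟩ := Twq.Mn.inj (fun i q => q ∉ insert 2 (A ∪ T) ∧ q.Prime ∧ ∃ φ m, IsFrob q φ ∧
      Odd m ∧ φ⁻¹ * (σ (ε.symm i) : GQ) ^ m ∈ U ⊓ V ∧ χ ((σ (ε.symm i) : GQ) ^ m) ≠ 1)
    fun i B => by
      obtain ⟨q, a1, a2⟩ := prime (U := U ⊓ V) (hU.inter hV) (fun u hu => (h1 u hu.1).1)
        (σ (ε.symm i)).2.2 (B ∪ insert 2 (A ∪ T))
      rw [Finset.mem_union, not_or] at a1
      exact ⟨q, a1.1, a1.2, a2⟩
  refine ⟨fun t => q (ε t), hq.comp ε.injective, fun t => ?_⟩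
  obtain ⟨a1, a2, φ, m, a3, a4, a5, a6⟩ := h3 (ε t)
  rw [Equiv.symm_apply_apply] at a5 a6
  rw [Finset.mem_insert, Finset.mem_union, not_or, not_or] at a1
  obtain ⟨b1, b2⟩ := h2 _ m _ φ a2 a1.1 (σ t).2.1 a3 a5.2
  refine ⟨a2, a1.2.1, b1, b2, fun φ' h' => ?_⟩
  obtain ⟨g, hg⟩ := frob_rel a2 a3 h'
  obtain ⟨u0, u1, u2, u3⟩ := hu _ a2 a1.2.2 _ hg
  obtain ⟨v0, v1, v2, v3⟩ := h1 _ a5.1
  have n1 : χ φ ≠ 1 := fun h => a6 (by rwa [map_mul, map_inv, h, inv_one, one_mul] at v0)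
  refine ⟨fun h => n1 ?_, fun k => ?_⟩
  · rwa [map_mul, map_inv, h, inv_one, mul_one, map_mul, map_mul, map_inv,
      mul_inv_cancel_comm] at u0
  · have k1 := sy_l (hb _) (hc _) (he k) φ' u0 (u1 _) (u2 _)
    have k2 := sy_r (hb _) (hc _) (he k) φ v0 (v1 _) (v2 _)
    rw [inv_mul_cancel_right, u3, add_zero, sy_cj (hb _) (hc _) (he k) g n1] at k1
    rw [mul_inv_cancel_left, v3, add_zero, sy_pow (hb _) (hc _) (he k) a4 a6] at k2
    exact k1.symm.trans k2.symm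

end Vale.Agent.P022R.Chb
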