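import Vale.Agent.P022E.GW.All0
import Vale.Agent.P022E.GW.Hyp
import Vale.Agent.P022E.GW.Sha
import Vale.Agent.P022D.L2c.All
import Vale.Agent.P022D.Loc2.Dec

/-!
# P022R, the count: cocycles of a character, local facts
-/

set_option linter.all false

noncomputable section

namespace Vale.Agent.P022R.Cnt

open NumberField
open Vale.Agent.P022 Vale.Agent.P022.H443
open Vale.Agent.P027M.S (Inert)
open Vale.Agent.P022D.Sel (IsDec Stab)
open Vale.Agent.P022D.W (dec dec_gen phi_mem inP_le_dec conj_inP)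
open Vale.Agent.P022D.Loc2 (PP jj)
open Vale.Agent.P022E.GW
open scoped Pointwise

section grp

variable {G F : Type} [Group G] [Field F]

/-- cocycles of a character -/
def Co (θ : G →* Fˣ) (b : G → F) : Prop := ∀ g h, b (g * h) = b g + θ g * b h

/-- coboundaries on a subgroup -/
def Bo (θ : G →* Fˣ) (D : Subgroup G) (b : G → F) : Prop :=
  ∃ m : F, ∀ g ∈ D, b g = m * ((θ g : F) - 1)

variable {θ : G →* Fˣ} {b : G → F}

theorem Co.one (hb : Co θ b) : b 1 = 0 := by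
  have := hb 1 1
  rw [mul_one, map_one, Units.val_one, one_mul] at this
  exact left_eq_add.1 this

theorem Co.conj (hb : Co θ b) (t g : G) :
    b (t * g * t⁻¹) = θ t * b g + b t * (1 - θ g) := by
  have h1 := hb (t * g * t⁻¹) t
  rw [inv_mul_cancel_right, hb t g, map_mul, map_mul, map_inv, mul_inv_cancel_comm] at h1
  linear_combination -h1

theorem Co.conj1 (hb : Co θ b) (t : G) {g : G} (hg : θ g = 1) :
    b (t * g * t⁻¹) = θ t * b g := by
  rw [hb.conj, hg, Units.val_one, sub_self, mul_zero, add_zero]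

theorem Co.add1 (hb : Co θ b) {g : G} (hg : θ g = 1) (h : G) : b (g * h) = b g + b h := by
  rw [hb, hg, Units.val_one, one_mul]

theorem Co.pow (hb : Co θ b) (g : G) (k : ℕ) :
    b (g ^ k) * ((θ g : F) - 1) = b g * ((θ (g ^ k) : F) - 1) := by
  induction k with
  | zero => simp [hb.one]
  | succ k ih =>
    rw [pow_succ, hb, map_mul, Units.val_mul]
    linear_combination ih

theorem Co.pow1 (hb : Co θ b) {g : G} (hg : θ g = 1) (k : ℕ) : b (g ^ k) = k * b g := by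
  induction k with
  | zero => simp [hb.one]
  | succ k ih =>
    rw [pow_succ', hb.add1 hg, ih]
    push_cast
    ring

theorem ne1 {g : G} (h : θ g ≠ 1) : (θ g : F) - 1 ≠ 0 := fun e =>
  h (Units.ext (sub_eq_zero.1 e))

/-- a cocycle which vanishes on the kernel is a coboundary -/
theorem Co.bo (hb : Co θ b) {D : Subgroup G} {g₁ : G} (h1 : g₁ ∈ D) (hne : θ g₁ ≠ 1)
    (h0 : ∀ v ∈ D, θ v = 1 → b v = 0) : Bo θ D b := by
  refine ⟨b g₁ / ((θ g₁ : F) - 1), fun g hg => ?_⟩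
  have hv : θ (g₁ * g * g₁⁻¹ * g⁻¹) = 1 := by
    simp only [map_mul, map_inv]
    rw [mul_inv_cancel_comm, mul_inv_cancel]
  have e := hb.add1 hv (g * g₁)
  rw [h0 _ (D.mul_mem (D.mul_mem (D.mul_mem h1 hg) (D.inv_mem h1)) (D.inv_mem hg)) hv, zero_add,
    show g₁ * g * g₁⁻¹ * g⁻¹ * (g * g₁) = g₁ * g by group, hb, hb] at e
  rw [div_mul_eq_mul_div, eq_div_iff (ne1 hne)]
  linear_combination e

theorem Bo.zero {D : Subgroup G} (h : Bo θ D b) {g₁ : G} (h1 : g₁ ∈ D) (hne : θ g₁ ≠ 1)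
    (h0 : b g₁ = 0) : ∀ g ∈ D, b g = 0 := by
  obtain ⟨m, hm⟩ := h
  have := hm g₁ h1
  rw [h0] at this
  have m0 : m = 0 := (mul_eq_zero.1 this.symm).resolve_right (ne1 hne)
  intro g hg
  rw [hm g hg, m0, zero_mul]

theorem Bo.conj (hb : Co θ b) {D D' : Subgroup G} (h : Bo θ D b) (t : G)
    (ht : ∀ g ∈ D', t⁻¹ * g * t ∈ D) : Bo θ D' b := by
  obtain ⟨m, hm⟩ := h
  refine ⟨θ t * m - b t, fun g hg => ?_⟩
  have e := hb.conj t (t⁻¹ * g * t)
  have e1 : θ (t⁻¹ * g * t) = θ g := by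
    rw [map_mul, map_mul, map_inv, inv_mul_cancel_comm]
  rw [show t * (t⁻¹ * g * t) * t⁻¹ = g by group, hm _ (ht g hg), e1] at e
  rw [e]
  ring

theorem bo_of_zero {D : Subgroup G} (h : ∀ g ∈ D, b g = 0) : Bo θ D b :=
  ⟨0, fun g hg => by rw [h g hg, zero_mul]⟩

theorem sq_one [CharP F 2] {c : G} (hc : c * c = 1) : θ c = 1 := by
  have : ((θ c : F) - 1) ^ 2 = 0 := by
    have e : (θ c : F) * θ c = 1 := by rw [← Units.val_mul, ← map_mul, hc, map_one, Units.val_one]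
    have two : (2 : F) = 0 := CharTwo.two_eq_zero
    linear_combination e - (θ c - 1 : F) * two
  exact Units.ext (sub_eq_zero.1 (pow_eq_zero_iff two_ne_zero |>.1 this))

end grp

variable {F : Type} [Field F] {θ : GQ →* Fˣ} {b : GQ → F}

theorem ex_core (ho : IsOpen (θ.ker : Set GQ)) (ob : Op b) :
    ∃ U : Subgroup GQ, U.Normal ∧ IsOpen (U : Set GQ) ∧ ∀ u ∈ U, θ u = 1 ∧ b u = 0 := by
  obtain ⟨V, hV, h⟩ := ob
  exact ⟨(θ.ker ⊓ V).normalCore, inferInstance, P022D.Sel.opn_core _ (ho.inter hV), fun u hu =>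
    ⟨((θ.ker ⊓ V).normalCore_le hu).1, h u ((θ.ker ⊓ V).normalCore_le hu).2⟩⟩

theorem Co.lc (hb : Co θ b) (ob : Op b) : IsLocallyConstant b := by
  obtain ⟨U, hU, h⟩ := ob
  exact RecP.lc U hU fun g σ hσ => by rw [hb, h σ hσ, mul_zero, add_zero]

theorem lc_char (ho : IsOpen (θ.ker : Set GQ)) : IsLocallyConstant fun g => (θ g : F) :=
  RecP.lc θ.ker ho fun g σ hσ => by rw [map_mul, show θ σ = 1 from hσ, mul_one]

/-- values on a decomposition group where everything is unramified -/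
theorem dec_val (ho : IsOpen (θ.ker : Set GQ)) (hb : Co θ b) (ob : Op b) {l : ℕ}
    {P : Ideal (𝓞 Qb)} (h : Ov l P) {φ : GQ} (hφ : Fb l P φ) (u1 : ∀ s, Inert P s → θ s = 1)
    (u2 : ∀ s, Inert P s → b s = 0) {g : GQ} (hg : g ∈ dec P) :
    ∃ k : ℕ, θ g = θ (φ ^ k) ∧ b g = b (φ ^ k) := by
  obtain ⟨U, -, oU, hU⟩ := ex_core ho ob
  obtain ⟨k, s, u, hs, hu, rfl⟩ := dec_gen h.1 h.2.1 h.2.2 hφ hg U oU
  refine ⟨k, ?_, ?_⟩
  · rw [map_mul, map_mul, (hU u hu).1, u1 s hs, one_mul, mul_one]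
  · rw [hb, u2 s hs, mul_zero, add_zero, hb.add1 (hU u hu).1, (hU u hu).2, zero_add]

/-- **no local classes at an odd prime where the character is not trivial** -/
theorem loc [CharP F 2] (ho : IsOpen (θ.ker : Set GQ)) (hb : Co θ b) (ob : Op b) {l : ℕ}
    {P : Ideal (𝓞 Qb)} (h : Ov l P) (h2 : l ≠ 2) (hd : ∃ g ∈ dec P, θ g ≠ 1) :
    Bo θ (dec P) b := by
  obtain ⟨g₁, h1, hne⟩ := hd
  obtain ⟨U, nU, oU, hU⟩ := ex_core ho ob
  have hI : ∀ s ∈ inP P, θ s = 1 → b s = 0 := by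
    obtain ⟨t, ht, k⟩ := Rc.ti (F := F) h.1 h2 h.2.1 h.2.2 (I := θ.ker ⊓ inP P) inf_le_right U oU
    have ha : ∀ s ∈ θ.ker ⊓ inP P, ∀ t ∈ θ.ker ⊓ inP P, b (s * t) = b s + b t :=
      fun s hs t _ => hb.add1 hs.1 t
    have h0 : ∀ s ∈ θ.ker ⊓ inP P, s ∈ U → b s = 0 := fun s _ hs => (hU s hs).2
    have t0 : b t = 0 := by
      have m : g₁ * t * g₁⁻¹ ∈ θ.ker ⊓ inP P :=
        ⟨(MonoidHom.normal_ker θ).conj_mem t ht.1 g₁, conj_inP h1 ht.2⟩
      obtain ⟨n, hn⟩ := k _ m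
      have e := hn b ha h0
      rw [hb.conj1 g₁ ht.1] at e
      by_contra ne
      have e' : (θ g₁ : F) = n := mul_right_cancel₀ ne e
      rcases Nat.even_or_odd n with ⟨i, rfl⟩ | ⟨i, rfl⟩
      · rw [Nat.cast_add, CharTwo.add_self_eq_zero] at e'
        exact (θ g₁).ne_zero e'
      · refine hne (Units.ext ?_)
        rw [e']
        push_cast
        rw [CharTwo.two_eq_zero, zero_mul, zero_add]
    intro s hs h1
    obtain ⟨n, hn⟩ := k s ⟨h1, hs⟩
    rw [hn b ha h0, t0, mul_zero]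
  refine hb.bo h1 hne fun v hv v1 => ?_
  by_cases hr : ∀ s ∈ inP P, θ s = 1
  · obtain ⟨φ, hφ⟩ := P027M.S.Loc.frob h.2.1 h.1 h.2.2
    obtain ⟨k, e1, e2⟩ := dec_val ho hb ob h hφ hr (fun s hs => hI s hs (hr s hs)) hv
    obtain ⟨j, e3, -⟩ := dec_val ho hb ob h hφ hr (fun s hs => hI s hs (hr s hs)) h1
    have hφ1 : θ φ ≠ 1 := fun e => hne (by rw [e3, map_pow, e, one_pow])
    have e4 := hb.pow φ k
    rw [← e1, v1, Units.val_one, sub_self, mul_zero, ← e2] at e4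
    exact (mul_eq_zero.1 e4).resolve_right (ne1 hφ1)
  · push Not at hr
    obtain ⟨s, hs, s1⟩ := hr
    have m : v * s * v⁻¹ * s⁻¹ ∈ inP P := (inP P).mul_mem (conj_inP hv hs) ((inP P).inv_mem hs)
    have hv1 : θ (v * s * v⁻¹ * s⁻¹) = 1 := by
      simp only [map_mul, map_inv]
      rw [mul_inv_cancel_comm, mul_inv_cancel]
    have e := hb.add1 hv1 (s * v)
    rw [hI _ m hv1, zero_add, show v * s * v⁻¹ * s⁻¹ * (s * v) = v * s by group, hb, hb, v1] at e
    have e' : b v * ((θ s : F) - 1) = 0 := by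
      rw [Units.val_one] at e
      linear_combination -e
    exact (mul_eq_zero.1 e').resolve_right (ne1 s1)

theorem kumC : P022D.L2c.KUM := by
  open P022D.L2c in exact kum (locu (locu1 herb6) locu2 (locu3 herb6))

theorem mem_dec2 {g : GQ} : g ∈ dec (PP 2) ↔ ∃ σ, jj 2 σ = g := P022D.Loc2.range_jj 2 g

theorem ov2 : Ov 2 (PP 2) :=
  ⟨Nat.prime_two, P022D.Loc2.PP_prime 2, by exact_mod_cast P022D.Loc2.p_mem_PP 2⟩

/-- **one element detects the local classes at two** -/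
theorem loc2 [Finite F] [CharP F 2] (ho : IsOpen (θ.ker : Set GQ))
    (hd : ∃ g ∈ dec (PP 2), θ g ≠ 1) : ∃ v ∈ dec (PP 2), θ v = 1 ∧
      ∀ b : GQ → F, Co θ b → Op b → b v = 0 → Bo θ (dec (PP 2)) b := by
  obtain ⟨g₁, h1, hne⟩ := hd
  let θ' : P022D.L2c.G2 →* Fˣ := θ.comp (jj 2)
  have oV : IsOpen (θ'.ker : Set P022D.L2c.G2) := ho.preimage (P022D.Loc2.jj_cont 2)
  obtain ⟨⟨_, t, rfl⟩, ht⟩ := IsCyclic.exists_monoid_generator (α := θ'.range)
  have gen : ∀ u, ∃ i : ℕ, θ' t ^ i = θ' u := fun u => by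
    obtain ⟨i, hi⟩ := ht ⟨θ' u, u, rfl⟩
    exact ⟨i, congrArg Subtype.val hi⟩
  have t1 : θ' t ≠ 1 := fun e => by
    obtain ⟨σ, rfl⟩ := mem_dec2.1 h1
    obtain ⟨i, hi⟩ := gen σ
    rw [e, one_pow] at hi
    exact hne hi.symm
  have idx : θ'.ker.relIndex ⊤ = Nat.card θ'.range := by
    rw [Subgroup.relIndex_top_right, Subgroup.index_ker]
  have odd : Odd (Nat.card θ'.range) := by
    refine Odd.of_dvd_nat ?_ (Subgroup.card_subgroup_dvd_card θ'.range)
    have := Fintype.ofFinite F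
    rw [Nat.card_units, Nat.card_eq_fintype_card]
    have e := FiniteField.even_card_iff_char_two.1 (ringChar.eq F 2)
    have p : 1 < Fintype.card F := Fintype.one_lt_card
    rw [Nat.odd_iff]
    omega
  have pw : ((θ' t : Fˣ) : F) ^ θ'.ker.relIndex ⊤ = 1 := by
    rw [idx, ← Units.val_pow_eq_pow_val]
    have := pow_card_eq_one' (x := (⟨θ' t, t, rfl⟩ : θ'.range))
    rw [show θ' t ^ Nat.card θ'.range = 1 from congrArg Subtype.val this, Units.val_one]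
  have e1 := kumC.2 F ⊤ θ'.ker t (θ' t) inferInstance oV le_top trivial (fun u _ => by
      obtain ⟨i, hi⟩ := gen u
      exact ⟨i, by rw [MonoidHom.mem_ker, map_mul, map_inv, map_pow, hi, inv_mul_cancel]⟩)
    (by rw [idx]; exact odd) (fun e => t1 (Units.ext e)) pw
  rw [Subgroup.index_top] at e1
  obtain ⟨e, e0, he⟩ := finrank_eq_one_iff'.1 e1
  obtain ⟨v, hv⟩ : ∃ v, e.1 v ≠ 0 := by
    by_contra h
    push Not at h
    exact e0 (Subtype.ext (funext h))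
  refine ⟨jj 2 v, mem_dec2.2 ⟨v, rfl⟩, v.2, fun b hb ob b0 => hb.bo h1 hne fun w hw w1 => ?_⟩
  obtain ⟨σ, rfl⟩ := mem_dec2.1 hw
  have m : (fun x : θ'.ker => b (jj 2 x)) ∈ P022D.L2c.Eg F θ'.ker t (θ' t) := by
    refine ⟨⟨(hb.lc ob).comp_continuous ((P022D.Loc2.jj_cont 2).comp continuous_subtype_val),
      fun x y => ?_⟩, fun x y e => ?_⟩
    · show b (jj 2 (x * y : θ'.ker)) = b (jj 2 x) + b (jj 2 y)
      rw [Subgroup.coe_mul, map_mul]
      exact hb.add1 x.2 _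
    · show b (jj 2 y) = _
      rw [e, map_mul, map_mul, map_inv]
      exact hb.conj1 _ x.2
  obtain ⟨s, hs⟩ := he ⟨_, m⟩
  have k1 : s * e.1 v = b (jj 2 v) := congrFun (congrArg Subtype.val hs) v
  have k2 : s * e.1 ⟨σ, w1⟩ = b (jj 2 σ) := congrFun (congrArg Subtype.val hs) ⟨σ, w1⟩
  rw [b0] at k1
  rw [← k2, (mul_eq_zero.1 k1).resolve_right hv, zero_mul]

end Vale.Agent.P022R.Cnt
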