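import Vale.Agent.P022R.Rel2
import Vale.Agent.P022R.Cnt0
import Vale.Agent.P022R.Chb
import Vale.Agent.P022F.Gen

/-!
# P022R: the second order reciprocity law, bridges
-/

set_option linter.all false

noncomputable section

namespace Vale.Agent.P022R.Rel

open NumberField
open Vale.Agent.P022 Vale.Agent.P022.H443 Vale.Agent.P022E.GW
open Vale.Agent.P027M.S (Inert)
open Vale.Agent.P022D.W (dec inP_le_dec)
open Vale.Agent.P022D.Loc2 (PP)
open Vale.Agent.P022F (Cc)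
open Vale.Agent.P022F.Gen (Opn Unr)
open scoped Pointwise

variable {F : Type} [Field F] {χ ψ : GQ →* Fˣ} {S : Finset ℕ} {b c e : GQ → F}

theorem opn_of (h : IsLocallyConstant b) (h1 : b 1 = 0) : Opn b := near h h1

theorem Bs.opn (B : Bs χ ψ S) : IsOpen (χ.ker : Set GQ) := by
  have := B.lc.isOpen_fiber 1
  rwa [show {x : GQ | (χ x : F) = 1} = (χ.ker : Set GQ) from
    Set.ext fun g => Units.val_eq_one] at this

theorem mkBs (inv : ∀ g, (χ g : F) * ψ g = 1) (ho : IsOpen (χ.ker : Set GQ))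
    (unr : ∀ p ∉ S, p ≠ 2 → ∀ P, Ov p P → ∀ i, Inert P i → χ i = 1) : Bs χ ψ S :=
  ⟨inv, Cnt.lc_char ho, fun p hp h2 P o i hi => by rw [unr p hp h2 P o i hi, Units.val_one]⟩

theorem lc_cc (B : Bs χ ψ S) (hb : Cc χ ψ b) (ob : Opn b) : IsLocallyConstant b := by
  obtain ⟨U, hU, h⟩ := ob
  refine RecP.lc (U ⊓ ψ.ker) (hU.inter B.symm.opn) fun g σ hσ => ?_
  rw [hb, h σ hσ.1, show ψ σ = 1 from hσ.2, Units.val_one, mul_zero, mul_one, zero_add]

/-- no local classes at a regular odd prime -/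
theorem tr_reg [CharP F 2] (B : Bs χ ψ S) (hb : Cc χ ψ b) (ob : Opn b) {l : ℕ}
    {P : Ideal (𝓞 Qb)} (o : Ov l P) (h2 : l ≠ 2) (hd : ∃ g ∈ dec P, χ g ≠ ψ g) :
    Tr χ ψ (dec P) b := by
  have two : (2 : F) = 0 := CharTwo.two_eq_zero
  obtain ⟨m, hm⟩ := Cnt.loc (θ := χ * χ) (b := fun g => b g * χ g)
    (Subgroup.isOpen_mono (fun g (k : χ g = 1) => by
      rw [MonoidHom.mem_ker, MonoidHom.mul_apply, k, mul_one]) B.opn)
    (fun g h => by
      simp only [hb g h, um, MonoidHom.mul_apply, Units.val_mul]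
      linear_combination (b g * χ g) * B.inv h)
    (ob.imp fun U hU => ⟨hU.1, fun σ k => by simp only [hU.2 σ k, zero_mul]⟩) o h2
    (hd.imp fun g hg => ⟨hg.1, fun k => hg.2 (Units.ext (by
      have := congrArg Units.val k
      rw [MonoidHom.mul_apply, Units.val_mul, Units.val_one] at this
      linear_combination (ψ g : F) * this - (χ g : F) * B.inv g))⟩)
  refine ⟨m, fun g hg => ?_⟩
  have := hm g hg
  simp only [MonoidHom.mul_apply, Units.val_mul] at this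
  linear_combination (ψ g : F) * this + (m * χ g - b g) * B.inv g - (m * ψ g) * two

theorem reg_all {l : ℕ} {P P' : Ideal (𝓞 Qb)} (o : Ov l P) (o' : Ov l P')
    (hd : ∃ g ∈ dec P, χ g ≠ ψ g) : ∃ g ∈ dec P', χ g ≠ ψ g := by
  obtain ⟨t, rfl⟩ := Tg.trans o o'
  obtain ⟨g, hg, ne⟩ := hd
  refine ⟨t * g * t⁻¹,
    (One.dec_conj (fun x => Ideal.smul_mem_pointwise_smul_iff.symm) g).1 hg, ?_⟩
  simpa only [map_mul, map_inv, mul_inv_cancel_comm] using ne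

theorem mkCo [CharP F 2] (B : Bs χ ψ S)
    (reg : ∀ l ∈ S, l ≠ 2 → l.Prime → ∃ P, Ov l P ∧ ∃ g ∈ dec P, χ g ≠ ψ g) (hb : Cc χ ψ b)
    (ob : Opn b) (ub : Unr S b) : Co χ ψ S b :=
  ⟨hb, lc_cc B hb ob, fun p hp h2 P o i hi => ub p o.1 h2 hp P o.2.1 o.2.2 i hi,
    fun l hl h2 P o => by
      obtain ⟨P0, o0, hd⟩ := reg l hl h2 o.1
      exact tr_reg B hb ob o h2 (reg_all o0 o hd)⟩

theorem Co.opn (h : Co χ ψ S b) : Opn b := opn_of h.lc (coc1 h.coc)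

theorem Ee.one (he : Ee χ ψ b c e) (b1 : b 1 = 0) : e 1 = 0 := by
  have := he.coc 1 1
  rw [mul_one, b1, zero_mul, mul_zero, add_zero] at this
  exact left_eq_add.1 this

theorem Ee.opn (he : Ee χ ψ b c e) (b1 : b 1 = 0) : Opn e := opn_of he.lc (he.one b1)

theorem Ee.pr (B : Bs χ ψ S) (he : Ee χ ψ b c e) : Chb.Pr χ b c e := fun g h => by
  rw [he.coc, eq_inv_of_mul_eq_one_right (B.inv g), eq_inv_of_mul_eq_one_right (B.inv h),
    div_eq_mul_inv, mul_inv]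
  ring

theorem sy_eq (B : Bs χ ψ S) (g : GQ) : sy χ ψ b c e g = Chb.sy χ b c e g := by
  rw [sy, Chb.sy, eq_inv_of_mul_eq_one_right (B.inv g)]

/-- **second order reciprocity** in the form used by the algebra of the good quotients -/
theorem recA [Finite F] [CharP F 2] (B : Bs χ ψ S) {J : Type} [Fintype J] {b e : J → GQ → F}
    {d : GQ → F} (hb : ∀ j, Co χ ψ S (b j)) (hd : Co ψ χ S d) (he : ∀ j, Ee χ ψ (b j) d (e j))
    (d2 : Tr ψ χ (dec (PP 2)) d) {ι : Type} [Fintype ι] {q : ι → ℕ} (inj : Function.Injective q)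
    {P : ι → Ideal (𝓞 Qb)} {τ φ : ι → GQ}
    (hq : ∀ k, Ov (q k) (P k) ∧ q k ≠ 2 ∧ q k ≠ 7 ∧ Gn (q k) (P k) (τ k) ∧ Fb (q k) (P k) (φ k))
    (qS : ∀ k, q k ∉ S) (ne : ∀ k, χ (φ k) ≠ ψ (φ k)) {Q : Finset ℕ} (hQ : ∀ p ∈ Q, ∃ k, q k = p)
    {c : GQ} (hc : IsConj c) (f : GQ → F) (om : J → GQ → F)
    (fc : ∀ g h, f (g * h) = (χ g : F) * f h + f g * ψ h + ∑ j, (χ g : F) * om j g * b j h)
    (oa : ∀ j g h, om j (g * h) = om j g + om j h) (oo : ∀ j, Opn (om j))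
    (om2 : ∀ j, ∀ g ∈ dec (PP 2), om j g = 0) (omc : ∀ j, om j c = 0) (ou : ∀ j, Unr Q (om j))
    (fo : Opn f) (fu : Unr (S ∪ Q) f) :
    ∑ j, ∑ k, sy χ ψ (b j) d (e j) (φ k) * om j (τ k) = f c * d c := by
  classical
  have nQ : ∀ {p}, (∀ k, q k ≠ p) → p ∉ Q := fun h k => by
    obtain ⟨i, hi⟩ := hQ _ k
    exact h i hi
  rw [Finset.sum_comm]
  refine rec2 ⟨B, hb, hd, he, oa, fun j => ?_, fun g h => ?_, ?_⟩ inj hq qS
    (fun k h => ne k (Units.ext h)) (fun j p p2 hn P' o i hi => ?_)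
    (fun p hp p2 hn P' o i hi => ?_) Cnt.ov2 d2 om2 hc omc
  · obtain ⟨U, hU, h⟩ := oo j
    exact RecP.lc U hU fun g σ k => by rw [oa, h σ k, add_zero]
  · rw [fc]
    congr 1
    exact Finset.sum_congr rfl fun j _ => by ring
  · obtain ⟨U, hU, h⟩ := fo
    choose V hV k using fun j => (hb j).opn
    refine RecP.lc (U ⊓ ψ.ker ⊓ ⨅ j, V j) ((hU.inter B.symm.opn).inter ?_) fun g σ hσ => ?_
    · show IsOpen ((⨅ j, V j : Subgroup GQ) : Set GQ)
      rw [Subgroup.coe_iInf]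
      exact isOpen_iInter_of_finite hV
    · simp only [fc, h σ hσ.1.1, show ψ σ = 1 from hσ.1.2, Units.val_one, mul_zero, mul_one,
        zero_add, fun j => k j σ (Subgroup.mem_iInf.1 hσ.2 j), Finset.sum_const_zero, add_zero]
  · exact ou j p o.1 p2 (nQ hn) P' o.2.1 o.2.2 i hi
  · exact fu p o.1 p2 (fun k => (Finset.mem_union.1 k).elim hp (nQ hn)) P' o.2.1 o.2.2 i hi

end Vale.Agent.P022R.Rel
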