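import Vale.Agent.P022R.AlgDefs
import Vale.Agent.P022R.Rel3
import Vale.Agent.P022R.Cas

/-!
# P022R: from the count to adapted bases of cocycles
-/

set_option linter.all false

noncomputable section

namespace Vale.Agent.P022R.Fx

open NumberField Module
open Vale.Agent.P022 Vale.Agent.P022E.GW Vale.Agent.P022R.Rel
open Vale.Agent.P022D.W (dec)
open Vale.Agent.P022D.Loc2 (PP)
open Vale.Agent.P022F (Cc)
open Vale.Agent.P022F.Gen (Opn Unr)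

variable {F : Type} [Field F]

/-- the normalised cocycles -/
def Hs (W : Finset ℕ) (g0 : GQ) (χ ψ : GQ →* Fˣ) : Submodule F (GQ → F) where
  carrier := {b | Cc χ ψ b ∧ Opn b ∧ Unr W b ∧ b g0 = 0}
  zero_mem' := ⟨fun _ _ => by simp, ⟨⊤, isOpen_univ, fun _ _ => rfl⟩,
    fun _ _ _ _ _ _ _ _ _ => rfl, rfl⟩
  add_mem' := by
    rintro a b ⟨a1, ⟨U, hU, a2⟩, a3, a4⟩ ⟨b1, ⟨V, hV, b2⟩, b3, b4⟩
    refine ⟨fun g h => ?_, ⟨U ⊓ V, hU.inter hV, fun u hu => ?_⟩,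
      fun l h1 h2 h3 P h4 h5 s hs => ?_, ?_⟩
    · simp only [Pi.add_apply, a1 g h, b1 g h]
      ring
    · rw [Pi.add_apply, a2 u hu.1, b2 u hu.2, add_zero]
    · rw [Pi.add_apply, a3 l h1 h2 h3 P h4 h5 s hs, b3 l h1 h2 h3 P h4 h5 s hs, add_zero]
    · rw [Pi.add_apply, a4, b4, add_zero]
  smul_mem' := by
    rintro m a ⟨a1, ⟨U, hU, a2⟩, a3, a4⟩
    refine ⟨fun g h => ?_, ⟨U, hU, fun u hu => ?_⟩, fun l h1 h2 h3 P h4 h5 s hs => ?_, ?_⟩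
    · simp only [Pi.smul_apply, a1 g h, smul_eq_mul]
      ring
    · rw [Pi.smul_apply, a2 u hu, smul_zero]
    · rw [Pi.smul_apply, a3 l h1 h2 h3 P h4 h5 s hs, smul_zero]
    · rw [Pi.smul_apply, a4, smul_zero]

/-- the functions which are coboundaries at two -/
def T2 (χ ψ : GQ →* Fˣ) : Submodule F (GQ → F) where
  carrier := {b | Tr χ ψ (dec (PP 2)) b}
  zero_mem' := ⟨0, fun _ _ => (zero_mul _).symm⟩
  add_mem' := by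
    rintro a b ⟨m, hm⟩ ⟨n, hn⟩
    exact ⟨m + n, fun g hg => by rw [Pi.add_apply, hm g hg, hn g hg, add_mul]⟩
  smul_mem' := by
    rintro k a ⟨m, hm⟩
    exact ⟨k * m, fun g hg => by rw [Pi.smul_apply, hm g hg, smul_eq_mul, mul_assoc]⟩

/-- the cocycles which are trivial at two -/
def Vs (W : Finset ℕ) (g0 : GQ) (χ ψ : GQ →* Fˣ) : Submodule F (GQ → F) :=
  Hs W g0 χ ψ ⊓ T2 χ ψ

/-- the functions which vanish at `c` -/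
def Kc (F : Type) [Field F] (c : GQ) : Submodule F (GQ → F) :=
  LinearMap.ker (LinearMap.proj c : (GQ → F) →ₗ[F] F)

/-- **the count** -/
def CNT : Prop := ∀ (F : Type) [Field F] [Finite F] [CharP F 2] (χ ψ : GQ →* Fˣ) (W : Finset ℕ)
  (g0 c : GQ), Bs χ ψ W → (∀ l ∈ W, l ≠ 2 ∧ ∃ P, Ov l P ∧ ∃ g ∈ dec P, χ g ≠ ψ g) →
  (∃ g ∈ dec (PP 2), χ g ≠ ψ g) → χ g0 ≠ ψ g0 → IsConj c →
  FiniteDimensional F (Hs W g0 χ ψ) ∧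
    finrank F (Vs W g0 ψ χ ⊓ Kc F c : Submodule F (GQ → F)) + 1 = finrank F (Hs W g0 χ ψ) ∧
    finrank F (Hs W g0 χ ψ ⊓ Kc F c : Submodule F (GQ → F)) ≤ finrank F (Vs W g0 ψ χ) ∧
    finrank F (Hs W g0 χ ψ) ≤ finrank F (Vs W g0 χ ψ) + 1

/-- the local facts on adapted bases -/
structure Ad {I J : Type} (χ ψ : GQ →* Fˣ) (s : Sh I J) (b : J → GQ → F) (c : I → GQ → F) :
    Prop where
  tb : ∀ j ∈ s.J0, Tr χ ψ (dec (PP 2)) (b j)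
  tc : ∀ i, (i ∈ s.I0 ∨ (i = s.i0 ∧ s.G = false)) → Tr ψ χ (dec (PP 2)) (c i)
  gI : s.G = true → ∀ i, i ≠ s.i0 → i ∈ s.I0
  gJ : s.G = true → ∀ j, j ≠ s.j0 → j ∈ s.J0

theorem bas {J : Type} {W : Finset ℕ} {g0 : GQ} {χ ψ : GQ →* Fˣ} {b : J → GQ → F}
    (li : LinearIndependent F b) (h : Submodule.span F (Set.range b) = Hs W g0 χ ψ) :
    Alg.Bas W g0 χ ψ b :=
  have m : ∀ j, b j ∈ Hs W g0 χ ψ := fun j => h ▸ Submodule.subset_span ⟨j, rfl⟩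
  ⟨fun j => (m j).1, fun j => (m j).2.1, fun j => (m j).2.2.1, fun j => (m j).2.2.2, li,
    fun f f1 f2 f3 f4 => h ▸ ⟨f1, f2, f3, f4⟩⟩

theorem ofCs {I J : Type} [Fintype I] [Fintype J] [DecidableEq I] [DecidableEq J] {W : Finset ℕ}
    {g0 c0 : GQ} {χ ψ : GQ →* Fˣ} {s : Sh I J} {b : J → GQ → F} {c : I → GQ → F}
    (h : Cas.Cs (LinearMap.proj c0) (Hs W g0 χ ψ) (Hs W g0 ψ χ) (Vs W g0 χ ψ) (Vs W g0 ψ χ)
      s b c) : Alg.Fix W g0 c0 χ ψ s b c ∧ Ad χ ψ s b c := by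
  refine ⟨⟨h.ok, bas h.lb h.sb, bas h.lc h.sc, fun i => ?_, fun j => ?_⟩,
    fun j hj => (h.vb j hj).2, ?_, h.gI, h.gJ⟩
  · split_ifs with e
    · exact e ▸ h.c1
    · exact h.c0 i e
  · split_ifs with e
    · exact e.2 ▸ h.b1 e.1
    · exact h.b0 j fun k k' => e ⟨k, k'⟩
  · rintro i (hi | ⟨rfl, hi⟩)
    · exact (h.vc i hi).2
    · exact (h.nv (by rw [hi]; exact Bool.false_ne_true)).2

/-- **FIX** -/
theorem fix (h : CNT) [Finite F] [CharP F 2] {χ₀ ψ₀ : GQ →* Fˣ} {W : Finset ℕ} {g0 c0 : GQ}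
    (B : Bs χ₀ ψ₀ W) (reg : ∀ l ∈ W, l ≠ 2 ∧ ∃ P, Ov l P ∧ ∃ g ∈ dec P, χ₀ g ≠ ψ₀ g)
    (h2 : ∃ g ∈ dec (PP 2), χ₀ g ≠ ψ₀ g) (n0 : χ₀ g0 ≠ ψ₀ g0) (hc : IsConj c0) :
    ∃ (χ ψ : GQ →* Fˣ) (I J : Type) (_ : Fintype I) (_ : Fintype J) (_ : DecidableEq I)
      (_ : DecidableEq J) (s : Sh I J) (b : J → GQ → F) (c : I → GQ → F),
      ((χ = χ₀ ∧ ψ = ψ₀) ∨ (χ = ψ₀ ∧ ψ = χ₀)) ∧ Alg.Fix W g0 c0 χ ψ s b c ∧ Ad χ ψ s b c := by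
  obtain ⟨a0, a1, a2, a3⟩ := h F χ₀ ψ₀ W g0 c0 B reg h2 n0 hc
  obtain ⟨b0, b1, b2, b3⟩ := h F ψ₀ χ₀ W g0 c0 B.symm
    (fun l hl => (reg l hl).imp_right fun ⟨P, o, g, hg, k⟩ => ⟨P, o, g, hg, k.symm⟩)
    (h2.imp fun g hg => ⟨hg.1, hg.2.symm⟩) n0.symm hc
  have k := Cas.cas (F := F) (W := GQ → F) (LinearMap.proj c0) (Hp := Hs W g0 χ₀ ψ₀)
    (Hm := Hs W g0 ψ₀ χ₀) (Vp := Vs W g0 χ₀ ψ₀) (Vm := Vs W g0 ψ₀ χ₀) inf_le_left inf_le_left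
    a1 b1 a2 b2 a3 b3
  obtain ⟨I, J, i1, i2, i3, i4, s, b, c, k | k⟩ := k
  · exact ⟨χ₀, ψ₀, I, J, i1, i2, i3, i4, s, b, c, Or.inl ⟨rfl, rfl⟩, ofCs k⟩
  · exact ⟨ψ₀, χ₀, I, J, i1, i2, i3, i4, s, b, c, Or.inr ⟨rfl, rfl⟩, ofCs k⟩

end Vale.Agent.P022R.Fx
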