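import Vale.Agent.P022R.Ari1
import Vale.Agent.P022R.Fix

/-!
# P022R: the arithmetic input from the count
-/

set_option linter.all false

noncomputable section

namespace Vale.Agent.P022R.Alg

theorem fixOf (h : Fx.CNT) : FIX := by
  intro F _ _ _ χ₀ ψ₀ W g0 c0 B h2 reg d2 n0 hc
  obtain ⟨χ, ψ, I, J, i1, i2, i3, i4, s, b, c, ho, X, A⟩ := Fx.fix h B
    (fun l hl => ⟨fun e => h2 (e ▸ hl), (reg l hl).2⟩) d2 n0 hc
  exact ⟨χ, ψ, I, J, i1, i2, i3, i4, s, b, c, ho, X, A.tb, A.tc⟩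

theorem ariOf (h : Fx.CNT) : ARI2 := ari2 (fixOf h)

end Vale.Agent.P022R.Alg
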