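import Vale.Agent.P022R.Ari
import Vale.Agent.P022R.AlgDefs

/-!
# P022R, the bridge between the arithmetic rows and the algebraic rows (statement)
-/

set_option linter.all false

noncomputable section

namespace Vale.Agent.P022R

open Vale.Agent.P022
open Vale.Agent.P022E.Loc (Pl)

/-- row FNB -/
def FNB : Prop := ∀ (O F I J : Type) [CommRing O] [IsLocalRing O] [Field F] [Finite F] [CharP F 2]
  [Fintype I] [Fintype J] [DecidableEq I] [DecidableEq J] (red : O →+* F) (L : Pl O)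
  (T : Finset ℕ) (χ ψ : GQ →* Fˣ) (g0 : GQ) (s : Sh I J) (b : J → GQ → F) (c : I → GQ → F),
  Hx red L T χ ψ → Alg.Fix L.W g0 L.c χ ψ s b c →
  ∃ X : Dt O GQ I J, X.g0 = g0 ∧ ∀ (r : ℕ) (q : Fin r → ℕ) (τ : Fin r → GQ)
    (y : I → J → Fin r → F), (∀ k, (q k).Prime ∧ q k ∉ T) → Alg.Lvl L.W L.c χ ψ s b c q τ y →
    ∃ M : I × J → Fin r → O,
      ∀ K, Ak L.W (Finset.univ.image q) K → Fn red χ ψ K L.DD L.TT s b c X τ M

end Vale.Agent.P022R
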