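import Vale.Agent.P022R.Alg

/-!
# P022R, row BGEN: generators of the module of the entries
-/

set_option linter.all false

noncomputable section

namespace Vale.Agent.P022R

open Finset

/-- a semilinear functional on `B` which does not vanish at a given element outside `m B` -/
theorem sfun {T F M : Type} [CommRing T] [Field F] [AddCommGroup M] [Module T M] (π : T →+* F)
    (hs : Function.Surjective π) (B : Submodule T M) {v : M} (hv : v ∈ B)
    (hn : v ∉ RingHom.ker π • B) :
    ∃ l : M → F, (∀ y ∈ B, ∀ z ∈ B, l (y + z) = l y + l z) ∧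
      (∀ t, ∀ y ∈ B, l (t • y) = π t * l y) ∧ l v ≠ 0 := by
  classical
  haveI : (RingHom.ker π).IsMaximal := RingHom.ker_isMaximal_of_surjective π hs
  letI : Field (T ⧸ RingHom.ker π) := Ideal.Quotient.field _
  obtain ⟨l, hl⟩ : ∃ l : Module.Dual (T ⧸ RingHom.ker π) (B ⧸ (RingHom.ker π • ⊤ : Submodule T B)),
      l (Submodule.Quotient.mk ⟨v, hv⟩) ≠ 0 := by
    by_contra h
    push Not at h
    have := (Submodule.Quotient.mk_eq_zero _).1 ((Module.forall_dual_apply_eq_zero_iff _ _).1 h)
    exact hn ((Submodule.mem_smul_top_iff _ B _).1 this)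
  let e := RingHom.quotientKerEquivOfSurjective hs
  refine ⟨fun y => if h : y ∈ B then e (l (Submodule.Quotient.mk ⟨y, h⟩)) else 0,
    fun y hy z hz => ?_, fun t y hy => ?_, ?_⟩
  · simp only [dif_pos hy, dif_pos hz, dif_pos (B.add_mem hy hz)]
    rw [← map_add, ← map_add, ← Submodule.Quotient.mk_add]
    rfl
  · simp only [dif_pos hy, dif_pos (B.smul_mem t hy)]
    have e1 : (Submodule.Quotient.mk ⟨t • y, B.smul_mem t hy⟩ :
        B ⧸ (RingHom.ker π • ⊤ : Submodule T B)) =
        (Ideal.Quotient.mk (RingHom.ker π) t) • Submodule.Quotient.mk ⟨y, hy⟩ := rfl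
    rw [e1, map_smul, smul_eq_mul, map_mul]
    rfl
  · simp only [dif_pos hv]
    exact fun h => hl (e.injective (h.trans (map_zero e).symm))

theorem bgen : BGEN := by
  intro O F T G J _ _ _ _ _ _ red ι π χ ψ g0 t d a b x β ξ n hG hS
  have hs : Function.Surjective π := fun y => by
    obtain ⟨o, ho⟩ := hG.surj y
    exact ⟨ι o, (hG.alg o).trans ho⟩
  choose o ho using fun j g => hG.surj (β j g)
  obtain ⟨B, hB⟩ : ∃ B : Submodule T (G → T), B = Submodule.span T (Set.range x) := ⟨_, rfl⟩
  obtain ⟨N, hN⟩ : ∃ N : Submodule T (G → T), N = Submodule.span T (Set.range (bt ι x ξ n)) :=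
    ⟨_, rfl⟩
  have xB : ∀ g, x g ∈ B := fun g => hB ▸ Submodule.subset_span ⟨g, rfl⟩
  have be : ∀ j, bt ι x ξ n j = ∑ k, ι (n j k) • x (ξ k) := fun j => by
    ext h
    simp [bt]
  have bB : ∀ j, bt ι x ξ n j ∈ B := fun j =>
    be j ▸ B.sum_mem fun k _ => B.smul_mem _ (xB _)
  have bN : ∀ j, bt ι x ξ n j ∈ N := fun j => hN ▸ Submodule.subset_span ⟨j, rfl⟩
  have s1 : ∀ g, x g - ∑ j, ι (o j g) • bt ι x ξ n j ∈ RingHom.ker π • B := by
    intro g
    by_contra hn
    have hv : ∑ j, ι (o j g) • bt ι x ξ n j ∈ B := B.sum_mem fun j _ => B.smul_mem _ (bB j)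
    obtain ⟨l, la, lm, l0⟩ := sfun π hs B (B.sub_mem (xB g) hv) hn
    have lz : l 0 = 0 := by simpa using lm 0 0 B.zero_mem
    have ls : ∀ (s : Finset J) (c : J → T) (y : J → G → T), (∀ j, y j ∈ B) →
        l (∑ j ∈ s, c j • y j) = ∑ j ∈ s, π (c j) * l (y j) := by
      intro s c y hy
      induction s using Finset.induction_on with
      | empty => simpa using lz
      | insert j s hj ih =>
        rw [sum_insert hj, sum_insert hj, la _ (B.smul_mem _ (hy j)) _
          (B.sum_mem fun j _ => B.smul_mem _ (hy j)), ih, lm _ _ (hy j)]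
    obtain ⟨c, hc⟩ := hS.sp (fun g => l (x g)) (fun g h => by
        have : x (g * h) = a g • x h + b h • x g := funext fun k => hG.gm.cl g h k
        simp only [this]
        rw [la _ (B.smul_mem _ (xB _)) _ (B.smul_mem _ (xB _)), lm _ _ (xB _), lm _ _ (xB _),
          hG.pa, hG.pb, mul_comm (ψ h : F)])
      (by simp only [show x g0 = 0 from funext hG.x0, lz])
      (fun k hk => by simp only [show x k = 0 from funext fun h => (hk.2.2 h).1, lz])
    have lb : ∀ j, l (bt ι x ξ n j) = c j := fun j => by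
      rw [be, ls _ _ _ fun k => xB _]
      simp only [hc, hG.alg, mul_sum]
      rw [sum_comm, sum_congr rfl fun j' _ => show ∑ k, red (n j k) * (c j' * β j' (ξ k)) =
        c j' * if j = j' then 1 else 0 by
          rw [← hS.du, mul_sum]; exact sum_congr rfl fun k _ => by ring]
      simp
    apply l0
    have := la _ (B.sub_mem (xB g) hv) _ hv
    rw [sub_add_cancel, ls _ _ _ bB, hc] at this
    simp only [lb, hG.alg, ho] at this
    rw [sum_congr rfl fun j _ => mul_comm (c j) _] at this
    exact (add_eq_right.1 this.symm)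
  have s2 : B ≤ N ⊔ RingHom.ker π • B := by
    conv_lhs => rw [hB]
    refine Submodule.span_le.2 ?_
    rintro _ ⟨g, rfl⟩
    rw [← add_sub_cancel (∑ j, ι (o j g) • bt ι x ξ n j) (x g)]
    exact Submodule.add_mem_sup (N.sum_mem fun j _ => N.smul_mem _ (bN j)) (s1 g)
  have s3 : ∀ k : ℕ, B ≤ N ⊔ RingHom.ker π ^ k • B := by
    intro k
    induction k with
    | zero => simp
    | succ k ih =>
      refine ih.trans (sup_le le_sup_left ((Submodule.smul_mono le_rfl s2).trans ?_))
      rw [Submodule.smul_sup, ← Submodule.mul_smul, ← pow_succ]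
      exact sup_le (Submodule.smul_le_right.trans le_sup_left) le_sup_right
  obtain ⟨k, hk⟩ := hG.nil
  have s4 : B ≤ N := by simpa [hk] using s3 k
  intro g
  have := Submodule.smul_mono le_rfl s4 (s1 g)
  rw [hN, Submodule.mem_ideal_smul_span_iff_exists_sum] at this
  obtain ⟨ν, hν, e⟩ := this
  refine ⟨fun j => ι (o j g) + ν j, fun j => ?_, fun h => ?_⟩
  · rw [map_add, hG.alg, ho, (RingHom.mem_ker).1 (hν j), add_zero]
  · rw [Finsupp.sum_fintype ν (fun i c => c • bt ι x ξ n i) fun _ => zero_smul _ _] at e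
    have := congrFun e h
    simp only [Finset.sum_apply, Pi.smul_apply, smul_eq_mul, Pi.sub_apply] at this
    simp only [add_mul, sum_add_distrib, this]
    ring

end Vale.Agent.P022R
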