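import Vale.Agent.P022F.Wiles

/-!
P022R: semilinear functionals and generators of the off-diagonal modules.
-/

set_option linter.all false

noncomputable section

namespace Vale.Agent.P022R.Fnl

open Vale.Agent.P022F (Cc)

variable {R M F : Type} [CommRing R] [AddCommGroup M] [Module R M] [Field F]

theorem fnl (π : R →+* F) (hs : Function.Surjective π) (N : Submodule R M)
    (h : ∀ c, π c = 0 → ∀ v : M, c • v ∈ N) {y : M} (hy : y ∉ N) :
    ∃ f : M →+ F, (∀ c v, f (c • v) = π c * f v) ∧ (∀ v ∈ N, f v = 0) ∧ f y ≠ 0 := by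
  let σ : F →+* Module.End ℤ (M ⧸ N) := π.liftOfSurjective hs
    ⟨Module.toModuleEnd ℤ (S := R) (M ⧸ N), fun c hc => LinearMap.ext fun v => by
      obtain ⟨v, rfl⟩ := N.mkQ_surjective v
      exact (Submodule.Quotient.mk_eq_zero N).2 (h c hc v)⟩
  have hσ : ∀ c v, σ (π c) v = c • v := fun c v => by
    rw [show σ (π c) = _ from π.liftOfSurjective_comp_apply hs _ c]
    rfl
  letI : Module F (M ⧸ N) := Module.compHom (M ⧸ N) σ
  have sm : ∀ (c : R) (v : M ⧸ N), π c • v = c • v := hσ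
  have h0 : N.mkQ y ≠ 0 := fun e => hy ((Submodule.Quotient.mk_eq_zero N).1 e)
  obtain ⟨f, hf⟩ := not_forall.1 (mt (Module.forall_dual_apply_eq_zero_iff F _).1 h0)
  refine ⟨f.toAddMonoidHom.comp N.mkQ.toAddMonoidHom, fun c v => ?_, fun v hv => ?_, hf⟩
  · show f (N.mkQ (c • v)) = π c * f (N.mkQ v)
    rw [map_smul, ← sm, map_smul, smul_eq_mul]
  · show f (N.mkQ v) = 0
    rw [show N.mkQ v = 0 from (Submodule.Quotient.mk_eq_zero N).2 hv, map_zero]

/-- the relative form: `I • N' ≤ N` -/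
theorem fnl' (π : R →+* F) (hs : Function.Surjective π) (N N' : Submodule R M)
    (h : ∀ c, π c = 0 → ∀ v ∈ N', c • v ∈ N) {y : N'} (hy : (y : M) ∉ N) :
    ∃ f : N' →+ F, (∀ c v, f (c • v) = π c * f v) ∧ (∀ v : N', (v : M) ∈ N → f v = 0) ∧
      f y ≠ 0 :=
  fnl π hs (N.comap N'.subtype) (fun c hc v => h c hc v v.2) hy

/-- nilpotent Nakayama -/
theorem nak {I : Ideal R} {n : ℕ} (hn : I ^ n = ⊥) {N N' : Submodule R M}
    (h : N' ≤ N ⊔ I • N') : N' ≤ N := by
  have k : ∀ k, N' ≤ N ⊔ I ^ k • N' := fun k => by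
    induction k with
    | zero => rw [pow_zero, Ideal.one_eq_top, Submodule.top_smul]; exact le_sup_right
    | succ k ih =>
      refine h.trans (sup_le le_sup_left ((Submodule.smul_mono le_rfl ih).trans ?_))
      rw [Submodule.smul_sup, pow_succ', mul_smul]
      exact sup_le_sup_right Submodule.smul_le_right _
  have := k n
  rwa [hn, Submodule.bot_smul, sup_bot_eq] at this

/-- **generators** -/
theorem genB {G J : Type} [Group G] (π : R →+* F) (hs : Function.Surjective π) {n : ℕ}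
    (hn : RingHom.ker π ^ n = ⊥) {χ ψ : G →* Fˣ} {a δ : G → R} (ha : ∀ g, π (a g) = χ g)
    (hδ : ∀ g, π (δ g) = ψ g) (β : G → M) (hβ : ∀ g g', β (g * g') = a g • β g' + δ g' • β g)
    (ξ : J → G) (hd : ∀ f : G → F, Cc χ ψ f → (∀ u, β u = 0 → f u = 0) → (∀ j, f (ξ j) = 0) →
      ∀ g, f g = 0) (g : G) : β g ∈ Submodule.span R (Set.range fun j => β (ξ j)) := by
  let B := Submodule.span R (Set.range β)
  have hB : ∀ g, β g ∈ B := fun g => Submodule.subset_span ⟨g, rfl⟩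
  refine nak hn (N' := B) (Submodule.span_le.2 ?_) (hB g)
  rintro _ ⟨g, rfl⟩
  by_contra hg
  obtain ⟨f, f1, f2, f3⟩ := fnl' π hs
    (Submodule.span R (Set.range fun j => β (ξ j)) ⊔ RingHom.ker π • B) B
    (fun c hc v hv => Submodule.mem_sup_right (Submodule.smul_mem_smul hc hv))
    (y := ⟨β g, hB g⟩) hg
  refine f3 (hd (fun g => f ⟨β g, hB g⟩) (fun g g' => ?_) (fun u hu => ?_) (fun j => ?_) g)
  · have e : (⟨β (g * g'), hB _⟩ : B) = a g • ⟨β g', hB _⟩ + δ g' • ⟨β g, hB _⟩ :=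
      Subtype.ext (hβ g g')
    show f _ = _ * f _ + f _ * _
    rw [e, map_add, f1, f1, ha, hδ, mul_comm (ψ g' : F)]
  · exact f2 _ (by show β u ∈ _; rw [hu]; exact zero_mem _)
  · exact f2 _ (Submodule.mem_sup_left (Submodule.subset_span ⟨j, rfl⟩))

end Vale.Agent.P022R.Fnl
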