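import Vale.Agent.P022R.Alg
import Vale.Agent.P022R.Fnl

/-!
# P022R, row BREL: relations between the generators
-/

set_option linter.all false

noncomputable section

namespace Vale.Agent.P022R

theorem brel (hB : BGEN) : BREL := by
  intro O F T G J R _ _ _ _ _ _ _ _ red ι π χ ψ g0 t d a b x β ξ n D τ s c ε H hS hD hR hε
  choose μ hμ hx using hB O F T G J red ι π χ ψ g0 t d a b x β ξ n H hS
  letI : Algebra O T := ι.toAlgebra
  have sm : ∀ (o : O) (v : J → T), o • v = ι o • v := fun o v => rfl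
  let A := Ia red ι π x
  have i1 : ∀ o, red o = 0 → ι o ∈ A := fun o ho =>
    Ideal.mem_sup_left (Ideal.mem_sup_left (Ideal.mem_map_of_mem ι ho))
  have i2 : ∀ p q, π p = 0 → π q = 0 → p * q ∈ A := fun p q hp hq =>
    Ideal.mem_sup_left (Ideal.mem_sup_right (by
      rw [sq]
      exact Ideal.mul_mem_mul hp hq))
  have i3 : ∀ g h, x g h ∈ A := fun g h => Ideal.mem_sup_right (Ideal.subset_span ⟨g, h, rfl⟩)
  let Ψ : (J → T) →ₗ[T] (G → T) :=
    { toFun := fun v h => ∑ j, v j * bt ι x ξ n j h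
      map_add' := fun v w => funext fun h => by
        simp only [Pi.add_apply, add_mul, Finset.sum_add_distrib]
      map_smul' := fun p v => funext fun h => by
        simp only [Pi.smul_apply, smul_eq_mul, RingHom.id_apply, mul_assoc, Finset.mul_sum] }
  have eΨ : ∀ v h, Ψ v h = ∑ j, v j * bt ι x ξ n j h := fun _ _ => rfl
  let N : Submodule T (J → T) := Submodule.pi Set.univ (fun _ => A) ⊔ LinearMap.ker Ψ
  have n1 : ∀ p ∈ A, ∀ v : J → T, p • v ∈ N := fun p hp v =>
    Submodule.mem_sup_left fun j _ => A.mul_mem_right _ hp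
  let y : J → T := ι ε • μ c - fun j => yv ι (fun g => (d g : T)) τ (s j)
  by_cases hy : y ∈ N
  · obtain ⟨ν, h1, w, h2, e⟩ := Submodule.mem_sup.1 hy
    refine ⟨ν, fun j => h1 j trivial, fun h => ?_⟩
    have e1 := congrFun (congrArg Ψ e) h
    rw [map_add, LinearMap.mem_ker.1 h2, add_zero, map_sub, map_smul, Pi.sub_apply, Pi.smul_apply,
      eΨ, eΨ, eΨ, ← hx, smul_eq_mul] at e1
    simp only [add_mul, Finset.sum_add_distrib]
    rw [e1]
    ring
  exfalso
  obtain ⟨l, l1, l2, l3⟩ := Fnl.fnl red H.surj (N.restrictScalars O)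
    (fun o ho v => n1 _ (i1 o ho) v) (y := y) hy
  have K0 : ∀ p ∈ A, ∀ v, l (p • v) = 0 := fun p hp v => l2 _ (n1 p hp v)
  have K2 : ∀ o v, l (ι o • v) = red o * l v := fun o v => l1 o v
  have K1 : ∀ p q v, π p = 0 → l ((q * p) • v) = π q * l (p • v) := fun p q v hp => by
    obtain ⟨o, ho⟩ := H.surj (π q)
    rw [show q * p = ι o * p + (q - ι o) * p by ring, add_smul, map_add, mul_smul, K2, ho,
      K0 _ (i2 _ _ (by rw [map_sub, H.alg, ho, sub_self]) hp), add_zero]
  have ex : ∀ p (v : J → T), p • v = ∑ j, (v j * p) • (Pi.single j 1 : J → T) := fun p v => by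
    funext k
    simp [Finset.sum_apply, Pi.single_apply, mul_comm]
  have K3 : ∀ p (v : J → T), π p = 0 → l (p • v) = ∑ j, π (v j) * l (p • Pi.single j 1) :=
    fun p v hp => by
      rw [ex, map_sum]
      exact Finset.sum_congr rfl fun j _ => K1 _ _ _ hp
  have d1 : ∀ g, π ((d g : T) - 1) = 0 := fun g => by
    rw [← H.gm.det, map_sub, map_sub, map_mul, H.pa, H.pb, H.px, H.one, map_one]
    ring
  have two : (2 : F) = 0 := CharTwo.two_eq_zero
  have K4 : ∀ p v, l ((p * p) • v) = π p * π p * l v := fun p v => by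
    obtain ⟨o, ho⟩ := H.surj (π p)
    have h0 : π (p - ι o) = 0 := by rw [map_sub, H.alg, ho, sub_self]
    rw [show p * p = ι (o * o) + (ι 2 * (ι o * (p - ι o)) + (p - ι o) * (p - ι o)) by
      rw [map_mul, map_ofNat]; ring, add_smul, map_add, K2, map_mul, ho,
      K0 _ (A.add_mem (A.mul_mem_right _ (i1 2 (by rw [map_ofNat, two]))) (i2 _ _ h0 h0)), add_zero]
  have k := hR (fun g => χ g * l (b g • μ g)) (fun j g => l (((d g : T) - 1) • Pi.single j 1))
    (fun g h => ?_) (fun j g h => ?_) (fun k hk => ⟨?_, fun j => ?_⟩) fun g hg j => ?_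
  · apply l3
    have e1 : l (fun j => yv ι (fun g => (d g : T)) τ (s j)) =
        ∑ j, ∑ k, red (s j k) * l (((d (τ k) : T) - 1) • Pi.single j 1) := by
      rw [← one_smul T (fun j => yv ι (fun g => (d g : T)) τ (s j)), ex, map_sum]
      refine Finset.sum_congr rfl fun j _ => ?_
      rw [mul_one, yv, Finset.sum_smul, map_sum]
      exact Finset.sum_congr rfl fun k _ => by rw [mul_smul, K2]
    rw [map_sub, e1, k, K2, sub_eq_zero]
    rcases hε with h | h
    · rw [h, map_zero, zero_mul, zero_mul]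
    · congr 1
      have h0 : ∀ j, π (μ c j) = 0 := fun j => (hμ c j).trans (h j)
      rw [ex (b c), ← congrArg l (one_smul T (μ c)), ex 1, map_sum, map_sum, Finset.mul_sum]
      refine Finset.sum_congr rfl fun j _ => ?_
      rw [mul_one, mul_comm (μ c j), K1 _ _ _ (h0 j), H.pb, ← mul_assoc, H.one, one_mul]
  · have e0 : μ (g * h) - (a g • μ h + b h • μ g) ∈ LinearMap.ker Ψ := by
      rw [LinearMap.mem_ker, map_sub, map_add, map_smul, map_smul, sub_eq_zero]
      funext k
      rw [Pi.add_apply, Pi.smul_apply, Pi.smul_apply, eΨ, eΨ, eΨ, ← hx, ← hx, ← hx, H.gm.cl]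
      rfl
    have e1 := l2 _ (Submodule.mem_sup_right (Submodule.smul_mem _ (b (g * h)) e0) : _ ∈ N)
    rw [smul_sub, map_sub, sub_eq_zero] at e1
    have e2 : b (g * h) • (a g • μ h + b h • μ g) = b h • μ h + ((b h * ((d g : T) - 1)) • μ h +
        ((b h * b h) • b g • μ g + (x h g • (a g • μ h + b h • μ g) + x g g • b h • μ h))) := by
      rw [H.gm.bm, ← H.gm.det]
      module
    beta_reduce
    rw [e1, e2, map_add, map_add, map_add, map_add, K0 _ (i3 _ _), K0 _ (i3 _ _), K4,
      K1 _ _ _ (d1 g), K3 _ _ (d1 g), H.pb, map_mul, Units.val_mul]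
    simp only [hμ]
    have e3 : ∑ j, (χ g : F) * l (((d g : T) - 1) • Pi.single j 1) * β j h =
        χ g * ∑ j, β j h * l (((d g : T) - 1) • Pi.single j 1) := by
      rw [Finset.mul_sum]
      exact Finset.sum_congr rfl fun j _ => by ring
    rw [e3]
    linear_combination ((χ g : F) * (∑ j, β j h * l (((d g : T) - 1) • Pi.single j 1)) +
      χ g * ψ h * l (b g • μ g)) * H.one h
  · beta_reduce
    rw [show (d (g * h) : T) - 1 = ((d g : T) - 1) + (((d h : T) - 1) +
      ((d g : T) - 1) * ((d h : T) - 1)) by rw [map_mul, Units.val_mul]; ring, add_smul, add_smul,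
      map_add, map_add, K0 _ (i2 _ _ (d1 g) (d1 h)), add_zero]
  · have e0 : μ k ∈ LinearMap.ker Ψ := LinearMap.mem_ker.2 (funext fun h => by
      rw [eΨ, ← hx]
      exact (hk.2.2 h).1)
    beta_reduce
    rw [l2 _ (Submodule.mem_sup_right (Submodule.smul_mem _ (b k) e0) : _ ∈ N), mul_zero]
  · beta_reduce
    rw [← H.gm.det, hk.1, hk.2.1, (hk.2.2 k).1, mul_one, sub_zero, sub_self, zero_smul, map_zero]
  · obtain ⟨o, ho⟩ := hD g hg
    have h0 := d1 g
    beta_reduce
    rw [ho, ← map_one ι, ← map_sub] at h0 ⊢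
    rw [K2, ← H.alg, h0, zero_mul]

end Vale.Agent.P022R
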