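import Vale.Agent.P022E.GW.All0

/-!
# P022R: the sum of the local invariants, with the real place
-/

set_option linter.all false

noncomputable section

namespace Vale.Agent.P022R.Rel

open NumberField
open Vale.Agent.P022 Vale.Agent.P022.H443 Vale.Agent.P022E.GW
open Vale.Agent.P027M.S (Inert)
open Vale.Agent.P022D.Sel (IsDec)
open Vale.Agent.P022D.L2c (Hm Cob IsZ2 cup up)
open Vale.Agent.P022D.W (dec dec_gen phi_mem inP_le_dec exists_phi)
open Vale.Agent.P022E.GW.Kc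
open scoped Pointwise

variable {F : Type} [Field F]

theorem ex_ov {p : ℕ} (hp : p.Prime) : ∃ P, Ov p P := by
  have : (Ideal.span {(p : ℤ)}).IsPrime :=
    (Ideal.span_singleton_prime (by exact_mod_cast hp.ne_zero)).2 (Nat.prime_iff_prime_int.1 hp)
  obtain ⟨P, h1, h2⟩ := Ideal.exists_ideal_over_prime_of_isIntegral_of_isDomain (S := 𝓞 Qb)
    (Ideal.span {(p : ℤ)}) (by
      rw [(RingHom.injective_iff_ker_eq_bot _).1 (FaithfulSMul.algebraMap_injective ℤ (𝓞 Qb))]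
      exact bot_le)
  refine ⟨P, hp, h1, ?_⟩
  have : (p : ℤ) ∈ P.comap (algebraMap ℤ (𝓞 Qb)) := h2 ▸ Ideal.mem_span_singleton_self _
  simpa using this

theorem two_not {p : ℕ} {P : Ideal (𝓞 Qb)} (h : Ov p P) (h2 : p ≠ 2) : (2 : 𝓞 Qb) ∉ P := by
  exact_mod_cast OneP.cop ((Nat.coprime_primes h.1 Nat.prime_two).2 h2) h.2.1 h.2.2

theorem kq_nat {p l : ℕ} {P : Ideal (𝓞 Qb)} (h : Ov p P) (h2 : p ≠ 2) (hl : l.Prime) (ne : p ≠ l)
    {i : GQ} (hi : Inert P i) : kq (l : Qb) i = 0 :=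
  kq_unit (c := (l : 𝓞 Qb)) h.2.1 (two_not h h2)
    (OneP.cop ((Nat.coprime_primes h.1 hl).2 ne) h.2.1 h.2.2) hi (map_natCast i l)

theorem m1_fix (g : GQ) : g (-1 : Qb) = -1 := by rw [map_neg, map_one]

theorem kq_m1 {p : ℕ} {P : Ideal (𝓞 Qb)} (h : Ov p P) (h2 : p ≠ 2) {i : GQ} (hi : Inert P i) :
    kq (-1 : Qb) i = 0 :=
  kq_unit (c := (-1 : 𝓞 Qb)) h.2.1 (two_not h h2)
    (fun k => h.2.1.ne_top ((Ideal.eq_top_iff_one _).2 (neg_mem_iff.1 k))) hi (m1_fix i)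

theorem kq_m7 (g : GQ) : kq (-7 : Qb) g = kq (-1 : Qb) g + kq ((7 : ℕ) : Qb) g := by
  rw [← kq_mul (by norm_num) (by norm_num) (m1_fix g) (map_natCast g 7)]
  norm_num

theorem m1_inf {c : GQ} (hc : IsConj c) : kq (-1 : Qb) c = 1 := by
  obtain ⟨φ, hφ⟩ := hc
  have hw := rt_sq (-1 : Qb)
  refine (kq_one (by norm_num) hw (m1_fix c)).2 (φ.injective ?_)
  rw [hφ, map_neg]
  have e : φ (rt (-1)) ^ 2 = Complex.I ^ 2 := by
    rw [← map_pow, hw, map_neg, map_one, Complex.I_sq]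
  rcases sq_eq_sq_iff_eq_or_eq_neg.1 e with h | h <;> rw [h] <;> simp

theorem m1_frob {P : Ideal (𝓞 Qb)} {φ : GQ} (hP : Ov 7 P) (hφ : Fb 7 P φ) :
    kq (-1 : Qb) φ = 1 := by
  refine (z2 _).resolve_left fun h => ?_
  obtain ⟨X, hX⟩ : ∃ X : 𝓞 Qb, (X : Qb) = rt (-1) :=
    ⟨⟨rt (-1), IsIntegral.of_pow (n := 2) two_pos (by
      rw [rt_sq]; exact isIntegral_one.neg)⟩, rfl⟩
  have e : X ^ 2 = -1 := RingOfIntegers.ext (by
    show (X : Qb) ^ 2 = -1
    rw [hX, rt_sq])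
  have e1 : φ • X = X := RingOfIntegers.ext (by
    show φ (X : Qb) = X
    rw [hX]
    exact (kq_zero (rt_sq _) φ).1 h)
  have e2 := hφ X
  rw [e1] at e2
  have e3 := P.mul_mem_left (-X) e2
  rw [show -X * (X - X ^ 7) = 2 by
    linear_combination (X ^ 6 - X ^ 4 + X ^ 2 - 2) * e] at e3
  exact two_not hP (by norm_num) e3

theorem m7_two {P : Ideal (𝓞 Qb)} (hP : Ov 2 P) {g : GQ} (hg : g ∈ dec P) :
    kq (-7 : Qb) g = 0 := by
  obtain ⟨-, hP, hl⟩ := hP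
  have hw := rt_sq (-7 : Qb)
  refine (kq_zero hw g).2 ((pm hw (by rw [map_neg, map_ofNat])).resolve_right fun e => ?_)
  have z1 : ((rt (-7) - 1) / 2 : Qb) ^ 2 + (rt (-7) - 1) / 2 + 2 = 0 := by
    linear_combination (1 / 4 : Qb) * hw
  obtain ⟨Z, hZ⟩ : ∃ Z : 𝓞 Qb, (Z : Qb) = (rt (-7) - 1) / 2 := by
    refine ⟨⟨(rt (-7) - 1) / 2, Polynomial.X ^ 2 + (Polynomial.X + Polynomial.C (2 : ℤ)),
      ?_, ?_⟩, rfl⟩
    · monicity!
    · rw [Polynomial.eval₂_add, Polynomial.eval₂_add, Polynomial.eval₂_X_pow,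
        Polynomial.eval₂_X, Polynomial.eval₂_C, eq_intCast]
      push_cast
      linear_combination z1
  have e1 : Z * (Z + 1) = -2 := RingOfIntegers.ext (by
    show (Z : Qb) * ((Z : Qb) + 1) = -2
    rw [hZ]
    linear_combination z1)
  have e2 : g • Z = -(Z + 1) := RingOfIntegers.ext (by
    show g (Z : Qb) = -((Z : Qb) + 1)
    rw [hZ, map_div₀, map_sub, e, map_one, map_ofNat]
    ring)
  have e3 : Z + 1 ∈ P ↔ Z ∈ P := by rw [← hg Z, e2, neg_mem_iff]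
  have e4 : Z * (Z + 1) ∈ P := e1 ▸ P.neg_mem (by exact_mod_cast hl)
  have e5 : Z ∈ P := (hP.mem_or_mem e4).elim id e3.1
  have := P.sub_mem (e3.2 e5) e5
  rw [add_sub_cancel_left] at this
  exact hP.ne_top ((Ideal.eq_top_iff_one _).2 this)

theorem z2_cup {D : Subgroup GQ} {a b : GQ → F} (ha : Ch D a) (hb : Ch D b) : Z2 D (cup a b) := by
  refine ⟨(ha.1.comp_continuous continuous_fst).mul (hb.1.comp_continuous continuous_snd),
    fun g k l => ?_⟩
  have a2 := ha.2 g k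
  have a3 := hb.2 k l
  simp only [rs, cup] at a2 a3 ⊢
  rw [a2, a3]
  ring

theorem Ch.ad {D : Subgroup GQ} {a : GQ → F} (ha : Ch D a) {g k : GQ} (hg : g ∈ D) (hk : k ∈ D) :
    a (g * k) = a g + a k := ha.2 ⟨g, hg⟩ ⟨k, hk⟩

/-- unramified symbols are trivial -/
theorem cup_unr [CharP F 2] {p : ℕ} {P : Ideal (𝓞 Qb)} (h : Ov p P) {a b : GQ → F}
    (ha : Ch (dec P) a) (hb : Ch (dec P) b) (ua : ∀ i, Inert P i → a i = 0)
    (ub : ∀ i, Inert P i → b i = 0) : Cb (dec P) (cup a b) := by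
  have := unrC F ⊤ p P (cup a b) isOpen_univ h (One.z2_mono inf_le_right (z2_cup ha hb))
    fun g hg k hk i _ hi => by
      simp only [cup, Ch.ad ha hg.2 (inP_le_dec hi), Ch.ad hb hk.2 (inP_le_dec hi), ua i hi,
        ub i hi, add_zero, and_self]
  rwa [top_inf_eq] at this

theorem ch_up [CharP F 2] (D : Subgroup GQ) {x : Qb} (h : ∀ g : GQ, g x = x) (κ : F) :
    Ch D fun g => κ * up F (kq x g) :=
  RecP.ch_of D ((kq_lc x).comp fun a => κ * up F a) fun g _ k _ => by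
    rw [kq_add (h g) (h k), map_add, mul_add]

theorem cb_zero {D : Subgroup GQ} {z : GQ → GQ → F} (h : ∀ x ∈ D, ∀ y ∈ D, z x y = 0) : Cb D z :=
  One.cb_congr (z := 0) (zero_mem _) h

/-- from one prime to all primes above `p` -/
theorem cb_all [CharP F 2] {z : GQ → GQ → F} (hz : IsZ2 z) {p : ℕ} {P P' : Ideal (𝓞 Qb)}
    (h : Ov p P) (h' : Ov p P') (k : Cb (dec P) z) : Cb (dec P') z := by
  obtain ⟨t, rfl⟩ := Tg.trans h h'
  have := cj F ⊤ (dec P) (dec (t • P)) t z trivial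
    (One.dec_conj fun x => Ideal.smul_mem_pointwise_smul_iff.symm) (RecP.z2_le hz ⊤)
    (by rwa [top_inf_eq])
  rwa [top_inf_eq] at this

theorem cb_inf [CharP F 2] {z : GQ → GQ → F} (hz : IsZ2 z) (h1 : z 1 1 = 0) {c : GQ}
    (hc : IsConj c) (h0 : z c c = 0) (D : Subgroup GQ) (hD : IsDec 0 (D : Set GQ)) :
    Cb (⊤ ⊓ D) z := by
  obtain ⟨-, c', k, e⟩ | ⟨lp, -⟩ := hD
  swap
  · exact absurd lp Nat.not_prime_zero
  obtain ⟨t, ht⟩ := P022D.Sel.AdmA.conj_conj k hc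
  refine cj F ⊤ (D.comap (MulAut.conj t).toMonoidHom) D t z trivial (fun x => Iff.rfl)
    (RecP.z2_le hz ⊤) (cb_zero ?_)
  have m : ∀ x ∈ ⊤ ⊓ D.comap (MulAut.conj t).toMonoidHom, x = 1 ∨ x = c := fun x hx => by
    have : t * x * t⁻¹ ∈ ({1, c'} : Set GQ) := e ▸ hx.2
    rcases this with a | a
    · left
      calc x = t⁻¹ * (t * x * t⁻¹) * t := by group
        _ = 1 := by rw [a]; group
    · right
      calc x = t⁻¹ * (t * x * t⁻¹ * t) := by group
        _ = c := by rw [show t * x * t⁻¹ = c' from a, ht]; group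
  intro x hx y hy
  rcases m x hx with rfl | rfl
  · rw [Unr.z2_left hz, h1]
  rcases m y hy with rfl | rfl
  · rw [Unr.z2_right hz, h1]
  · exact h0

/-- **the sum formula with the real place** -/
theorem oneR [Finite F] [CharP F 2] {z : GQ → GQ → F} (hz : IsZ2 z) (z1 : z 1 1 = 0) {ι : Type}
    [Fintype ι] {l : ι → ℕ} (inj : Function.Injective l) {P : ι → Ideal (𝓞 Qb)} {τ φ : ι → GQ}
    (u ψ : ι → GQ → F)
    (h1 : ∀ i, Ov (l i) (P i) ∧ l i ≠ 2 ∧ l i ≠ 7 ∧ Gn (l i) (P i) (τ i) ∧ Fb (l i) (P i) (φ i))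
    (h3 : ∀ i, Ch (dec (P i)) (u i) ∧ Ch (dec (P i)) (ψ i) ∧ (∀ g, Inert (P i) g → u i g = 0) ∧
      u i (φ i) = 1 ∧ Cb (dec (P i)) (z - cup (u i) (ψ i)))
    {c : GQ} (hc : IsConj c) (h5 : ∀ p P', Ov p P' → (∀ i, l i ≠ p) → Cb (dec P') z) :
    ∑ i, ψ i (τ i) = z c c := by
  have p7 : Nat.Prime 7 := by norm_num
  obtain ⟨P7, o7⟩ := ex_ov p7
  obtain ⟨φ7, f7⟩ := exists_phi p7 o7.2.1 o7.2.2
  obtain ⟨τ7, g7⟩ := Tg.ex_gn o7 (by norm_num)
  let η : GQ → F := fun g => 1 * up F (kq (-1 : Qb) g)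
  let θ : GQ → F := fun g => z c c * up F (kq (-7 : Qb) g)
  have cη : ∀ D, Ch D η := fun D => ch_up D m1_fix 1
  have cθ : ∀ D, Ch D θ := fun D => ch_up D (fun g => by rw [map_neg, map_ofNat]) _
  have uη : ∀ {p P'}, Ov p P' → p ≠ 2 → ∀ i, Inert P' i → η i = 0 := fun h h2 i hi => by
    simp only [η, kq_m1 h h2 hi, map_zero, mul_zero]
  have un : ∀ {p P'}, Ov p P' → p ≠ 7 → Cb (dec P') (cup η θ) := fun {p P'} h h7 => by
    by_cases h2 : p = 2
    · subst h2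
      exact cb_zero fun x _ y hy => by simp only [cup, θ, m7_two h hy, map_zero, mul_zero]
    · exact cup_unr h (cη _) (cθ _) (uη h h2) fun i hi => by
        simp only [θ, kq_m7, kq_m1 h h2 hi, kq_nat h h2 p7 h7 hi, add_zero, map_zero, mul_zero]
  have hy : IsZ2 (cup η θ) := by
    have k := z2_cup (cη ⊤) (cθ ⊤)
    exact ⟨k.1.comp_continuous (f := fun p : GQ × GQ =>
      ((⟨p.1, trivial⟩ : (⊤ : Subgroup GQ)), (⟨p.2, trivial⟩ : (⊤ : Subgroup GQ)))) (by fun_prop),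
      fun a b d => k.2 ⟨a, trivial⟩ ⟨b, trivial⟩ ⟨d, trivial⟩⟩
  have hz' : IsZ2 (z + cup η θ) := ⟨hz.1.add hy.1, fun a b d => by
    simp only [Pi.add_apply]
    linear_combination hz.2 a b d + hy.2 a b d⟩
  have two : (2 : F) = 0 := CharTwo.two_eq_zero
  have pr : ∀ {a b : ℕ} {A B : Ideal (𝓞 Qb)} {g : GQ}, Ov a A → Ov b B →
      (∀ x : 𝓞 Qb, x ∈ A ↔ g • x ∈ B) → a = b := fun {a b A B g} ha hb hg => by
    have e := (hg _).1 ha.2.2
    rw [show g • ((a : ℕ) : 𝓞 Qb) = (a : ℕ) from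
      map_natCast (MulSemiringAction.toRingHom GQ (𝓞 Qb) g) _] at e
    exact One.two_pr ha.1 hb.1 hb.2.1 e hb.2.2
  have key := oneC F ⊤ (z + cup η θ) (Option ι) (fun o => o.elim 7 l) (fun o => o.elim P7 P)
    (fun o => o.elim τ7 τ) (fun o => o.elim φ7 φ) (fun o => o.elim η u) (fun o => o.elim θ ψ)
    isOpen_univ (RecP.z2_le hz' ⊤) ?_ ?_ ?_ ?_ ?_
  · rw [Fintype.sum_option] at key
    have e : θ τ7 = z c c := by
      simp only [θ, kq_m7, kq_m1 o7 (by norm_num) g7.1, ((Tg.gn_iff o7).1 g7).2, zero_add,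
        map_one, mul_one]
    simp only [Option.elim, e] at key
    linear_combination key - z c c * two
  · rintro (_ | i)
    · exact ⟨o7, by norm_num, g7, f7, le_top⟩
    · exact ⟨(h1 i).1, (h1 i).2.1, (h1 i).2.2.2.1, (h1 i).2.2.2.2, le_top⟩
  · rintro (_ | i) (_ | j) g - hg
    · rfl
    · exact absurd (pr o7 (h1 j).1 hg).symm (h1 j).2.2.1
    · exact absurd (pr (h1 i).1 o7 hg) (h1 i).2.2.1
    · rw [inj (pr (h1 i).1 (h1 j).1 hg)]
  · rintro (_ | i)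
    · refine ⟨cη _, cθ _, uη o7 (by norm_num), ?_, ?_⟩
      · show η φ7 = 1
        simp only [η, m1_frob o7 f7, map_one, mul_one]
      · show Cb (dec P7) (z + cup η θ - cup η θ)
        rw [add_sub_cancel_right]
        exact h5 7 P7 o7 fun i => (h1 i).2.2.1
    · obtain ⟨a1, a2, a3, a4, a5⟩ := h3 i
      refine ⟨a1, a2, a3, a4, ?_⟩
      show Cb (dec (P i)) (z + cup η θ - cup (u i) (ψ i))
      rw [add_sub_right_comm]
      exact add_mem a5 (un (h1 i).1 (h1 i).2.2.1)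
  · refine cb_inf hz' ?_ hc ?_
    · simp only [Pi.add_apply, z1, cup, η, kq_id, map_zero, mul_zero, zero_mul, add_zero]
    · simp only [Pi.add_apply, cup, η, θ, kq_m7, m1_inf hc, OneP.inf 7 hc, add_zero, map_one,
        mul_one, one_mul]
      linear_combination z c c * two
  · intro p P' hp hn
    have ne : ∀ o : Option ι, o.elim 7 l ≠ p := fun o e => by
      have k : Ov (o.elim 7 l) (o.elim P7 P) := by
        rcases o with _ | i
        exacts [o7, (h1 i).1]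
      obtain ⟨t, rfl⟩ := Tg.trans k (e ▸ hp)
      exact hn o t trivial fun x => Ideal.smul_mem_pointwise_smul_iff.symm
    rw [top_inf_eq]
    exact add_mem (h5 p P' hp fun i => ne (some i)) (un hp (ne none).symm)

end Vale.Agent.P022R.Rel
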