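import Vale.Agent.P022R.Cnt0
import Vale.Agent.P022R.Rel0

/-!
# P022R, the count: finiteness, detecting primes, first order reciprocity
-/

set_option linter.all false

noncomputable section

namespace Vale.Agent.P022R.Cnt

open NumberField
open Vale.Agent.P022 Vale.Agent.P022.H443
open Vale.Agent.P027M.S (Inert)
open Vale.Agent.P022D.Sel (IsDec Stab Adm)
open Vale.Agent.P022D.W (dec dec_gen phi_mem inP_le_dec conj_inP)
open Vale.Agent.P022D.Loc2 (PP jj)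
open Vale.Agent.P022D.L2c (IsZ2 cup)
open Vale.Agent.P022E.GW
open scoped Pointwise

variable {F : Type} [Field F]

/-- normalised cocycles which are unramified outside `T` -/
def Hn (θ : GQ →* Fˣ) (T : Finset ℕ) (g₀ : GQ) : Submodule F (GQ → F) where
  carrier := {b | Co θ b ∧ Op b ∧ Ur T b ∧ b g₀ = 0}
  add_mem' {a b} ha hb := ⟨fun g h => by
      rw [Pi.add_apply, Pi.add_apply, Pi.add_apply, ha.1 g h, hb.1 g h]; ring,
    ha.2.1.add hb.2.1,
    fun l hl P hP g hg => by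
      rw [Pi.add_apply, ha.2.2.1 l hl P hP g hg, hb.2.2.1 l hl P hP g hg, add_zero],
    by rw [Pi.add_apply, ha.2.2.2, hb.2.2.2, add_zero]⟩
  zero_mem' := ⟨fun _ _ => by simp, ⟨⊤, isOpen_univ, fun _ _ => rfl⟩, fun _ _ _ _ _ _ => rfl, rfl⟩
  smul_mem' r a ha := ⟨fun g h => by
      simp only [Pi.smul_apply, smul_eq_mul]; rw [ha.1 g h]; ring,
    ha.2.1.imp fun U hU => ⟨hU.1, fun σ hσ => by rw [Pi.smul_apply, hU.2 σ hσ, smul_zero]⟩,
    fun l hl P hP g hg => by rw [Pi.smul_apply, ha.2.2.1 l hl P hP g hg, smul_zero],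
    by rw [Pi.smul_apply, ha.2.2.2, smul_zero]⟩

/-- the character is distinguished at the primes of `T` -/
structure Hy (θ : GQ →* Fˣ) (T : Finset ℕ) (g₀ : GQ) : Prop where
  opn : IsOpen (θ.ker : Set GQ)
  pr : ∀ l ∈ T, l.Prime
  h2 : 2 ∈ T
  unr : ∀ l ∉ T, ∀ P : Ideal (𝓞 Qb), Ov l P → ∀ g, Inert P g → θ g = 1
  dis : ∀ l ∈ T, l ≠ 2 → ∀ P : Ideal (𝓞 Qb), Ov l P → ∃ g ∈ dec P, θ g ≠ 1
  mem : g₀ ∈ dec (PP 2)
  ne : θ g₀ ≠ 1

variable {θ : GQ →* Fˣ} {T : Finset ℕ} {g₀ : GQ} {b d : GQ → F}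

theorem inv1 {g : GQ} : θ⁻¹ g = 1 ↔ θ g = 1 := by rw [MonoidHom.inv_apply, inv_eq_one]

theorem Hy.inv (H : Hy θ T g₀) : Hy θ⁻¹ T g₀ where
  opn := by
    have : (θ⁻¹).ker = θ.ker := Subgroup.ext fun g => inv1
    rw [this]
    exact H.opn
  pr := H.pr
  h2 := H.h2
  unr l hl P hP g hg := inv1.2 (H.unr l hl P hP g hg)
  dis l hl h2 P hP := (H.dis l hl h2 P hP).imp fun g hg => ⟨hg.1, fun e => hg.2 (inv1.1 e)⟩
  mem := H.mem
  ne e := H.ne (inv1.1 e)

theorem Hn.mono {T' : Finset ℕ} (h : T ⊆ T') : Hn θ T g₀ ≤ Hn θ T' g₀ := fun b hb =>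
  ⟨hb.1, hb.2.1, fun l hl => hb.2.2.1 l fun k => hl (h k), hb.2.2.2⟩

theorem bo_all (hb : Co θ b) {p : ℕ} {P P' : Ideal (𝓞 Qb)} (h : Ov p P) (h' : Ov p P')
    (k : Bo θ (dec P) b) : Bo θ (dec P') b := by
  obtain ⟨t, rfl⟩ := Tg.trans h h'
  exact k.conj hb t fun g hg => P022D.Sel.AdmA.stab_conj hg

theorem conj_zero [CharP F 2] (hb : Co θ b) {c c' : GQ} (hc : IsConj c) (hc' : IsConj c')
    (h0 : b c = 0) : b c' = 0 := by
  obtain ⟨t, ht⟩ := P022D.Sel.AdmA.conj_conj hc' hc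
  have := hb.conj1 t (sq_one (θ := θ) (H56.conj_sq hc))
  rwa [← ht, mul_inv_cancel_right, h0, mul_zero] at this

theorem zero_of_ker (hb : Co θ b) (hne : θ g₀ ≠ 1) (b0 : b g₀ = 0) (h : ∀ v, θ v = 1 → b v = 0) :
    b = 0 :=
  funext fun g => (hb.bo (D := ⊤) trivial hne fun v _ => h v).zero trivial hne b0 g trivial

/-- **finiteness** -/
theorem fin [Finite F] [CharP F 2] (H : Hy θ T g₀) {c : GQ} (hc : IsConj c) :
    Module.Finite F (Hn θ T g₀) := by
  classical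
  obtain ⟨A₀, pA, hA⟩ := Hy.ex_bg H.opn
  obtain ⟨L, _, _, j, hj, hB⟩ := hA (T ∪ A₀) Finset.subset_union_right
  obtain ⟨v, -, -, hv⟩ := loc2 H.opn ⟨g₀, H.mem, H.ne⟩
  choose P hP using fun l : A₀ => Rel.ex_ov (pA l l.2)
  choose φ hφ using fun l : A₀ => P027M.S.Loc.frob (hP l).2.1 (hP l).1 (hP l).2.2
  let e : Hn θ T g₀ →ₗ[F] F × F × (A₀ → F) :=
    { toFun := fun b => (b.1 v, b.1 c, fun l => b.1 (φ l))
      map_add' := fun _ _ => rfl
      map_smul' := fun _ _ => rfl }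
  refine Module.Finite.of_injective e ((injective_iff_map_eq_zero e).2 fun b hb => ?_)
  obtain ⟨b, cb, ob, ub, b0⟩ := b
  have e1 : b v = 0 := congrArg Prod.fst hb
  have e2 : b c = 0 := congrArg (fun x => x.2.1) hb
  have e3 : ∀ l, b (φ l) = 0 := congrFun (congrArg (fun x => x.2.2) hb)
  have hbo : ∀ l ∈ T ∪ A₀, ∀ P' : Ideal (𝓞 Qb), Ov l P' → Bo θ (dec P') b := by
    intro l hl P' hP'
    by_cases l2 : l = 2
    · subst l2
      exact bo_all cb ov2 hP' (hv b cb ob e1)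
    by_cases lT : l ∈ T
    · exact loc H.opn cb ob hP' l2 (H.dis l lT l2 P' hP')
    have lA : l ∈ A₀ := (Finset.mem_union.1 hl).resolve_left lT
    refine bo_all cb (hP ⟨l, lA⟩) hP' ?_
    by_cases h1 : θ (φ ⟨l, lA⟩) = 1
    · refine bo_of_zero fun g hg => ?_
      obtain ⟨k, -, e⟩ := dec_val H.opn cb ob (hP ⟨l, lA⟩) (hφ ⟨l, lA⟩)
        (H.unr l lT _ (hP ⟨l, lA⟩)) (ub l lT _ (hP ⟨l, lA⟩)) hg
      rw [e, cb.pow1 h1, e3, mul_zero]
    · exact loc H.opn cb ob (hP ⟨l, lA⟩) l2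
        ⟨_, phi_mem (hP ⟨l, lA⟩).1 (hP ⟨l, lA⟩).2.1 (hφ ⟨l, lA⟩), h1⟩
  have hd : ∀ l ∈ T ∪ A₀, ∀ P' : Ideal (𝓞 Qb), Ov l P' → ∀ g ∈ dec P',
      (θ.ker : Set GQ).indicator b g = 0 := by
    intro l hl P' hP' g hg
    by_cases k : g ∈ (θ.ker : Set GQ)
    · obtain ⟨m, hm⟩ := hbo l hl P' hP'
      rw [Set.indicator_of_mem k, hm g hg, show θ g = 1 from k, Units.val_one, sub_self, mul_zero]
    · exact Set.indicator_of_notMem k _
  have hz : ∀ g, b g = 0 → (θ.ker : Set GQ).indicator b g = 0 := fun g h => by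
    by_cases k : g ∈ (θ.ker : Set GQ)
    · rw [Set.indicator_of_mem k, h]
    · exact Set.indicator_of_notMem k _
  have ad : Adm (GK j) 1 1 (T ∪ A₀) ∅ ((θ.ker : Set GQ).indicator b) := by
    rw [hj]
    refine ⟨fun σ hσ τ hτ => ?_, fun g hg => Set.indicator_of_notMem hg _,
      ob.imp fun U hU => ⟨hU.1, fun σ hσ => hz σ (hU.2 σ hσ)⟩, fun l hl _ P' p1 p2 g hg => ?_,
      fun l hl l0 P' p1 p2 g hg => ?_, fun c' hc' => hz c' (conj_zero cb hc hc' e2),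
      fun σ _ => by rw [one_mul, inv_one, mul_one, one_mul]⟩
    · rw [Set.indicator_of_mem (show σ * τ ∈ (θ.ker : Set GQ) from θ.ker.mul_mem hσ hτ),
        Set.indicator_of_mem (show σ ∈ (θ.ker : Set GQ) from hσ),
        Set.indicator_of_mem (show τ ∈ (θ.ker : Set GQ) from hτ)]
      exact cb.add1 hσ τ
    · by_cases lT : l ∈ T
      · exact hd l (Finset.mem_union_left _ lT) P' ⟨hl, p1, p2⟩ g (inP_le_dec hg)
      · exact hz g (ub l lT P' ⟨hl, p1, p2⟩ g hg)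
    · exact hd l hl P' ⟨(Finset.mem_union.1 hl).elim (H.pr l) (pA l), p1, p2⟩ g hg
  have z := Sha.adm0 j hB ad
  refine Subtype.ext (zero_of_ker cb H.ne b0 fun w hw => ?_)
  have := congrFun z w
  rwa [Set.indicator_of_mem (show w ∈ (θ.ker : Set GQ) from hw)] at this

/-- a split prime which detects one class -/
theorem det1 [Finite F] [CharP F 2] (ho : IsOpen (θ.ker : Set GQ)) (hb : Co θ b) (ob : Op b)
    {g : GQ} (g1 : θ g = 1) (bg : b g ≠ 0) (A : Finset ℕ) :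
    ∃ l ∉ A, ∃ (P : Ideal (𝓞 Qb)) (φ : GQ), Ov l P ∧ Fb l P φ ∧ θ φ = 1 ∧ b φ ≠ 0 := by
  let r : GQ →* Matrix (Fin 2) (Fin 2) F :=
    { toFun := fun g => !![θ g, b g; 0, 1]
      map_one' := by
        rw [map_one, hb.one, Matrix.one_fin_two]
        rfl
      map_mul' := fun x y => by
        rw [Matrix.mul_fin_two, hb, map_mul, Units.val_mul]
        simp [add_comm] }
  have er : ∀ g, r g = !![(θ g : F), b g; 0, 1] := fun _ => rfl
  obtain ⟨U, -, oU, hU⟩ := ex_core ho ob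
  have oR : IsOpen {g : GQ | r g = 1} :=
    Subgroup.isOpen_mono (H₁ := U) (H₂ := r.toHomUnits.ker) (fun u hu => by
      refine Units.ext ?_
      show r u = 1
      rw [er, (hU u hu).1, (hU u hu).2, Matrix.one_fin_two]
      rfl) oU |> fun h => by
        have e : {g : GQ | r g = 1} = (r.toHomUnits.ker : Set GQ) :=
          Set.ext fun g => ⟨fun k => Units.ext k, fun k => congrArg Units.val k⟩
        rw [e]
        exact h
  have h1 : r g ≠ 1 := fun e => bg (by simpa [er] using congrFun (congrFun e 0) 1)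
  have h2 : r g ^ 2 = 1 := by
    rw [← map_pow, er, map_pow, g1, one_pow, hb.pow1 g1, Matrix.one_fin_two]
    rw [show ((2 : ℕ) : F) = 0 from CharP.cast_eq_zero F 2, zero_mul]
    rfl
  haveI : Fact (Nat.Prime 2) := ⟨Nat.prime_two⟩
  have h3 : orderOf (r g) = 2 := orderOf_eq_prime h2 h1
  obtain ⟨φ, ⟨l, l1, l2, P, p1, p2, p3⟩, m, hm, e⟩ := P027M.TW.dens _ r oR A g {2}
    (by simpa using Nat.prime_two) (by norm_num) fun p hp hd => by
      rw [h3] at hd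
      exact Finset.mem_singleton.2 ((Nat.prime_dvd_prime_iff_eq hp Nat.prime_two).1 hd)
  obtain ⟨k, rfl⟩ : Odd m := by rwa [h3, Nat.coprime_two_right] at hm
  rw [pow_succ, pow_mul, h2, one_pow, one_mul, er, er] at e
  have e1 : (θ φ : F) = θ g := by simpa using congrFun (congrFun e 0) 0
  have e2 : b φ = b g := by simpa using congrFun (congrFun e 0) 1
  exact ⟨l, l2, P, φ, ⟨l1, p1, p2⟩, p3, (Units.ext e1).trans g1, e2 ▸ bg⟩

/-- split primes which detect a finite dimensional space of classes -/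
theorem det [Finite F] [CharP F 2] (ho : IsOpen (θ.ker : Set GQ)) (hne : θ g₀ ≠ 1) (n : ℕ) :
    ∀ (Y : Submodule F (GQ → F)) [Module.Finite F Y], Module.finrank F Y ≤ n →
      (∀ b ∈ Y, Co θ b ∧ Op b ∧ b g₀ = 0) → ∀ A : Finset ℕ,
      ∃ (Q : Finset ℕ) (P : ℕ → Ideal (𝓞 Qb)) (φ : ℕ → GQ),
        (∀ q ∈ Q, q ∉ A ∧ Ov q (P q) ∧ Fb q (P q) (φ q) ∧ θ (φ q) = 1) ∧
        ∀ b ∈ Y, (∀ q ∈ Q, b (φ q) = 0) → b = 0 := by
  classical
  induction n with
  | zero =>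
    intro Y _ hY _ A
    have : Y = ⊥ := Submodule.finrank_eq_zero.1 (Nat.le_zero.1 hY)
    exact ⟨∅, fun _ => ⊤, fun _ => 1, fun q hq => absurd hq (Finset.notMem_empty q),
      fun b hb _ => by rwa [this, Submodule.mem_bot] at hb⟩
  | succ n ih =>
    intro Y _ hY h A
    by_cases h0 : Y = ⊥
    · exact ⟨∅, fun _ => ⊤, fun _ => 1, fun q hq => absurd hq (Finset.notMem_empty q),
        fun b hb _ => by rwa [h0, Submodule.mem_bot] at hb⟩
    obtain ⟨b, hb, b0⟩ := Submodule.exists_mem_ne_zero_of_ne_bot h0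
    obtain ⟨g, g1, bg⟩ : ∃ g, θ g = 1 ∧ b g ≠ 0 := by
      by_contra k
      push Not at k
      exact b0 (zero_of_ker (h b hb).1 hne (h b hb).2.2 k)
    obtain ⟨l, lA, P₀, φ₀, o1, o2, o3, o4⟩ := det1 ho (h b hb).1 (h b hb).2.1 g1 bg A
    let Y' : Submodule F (GQ → F) := Y ⊓ LinearMap.ker (LinearMap.proj φ₀)
    have lt : Y' < Y := lt_of_le_of_ne inf_le_left fun e => o4 (by
      have : b ∈ Y' := e ▸ hb
      exact this.2)
    haveI : Module.Finite F Y' := Submodule.finiteDimensional_of_le lt.le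
    obtain ⟨Q, P, φ, k1, k2⟩ := ih Y' (by have := Submodule.finrank_lt_finrank_of_lt lt; omega)
      (fun b hb => h b hb.1) (insert l A)
    have ne : ∀ q ∈ Q, q ≠ l := fun q hq e => (k1 q hq).1 (e ▸ Finset.mem_insert_self l A)
    refine ⟨insert l Q, Function.update P l P₀, Function.update φ l φ₀, fun q hq => ?_,
      fun y hy hq => k2 y ⟨hy, ?_⟩ fun q hq' => ?_⟩
    · rcases Finset.mem_insert.1 hq with rfl | hq
      · simp only [Function.update_self]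
        exact ⟨lA, o1, o2, o3⟩
      · simp only [Function.update_of_ne (ne q hq)]
        exact ⟨fun k => (k1 q hq).1 (Finset.mem_insert_of_mem k), (k1 q hq).2⟩
    · have := hq l (Finset.mem_insert_self _ _)
      rwa [Function.update_self] at this
    · have := hq q (Finset.mem_insert_of_mem hq')
      rwa [Function.update_of_ne (ne q hq')] at this

/-- the cup product of a class and a dual class -/
def zz (θ : GQ →* Fˣ) (b d : GQ → F) (g h : GQ) : F := b g * (θ⁻¹ g : Fˣ) * d h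

theorem mi (g : GQ) : (θ g : F) * (θ⁻¹ g : Fˣ) = 1 := by
  rw [MonoidHom.inv_apply, Units.mul_inv]

theorem z2 (H : IsOpen (θ⁻¹.ker : Set GQ)) (hb : Co θ b) (ob : Op b) (hd : Co θ⁻¹ d) (od : Op d) :
    IsZ2 (zz θ b d) := by
  refine ⟨((((hb.lc ob).mul (lc_char H)).comp_continuous continuous_fst).mul
    ((hd.lc od).comp_continuous continuous_snd)), fun g h k => ?_⟩
  simp only [zz, hb g h, hd h k, map_mul, Units.val_mul]
  linear_combination (-b h * (θ⁻¹ h : Fˣ) * d k) * mi (θ := θ) g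

theorem cb_l {D : Subgroup GQ} (hd : Co θ⁻¹ d) (od : Op d) (h : Bo θ D b) : Cb D (zz θ b d) := by
  obtain ⟨m, hm⟩ := h
  refine ⟨fun g => -m * d g, ((hd.lc od).comp fun x => -m * x).comp_continuous
    continuous_subtype_val, fun g k => ?_⟩
  simp only [rs, zz, Subgroup.coe_mul, hd g k, hm g g.2]
  linear_combination (-m * d k) * mi (θ := θ) g

theorem cb_r {D : Subgroup GQ} (H : IsOpen (θ⁻¹.ker : Set GQ)) (hb : Co θ b) (ob : Op b)
    (h : Bo θ⁻¹ D d) : Cb D (zz θ b d) := by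
  obtain ⟨m, hm⟩ := h
  refine ⟨fun g => m * (b g * (θ⁻¹ g : Fˣ)), ((((hb.lc ob).mul (lc_char H))).comp
    fun x => m * x).comp_continuous continuous_subtype_val, fun g k => ?_⟩
  simp only [rs, zz, Subgroup.coe_mul, hb g k, hm k k.2, map_mul, Units.val_mul]
  linear_combination (m * b k * (θ⁻¹ k : Fˣ)) * mi (θ := θ) g

/-- **first order reciprocity** -/
theorem pair [Finite F] [CharP F 2] (H : Hy θ T g₀) {Q : Finset ℕ} {P : ℕ → Ideal (𝓞 Qb)}
    {φ τ : ℕ → GQ} (hQ : ∀ q ∈ Q, q ∉ T ∧ q ≠ 7 ∧ Ov q (P q) ∧ Fb q (P q) (φ q) ∧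
      Gn q (P q) (τ q) ∧ θ (φ q) = 1) (hb : Co θ b) (ob : Op b) (ub : Ur T b) (hd : Co θ⁻¹ d)
    (od : Op d) (ud : Ur (T ∪ Q) d) (h2 : Bo θ (dec (PP 2)) b ∨ Bo θ⁻¹ (dec (PP 2)) d) {c : GQ}
    (hc : IsConj c) : ∑ q ∈ Q, b (φ q) * d (τ q) = b c * d c := by
  classical
  have oi := H.inv.opn
  have zz2 := z2 oi hb ob hd od
  have q2 : ∀ q ∈ Q, q ≠ 2 := fun q hq e => (hQ q hq).1 (e ▸ H.h2)
  choose u U oU u0 ua ui u1 using fun q : Q =>
    RecP.ex_u (F := F) (hQ q q.2).2.2.1 (q2 q q.2) (hQ q q.2).2.2.2.1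
  have lu : ∀ q, IsLocallyConstant (u q) := fun q =>
    RecP.lc (U q) (oU q) fun g σ hσ => by rw [ua, u0 q σ hσ, add_zero]
  have val : ∀ q : Q, ∀ g ∈ dec (P q), θ g = 1 ∧ b g = u q g * b (φ q) := by
    intro q g hg
    obtain ⟨k1, -, k2, k3, -, k4⟩ := hQ q q.2
    obtain ⟨V, -, oV, hV⟩ := ex_core H.opn ob
    obtain ⟨k, s, v, hs, hv, rfl⟩ := dec_gen k2.1 k2.2.1 k2.2.2 k3 hg (V ⊓ U q) (oV.inter (oU q))
    have cu : Co (1 : GQ →* Fˣ) (u q) := fun x y => by simp [ua]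
    refine ⟨by rw [map_mul, map_mul, (hV v hv.1).1, map_pow, k4, one_pow,
      H.unr q k1 _ k2 s hs, one_mul, one_mul], ?_⟩
    rw [hb, ub q k1 _ k2 s hs, mul_zero, add_zero, hb.add1 (hV v hv.1).1, (hV v hv.1).2, zero_add,
      hb.pow1 k4, ua, ua, ui q s hs, u0 q v hv.2, cu.pow1 rfl, u1]
    ring
  have e := Rel.oneR zz2 (by rw [zz, hb.one, zero_mul, zero_mul]) (ι := Q) (l := fun q => q)
    Subtype.val_injective (P := fun q => P q) (τ := fun q => τ q) (φ := fun q => φ q) u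
    (fun q g => b (φ q) * d g)
    (fun q => ⟨(hQ q q.2).2.2.1, q2 q q.2, (hQ q q.2).2.1, (hQ q q.2).2.2.2.2.1,
      (hQ q q.2).2.2.2.1⟩)
    (fun q => ⟨RecP.ch_of _ (lu q) fun g _ k _ => ua q g k,
      RecP.ch_of _ ((hd.lc od).comp fun x => b (φ q) * x) fun g hg k _ => by
        rw [hd.add1 (inv1.2 (val q g hg).1), mul_add],
      ui q, u1 q, Rel.cb_zero fun x hx y _ => by
        simp only [Pi.sub_apply, zz, cup, inv1.2 (val q x hx).1, (val q x hx).2, Units.val_one]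
        ring⟩) hc fun p P' hp hn => ?_
  · rw [← Finset.sum_coe_sort Q, e, zz, sq_one (θ := θ⁻¹) (H56.conj_sq hc), Units.val_one, mul_one]
  by_cases p2 : p = 2
  · subst p2
    rcases h2 with k | k
    · exact cb_l hd od (bo_all hb ov2 hp k)
    · exact cb_r oi hb ob (bo_all hd ov2 hp k)
  by_cases pT : p ∈ T
  · exact cb_l hd od (loc H.opn hb ob hp p2 (H.dis p pT p2 P' hp))
  have pQ : p ∉ T ∪ Q := fun k => (Finset.mem_union.1 k).elim pT fun k => hn ⟨p, k⟩ rfl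
  have := unrC F ⊤ p P' _ isOpen_univ hp (RecP.z2_le zz2 _) fun g _ h _ i _ hi => by
    simp only [zz, hb g i, hd h i, ub p pT P' hp i hi, ud p pQ P' hp i hi, map_mul,
      H.inv.unr p pT P' hp i hi, mul_zero, add_zero, mul_one, and_self]
  rwa [top_inf_eq] at this

end Vale.Agent.P022R.Cnt
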