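import Vale.Agent.P022R.Cnt1

/-!
# P022R, the count: comparison of the dimensions
-/

set_option linter.all false

noncomputable section

namespace Vale.Agent.P022R.Cnt

open NumberField Module
open Vale.Agent.P022 Vale.Agent.P022.H443
open Vale.Agent.P027M.S (Inert)
open Vale.Agent.P022D.Sel (IsDec Stab Adm)
open Vale.Agent.P022D.W (dec dec_gen phi_mem inP_le_dec conj_inP)
open Vale.Agent.P022D.Loc2 (PP jj)
open Vale.Agent.P022E.GW
open scoped Pointwise

variable {F : Type} [Field F]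

theorem lin {X B ι κ : Type} [AddCommGroup X] [Module F X] [AddCommGroup B] [Module F B]
    [Module.Finite F X] [Module.Finite F B] [Fintype ι] [Fintype κ] (ram : X →ₗ[F] (ι → F))
    (lam : X →ₗ[F] (κ → F)) (ev : B →ₗ[F] (ι → F)) (hev : Function.Injective ev)
    (h : ∀ x, lam x = 0 → ∀ b, ∑ q, ev b q * ram x q = 0) :
    finrank F X + finrank F B ≤ finrank F (LinearMap.ker ram ⊓ LinearMap.ker lam : Submodule F X) +
      Fintype.card κ + Fintype.card ι := by
  classical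
  have h1 := LinearMap.finrank_range_add_finrank_ker lam
  have h2 : finrank F (LinearMap.range lam) ≤ Fintype.card κ := by
    simpa using Submodule.finrank_le (LinearMap.range lam)
  have h3 := LinearMap.finrank_range_add_finrank_ker (ram.domRestrict (LinearMap.ker lam))
  have h4 : finrank F (LinearMap.ker (ram.domRestrict (LinearMap.ker lam))) ≤
      finrank F (LinearMap.ker ram ⊓ LinearMap.ker lam : Submodule F X) := by
    rw [← Submodule.finrank_map_subtype_eq]
    refine Submodule.finrank_mono ?_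
    rintro _ ⟨x, hx, rfl⟩
    exact ⟨hx, x.2⟩
  set R := LinearMap.range (ram.domRestrict (LinearMap.ker lam)) with hR
  have h5 := Subspace.finrank_add_finrank_dualAnnihilator_eq R
  let γ : B →ₗ[F] Dual F (ι → F) :=
    LinearMap.mk₂ F (fun b y => ∑ q, ev b q * y q)
      (fun a b w => by simp only [map_add, Pi.add_apply, add_mul, Finset.sum_add_distrib])
      (fun s a w => by simp only [map_smul, Pi.smul_apply, smul_eq_mul, mul_assoc, Finset.mul_sum])
      (fun a v w => by simp only [Pi.add_apply, mul_add, Finset.sum_add_distrib])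
      (fun s a w => by
        simp only [Pi.smul_apply, smul_eq_mul, Finset.mul_sum]
        exact Finset.sum_congr rfl fun _ _ => by ring)
  have hγ : Function.Injective γ := (injective_iff_map_eq_zero γ).2 fun b hb =>
    (injective_iff_map_eq_zero ev).1 hev b (funext fun q => by
      have : ∑ q', ev b q' * (Pi.single q 1 : ι → F) q' = 0 := LinearMap.congr_fun hb _
      simpa [Pi.single_apply] using this)
  have h6 : finrank F B ≤ finrank F R.dualAnnihilator := by
    rw [← LinearMap.finrank_range_of_inj hγ]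
    refine Submodule.finrank_mono ?_
    rintro _ ⟨b, rfl⟩
    refine (Submodule.mem_dualAnnihilator _).2 ?_
    rintro _ ⟨x, rfl⟩
    exact h x x.2 b
  rw [finrank_fintype_fun_eq_card] at h5
  omega

variable {θ : GQ →* Fˣ} {T : Finset ℕ} {g₀ : GQ}

/-- the lower bound from the unit theorem -/
theorem low [Finite F] [CharP F 2] (H : Hy θ T g₀) {c : GQ} (hc : IsConj c) {Q : Finset ℕ}
    {P : ℕ → Ideal (𝓞 Qb)} (hQ : ∀ q ∈ Q, Ov q (P q) ∧ ∀ g ∈ dec (P q), θ g = 1) :
    ((Q.card + 1 : ℕ) : Cardinal) ≤ Module.rank F (Hn θ (T ∪ Q) g₀) := by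
  classical
  choose! D₀ hD₀ using fun (l : ℕ) (hl : l.Prime) => Hy.ex_dec hl
  let D : ℕ → Set GQ := fun l => if l = 0 then {1, c} else if l ∈ Q then dec (P l) else D₀ l
  have q0 : 0 ∉ Q := fun k => Nat.not_prime_zero (hQ 0 k).1.1
  have hD : ∀ l ∈ insert 0 (T ∪ Q), IsDec l (D l) := by
    intro l hl
    by_cases l0 : l = 0
    · exact Or.inl ⟨l0, c, hc, if_pos l0⟩
    by_cases lQ : l ∈ Q
    · exact Or.inr ⟨(hQ l lQ).1.1, P l, (hQ l lQ).1.2.1, (hQ l lQ).1.2.2,
        (if_neg l0).trans (if_pos lQ)⟩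
    · have e : D l = D₀ l := (if_neg l0).trans (if_neg lQ)
      rw [e]
      exact hD₀ l (H.pr l ((Finset.mem_union.1 ((Finset.mem_insert.1 hl).resolve_left l0)
        ).resolve_right lQ))
  have hθ : ∀ l ∈ insert 0 Q, ∀ d ∈ D l, θ d = 1 := by
    intro l hl d hd
    rcases Finset.mem_insert.1 hl with rfl | lQ
    · have : d ∈ ({1, c} : Set GQ) := by simpa [D] using hd
      rcases this with rfl | rfl
      · exact map_one θ
      · exact sq_one (H56.conj_sq hc)
    · have l0 : l ≠ 0 := fun e => q0 (e ▸ lQ)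
      have e : D l = dec (P l) := (if_neg l0).trans (if_pos lQ)
      exact (hQ l lQ).2 d (by rwa [e] at hd)
  have h1 := (chrC F ⊤ (fun g => (θ g : F)) (insert 0 (T ∪ Q)) D isOpen_univ (by simp)
    (fun g _ h _ => by rw [map_mul, Units.val_mul])
    ⟨θ.ker, H.opn, fun σ hσ => by rw [show θ σ = 1 from hσ, Units.val_one]⟩
    (Finset.mem_insert_self _ _) (Finset.mem_insert_of_mem (Finset.mem_union_left _ H.h2)) hD
    fun l hl P' hP' g _ hg => by
      rw [H.unr l (fun k => hl (Finset.mem_insert_of_mem (Finset.mem_union_left _ k))) P' hP' g hg,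
        Units.val_one]).2 ⟨g₀, trivial, fun e => H.ne (Units.ext e)⟩
  let α : ((insert 0 Q : Finset ℕ) → F) →ₗ[F] Ft (fun g => (θ g : F)) (insert 0 (T ∪ Q)) D ⊤ :=
    { toFun := fun x => ⟨fun l g => if h : l ∈ insert 0 Q then θ g * x ⟨l, h⟩ else 0,
        fun l hl => funext fun g => dif_neg fun k => hl (by
          rcases Finset.mem_insert.1 k with rfl | k
          · exact Finset.mem_insert_self _ _
          · exact Finset.mem_insert_of_mem (Finset.mem_union_right _ k)),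
        fun l γ _ g => by
          by_cases h : l ∈ insert 0 Q
          · simp only [dif_pos h, map_mul, Units.val_mul, mul_assoc]
          · simp only [dif_neg h, mul_zero],
        fun l d hd g => by
          by_cases h : l ∈ insert 0 Q
          · simp only [dif_pos h, map_mul, hθ l h d hd, mul_one]
          · simp only [dif_neg h]⟩
      map_add' := fun x y => Subtype.ext (funext fun l => funext fun g => by
        by_cases h : l ∈ insert 0 Q
        · simp only [dif_pos h, Submodule.coe_add, Pi.add_apply, mul_add]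
        · simp only [dif_neg h, Submodule.coe_add, Pi.add_apply, add_zero])
      map_smul' := fun r x => Subtype.ext (funext fun l => funext fun g => by
        by_cases h : l ∈ insert 0 Q
        · simp only [dif_pos h, Submodule.coe_smul, Pi.smul_apply, smul_eq_mul, RingHom.id_apply]
          ring
        · simp only [dif_neg h, Submodule.coe_smul, Pi.smul_apply, smul_eq_mul, mul_zero]) }
  have hα : Function.Injective α := (injective_iff_map_eq_zero α).2 fun x hx => funext fun l => by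
    have : (if h : (l : ℕ) ∈ insert 0 Q then (θ 1 : F) * x ⟨l, h⟩ else 0) = 0 :=
      congrFun (congrFun (congrArg Subtype.val hx) l) 1
    rw [dif_pos l.2, map_one, Units.val_one, one_mul] at this
    exact this
  have h2 := α.rank_le_of_injective hα
  rw [rank_fun', Fintype.card_coe, Finset.card_insert_of_notMem q0] at h2
  let β : Zt (fun g => (θ g : F)) (insert 0 (T ∪ Q)) ⊤ →ₗ[F] F :=
    (LinearMap.proj g₀).domRestrict _
  have h3 := β.rank_range_add_rank_ker
  have h4 : Module.rank F (LinearMap.range β) ≤ 1 := by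
    simpa using Submodule.rank_le (LinearMap.range β)
  have h5 : Module.rank F (LinearMap.ker β) ≤ Module.rank F (Hn θ (T ∪ Q) g₀) := by
    rw [(Submodule.equivMapOfInjective _ (Submodule.subtype_injective _) (LinearMap.ker β)).rank_eq]
    refine Submodule.rank_mono ?_
    rintro _ ⟨x, hx, rfl⟩
    exact ⟨fun g h => x.2.1 g trivial h trivial, x.2.2.2.1, fun l hl P' hP' => x.2.2.2.2 l
      (fun k => (Finset.mem_insert.1 k).elim (fun e => Nat.not_prime_zero (e ▸ hP'.1)) hl) P' hP',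
      hx⟩
  have h6 : ((Q.card + 1 : ℕ) : Cardinal) + 1 ≤ Module.rank F (Hn θ (T ∪ Q) g₀) + 1 :=
    calc ((Q.card + 1 : ℕ) : Cardinal) + 1 ≤ _ := add_le_add h2 le_rfl
      _ ≤ _ := h1
      _ = _ := h3.symm
      _ ≤ 1 + Module.rank F (Hn θ (T ∪ Q) g₀) := add_le_add h4 h5
      _ = _ := add_comm _ _
  exact (Cardinal.add_le_add_iff_of_lt_aleph0 Cardinal.one_lt_aleph0).1 h6

/-- the functions which vanish on a set -/
def Zs (F : Type) [Field F] (s : Set GQ) : Submodule F (GQ → F) where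
  carrier := {b | ∀ g ∈ s, b g = 0}
  add_mem' {a b} ha hb g hg := by rw [Pi.add_apply, ha g hg, hb g hg, add_zero]
  zero_mem' _ _ := rfl
  smul_mem' r a ha g hg := by rw [Pi.smul_apply, ha g hg, smul_zero]

/-- the general comparison -/
theorem cmp [Finite F] [CharP F 2] (H : Hy θ T g₀) {c : GQ} (hc : IsConj c)
    (B : Submodule F (GQ → F)) (hB : B ≤ Hn θ T g₀) {κ : Type} [Fintype κ] (s : κ → GQ)
    (W : Submodule F (GQ → F))
    (hW : ∀ d ∈ Hn θ⁻¹ T g₀, (∀ k, d (s k) = 0) → d ∈ W) (hW' : W ≤ Hn θ⁻¹ T g₀)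
    (h : ∀ b ∈ B, ∀ d : GQ → F, Co θ⁻¹ d → Op d → (∀ k, d (s k) = 0) →
      (Bo θ (dec (PP 2)) b ∨ Bo θ⁻¹ (dec (PP 2)) d) ∧ b c * d c = 0) :
    finrank F B + 1 ≤ finrank F W + Fintype.card κ := by
  classical
  haveI := fin H hc
  haveI := fin H.inv hc
  haveI : Module.Finite F B := Submodule.finiteDimensional_of_le hB
  haveI : Module.Finite F W := Submodule.finiteDimensional_of_le hW'
  obtain ⟨Q, P, φ, k1, k2⟩ := det H.opn H.ne _ B le_rfl
    (fun b hb => ⟨(hB hb).1, (hB hb).2.1, (hB hb).2.2.2⟩) (insert 7 T)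
  have qT : ∀ q ∈ Q, q ∉ T := fun q hq k => (k1 q hq).1 (Finset.mem_insert_of_mem k)
  have q7 : ∀ q ∈ Q, q ≠ 7 := fun q hq e => (k1 q hq).1 (e ▸ Finset.mem_insert_self _ _)
  have q2 : ∀ q ∈ Q, q ≠ 2 := fun q hq e => qT q hq (e ▸ H.h2)
  choose! τ hτ using fun q (hq : q ∈ Q) => Tg.ex_gn (k1 q hq).2.1 (q2 q hq)
  have one : ∀ q ∈ Q, ∀ g ∈ dec (P q), θ g = 1 := fun q hq g hg => by
    obtain ⟨k, e, -⟩ := dec_val (b := 0) H.opn (fun _ _ => by simp) ⟨⊤, isOpen_univ, fun _ _ => rfl⟩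
      (k1 q hq).2.1 (k1 q hq).2.2.1 (H.unr q (qT q hq) _ (k1 q hq).2.1) (fun _ _ => rfl) hg
    rw [e, map_pow, (k1 q hq).2.2.2, one_pow]
  obtain ⟨f, hf⟩ := Module.le_rank_iff_exists_linearMap.1
    (low H.inv hc (Q := Q) (P := P) fun q hq => ⟨(k1 q hq).2.1, fun g hg => inv1.2 (one q hq g hg)⟩)
  let f' : (Fin (Q.card + 1) → F) →ₗ[F] (GQ → F) := (Hn θ⁻¹ (T ∪ Q) g₀).subtype ∘ₗ f
  have hf' : Function.Injective f' := fun a b e => hf (Subtype.ext e)
  let ram : (Fin (Q.card + 1) → F) →ₗ[F] (Q → F) := LinearMap.funLeft F F (fun q : Q => τ q) ∘ₗ f'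
  let lam : (Fin (Q.card + 1) → F) →ₗ[F] (κ → F) := LinearMap.funLeft F F s ∘ₗ f'
  let ev : B →ₗ[F] (Q → F) := LinearMap.funLeft F F (fun q : Q => φ q) ∘ₗ B.subtype
  have e := lin ram lam ev ((injective_iff_map_eq_zero ev).2 fun b hb =>
    Subtype.ext (k2 b b.2 fun q hq => congrFun hb ⟨q, hq⟩)) fun x hx b => by
      obtain ⟨d1, d2, d3, -⟩ := (f x).2
      obtain ⟨a1, a2⟩ := h b b.2 _ d1 d2 (congrFun hx)
      have := pair H (Q := Q) (P := P) (φ := φ) (τ := τ) (fun q hq => ⟨qT q hq, q7 q hq,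
        (k1 q hq).2.1, (k1 q hq).2.2.1, hτ q hq, (k1 q hq).2.2.2⟩) (hB b.2).1 (hB b.2).2.1
        (hB b.2).2.2.1 d1 d2 d3 a1 hc
      rw [a2, ← Finset.sum_coe_sort Q] at this
      exact this
  have e2 : finrank F (LinearMap.ker ram ⊓ LinearMap.ker lam : Submodule F _) ≤ finrank F W := by
    rw [(Submodule.equivMapOfInjective f' hf' _).finrank_eq]
    refine Submodule.finrank_mono ?_
    rintro _ ⟨x, ⟨x1, x2⟩, rfl⟩
    obtain ⟨d1, d2, d3, d4⟩ := (f x).2
    refine hW _ ⟨d1, d2, fun l hl P' hP' g hg => ?_, d4⟩ (congrFun x2)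
    by_cases lQ : l ∈ Q
    · obtain ⟨t, rfl⟩ := Tg.trans (k1 l lQ).2.1 hP'
      have k := Tg.inert_conj hg
      have u := H.inv.unr l hl _ (k1 l lQ).2.1
      have e3 := d1.conj1 t (u _ k)
      have t0 : (f x).1 (τ l) = 0 := congrFun x1 ⟨l, lQ⟩
      rw [Tg.mult (k1 l lQ).2.1 (q2 l lQ) (hτ l lQ) (a := (f x).1)
        (fun s hs t _ => d1.add1 (u s hs) t) (d2.imp fun U hU => ⟨hU.1, fun σ m _ => hU.2 σ m⟩) k,
        t0, mul_zero, mul_zero, show t * (t⁻¹ * g * t) * t⁻¹ = g by group] at e3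
      exact e3
    · exact d3 l (fun k => (Finset.mem_union.1 k).elim hl lQ) P' hP' g hg
  rw [finrank_fin_fun, Fintype.card_coe] at e
  omega

/-- trivial at two -/
def V2 (θ : GQ →* Fˣ) (T : Finset ℕ) (g₀ : GQ) : Submodule F (GQ → F) :=
  Hn θ T g₀ ⊓ Zs F (dec (PP 2))

/-- trivial at infinity -/
def Vi (θ : GQ →* Fˣ) (T : Finset ℕ) (g₀ c : GQ) : Submodule F (GQ → F) := Hn θ T g₀ ⊓ Zs F {c}

/-- trivial at two and at infinity -/
def Sh (θ : GQ →* Fˣ) (T : Finset ℕ) (g₀ c : GQ) : Submodule F (GQ → F) :=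
  V2 θ T g₀ ⊓ Zs F {c}

section

variable [Finite F] [CharP F 2] (H : Hy θ T g₀) {c : GQ} (hc : IsConj c)
include H hc

theorem cntA : finrank F (Hn θ T g₀) ≤ finrank F (Sh θ⁻¹ T g₀ c) + 1 := by
  obtain ⟨v, -, -, hv⟩ := loc2 H.inv.opn ⟨g₀, H.mem, H.inv.ne⟩
  have := cmp H hc _ le_rfl ![v, c] (Sh θ⁻¹ T g₀ c)
    (fun d hd h => ⟨⟨hd, (hv d hd.1 hd.2.1 (h 0)).zero H.mem H.inv.ne hd.2.2.2⟩,
      fun g hg => by rw [hg]; exact h 1⟩) (inf_le_left.trans inf_le_left)
    fun b _ d d1 d2 h => ⟨Or.inr (hv d d1 d2 (h 0)), by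
      rw [show d c = 0 from h 1, mul_zero]⟩
  rw [Fintype.card_fin] at this
  omega

theorem cntB : finrank F (Sh θ T g₀ c) + 1 ≤ finrank F (Hn θ⁻¹ T g₀) := by
  have := cmp H hc (Sh θ T g₀ c) (inf_le_left.trans inf_le_left) (κ := Empty) Empty.elim
    (Hn θ⁻¹ T g₀) (fun d hd _ => hd) le_rfl fun b hb d _ _ _ =>
      ⟨Or.inl (bo_of_zero hb.1.2), by rw [hb.2 c rfl, zero_mul]⟩
  simpa using this

theorem cntC : finrank F (Vi θ T g₀ c) ≤ finrank F (V2 θ⁻¹ T g₀) := by
  obtain ⟨v, -, -, hv⟩ := loc2 H.inv.opn ⟨g₀, H.mem, H.inv.ne⟩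
  have := cmp H hc (Vi θ T g₀ c) inf_le_left ![v] (V2 θ⁻¹ T g₀)
    (fun d hd h => ⟨hd, (hv d hd.1 hd.2.1 (h 0)).zero H.mem H.inv.ne hd.2.2.2⟩) inf_le_left
    fun b hb d d1 d2 h => ⟨Or.inr (hv d d1 d2 (h 0)), by rw [hb.2 c rfl, zero_mul]⟩
  rw [Fintype.card_fin] at this
  omega

end

end Vale.Agent.P022R.Cnt
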