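import Vale.Agent.P022R.Cnt2
import Vale.Agent.P022R.Fix

/-!
# P022R, the count in the matrix normalisation
-/

set_option linter.all false

noncomputable section

namespace Vale.Agent.P022R.Cnt

open NumberField Module
open Vale.Agent.P022 Vale.Agent.P022.H443
open Vale.Agent.P027M.S (Inert)
open Vale.Agent.P022D.W (dec)
open Vale.Agent.P022D.Loc2 (PP)
open Vale.Agent.P022E.GW
open Vale.Agent.P022F (Cc)
open Vale.Agent.P022F.Gen (Opn Unr)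
open Vale.Agent.P022R.Rel (Bs Tr)

variable {F : Type} [Field F]

/-- change of the normalisation -/
def Ph (χ ψ : GQ →* Fˣ) (g₀ : GQ) : (GQ → F) →ₗ[F] (GQ → F) where
  toFun b g := b g * ψ g - b g₀ * ψ g₀ / ((χ g₀ : F) - ψ g₀) * ((χ g : F) - ψ g)
  map_add' a b := funext fun g => by simp only [Pi.add_apply]; ring
  map_smul' r a := funext fun g => by
    simp only [Pi.smul_apply, smul_eq_mul, RingHom.id_apply]; ring

theorem ph_apply (χ ψ : GQ →* Fˣ) (g₀ : GQ) (b : GQ → F) (g : GQ) : Ph χ ψ g₀ b g =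
    b g * ψ g - b g₀ * ψ g₀ / ((χ g₀ : F) - ψ g₀) * ((χ g : F) - ψ g) := rfl

theorem rk_eq {V : Type} [AddCommGroup V] [Module F V] (Φ : V →ₗ[F] V) {H A A' : Submodule F V}
    (hi : ∀ x ∈ H, Φ x = 0 → x = 0) (hA : A ≤ H) (h1 : ∀ x ∈ A, Φ x ∈ A')
    (h2 : ∀ y ∈ A', ∃ x ∈ A, Φ x = y) :
    finrank F A' = finrank F A ∧ (Module.Finite F A → Module.Finite F A') := by
  have e : LinearMap.range (Φ.domRestrict A) = A' := by
    refine le_antisymm ?_ fun y hy => ?_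
    · rintro _ ⟨x, rfl⟩
      exact h1 x x.2
    · obtain ⟨x, hx, rfl⟩ := h2 y hy
      exact ⟨⟨x, hx⟩, rfl⟩
  rw [← e]
  exact ⟨LinearMap.finrank_range_of_inj ((injective_iff_map_eq_zero _).2 fun x hx =>
    Subtype.ext (hi x (hA x.2) hx)), fun _ => inferInstance⟩

variable {χ ψ θ : GQ →* Fˣ} {W : Finset ℕ} {g₀ g₁ c : GQ}

/-- the comparison of the two normalisations -/
theorem tr [CharP F 2] (B : Bs χ ψ W) (hθ : ∀ g, (θ g : F) = χ g * χ g)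
    (H : Hy θ (insert 2 W) g₁) (h0 : χ g₀ ≠ ψ g₀) (hc : IsConj c) {Hp Vp : Submodule F (GQ → F)}
    (hH : ∀ b, b ∈ Hp ↔ Cc χ ψ b ∧ Opn b ∧ Unr W b ∧ b g₀ = 0)
    (hV : ∀ b, b ∈ Vp ↔ b ∈ Hp ∧ Tr χ ψ (dec (PP 2)) b) :
    (finrank F Hp = finrank F (Hn θ (insert 2 W) g₁) ∧
      (Module.Finite F (Hn θ (insert 2 W) g₁) → Module.Finite F Hp)) ∧
    finrank F Vp = finrank F (V2 θ (insert 2 W) g₁) ∧
    finrank F (Hp ⊓ LinearMap.ker (LinearMap.proj c) : Submodule F (GQ → F)) =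
      finrank F (Vi θ (insert 2 W) g₁ c) ∧
    finrank F (Vp ⊓ LinearMap.ker (LinearMap.proj c) : Submodule F (GQ → F)) =
      finrank F (Sh θ (insert 2 W) g₁ c) := by
  have two : (2 : F) = 0 := CharTwo.two_eq_zero
  have n0 : (χ g₀ : F) - ψ g₀ ≠ 0 := fun e => h0 (Units.ext (sub_eq_zero.1 e))
  have n1 := ne1 H.ne
  have p1 : ∀ g, χ g = 1 → (χ g : F) = 1 ∧ (ψ g : F) = 1 ∧ (θ g : F) = 1 := fun g h => by
    have := B.inv g
    rw [hθ]
    rw [h, Units.val_one, one_mul] at this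
    rw [h, Units.val_one, one_mul]
    exact ⟨rfl, this, rfl⟩
  have ui : ∀ l, l ∉ insert 2 W → ∀ P : Ideal (𝓞 Qb), Ov l P → ∀ s, Inert P s → χ s = 1 :=
    fun l hl P hP s hs => Units.ext (B.unr l (fun k => hl (Finset.mem_insert_of_mem k))
      (fun e => hl (e ▸ Finset.mem_insert_self _ _)) P hP s hs)
  have c1 := p1 c (sq_one (H56.conj_sq hc))
  have vc : ∀ b, Ph χ ψ g₀ b c = b c := fun b => by
    rw [ph_apply, c1.1, c1.2.1]
    ring
  have back : ∀ (b : GQ → F) (m : F) (g : GQ),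
      Ph χ ψ g₀ b g = m * ((χ g : F) - ψ g) → b g =
        (m + b g₀ * ψ g₀ / ((χ g₀ : F) - ψ g₀)) * ((θ g : F) - 1) := fun b m g h => by
    rw [ph_apply] at h
    rw [hθ]
    linear_combination (χ g : F) * h -
      (b g + (m + b g₀ * ψ g₀ / ((χ g₀ : F) - ψ g₀))) * B.inv g
  have inj : ∀ b ∈ Hn θ (insert 2 W) g₁, Ph χ ψ g₀ b = 0 → b = 0 := fun b hb h =>
    funext fun g => Bo.zero (D := ⊤) ⟨_, fun g _ => back b 0 g (by rw [h, zero_mul]; rfl)⟩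
      trivial H.ne hb.2.2.2 g trivial
  have into : ∀ b ∈ Hn θ (insert 2 W) g₁, Ph χ ψ g₀ b ∈ Hp := by
    rintro b ⟨cb, ⟨U, oU, hU⟩, ub, -⟩
    refine (hH _).2 ⟨fun g h => ?_, ⟨U ⊓ χ.ker, oU.inter B.opn, fun u hu => ?_⟩,
      fun l hl l2 lW P a1 a2 s hs => ?_, ?_⟩
    · simp only [ph_apply, cb g h, hθ, map_mul, Units.val_mul]
      linear_combination (χ g * b h * ψ h : F) * B.inv g
    · rw [ph_apply, hU u hu.1, (p1 u hu.2).1, (p1 u hu.2).2.1]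
      ring
    · have k : l ∉ insert 2 W := fun k => (Finset.mem_insert.1 k).elim l2 lW
      have := p1 s (ui l k P ⟨hl, a1, a2⟩ s hs)
      rw [ph_apply, ub l k P ⟨hl, a1, a2⟩ s hs, this.1, this.2.1]
      ring
    · rw [ph_apply, div_mul_cancel₀ _ n0, sub_self]
  have onto : ∀ f ∈ Hp, ∃ b ∈ Hn θ (insert 2 W) g₁, Ph χ ψ g₀ b = f := by
    intro f hf
    obtain ⟨cf, ⟨U, oU, hU⟩, uf, f0⟩ := (hH f).1 hf
    obtain ⟨m, hm⟩ : ∃ m : F, m * ((θ g₁ : F) - 1) = f g₁ * χ g₁ := ⟨_, div_mul_cancel₀ _ n1⟩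
    refine ⟨fun g => f g * χ g - m * ((θ g : F) - 1), ⟨fun g h => ?_,
      ⟨U ⊓ χ.ker, oU.inter B.opn, fun u hu => ?_⟩, fun l hl P hP s hs => ?_, ?_⟩,
      funext fun g => ?_⟩
    · simp only [cf g h, hθ, map_mul, Units.val_mul]
      linear_combination (f g * χ g : F) * B.inv h
    · simp only [hU u hu.1, (p1 u hu.2).2.2]
      ring
    · simp only [uf l hP.1 (fun e => hl (e ▸ Finset.mem_insert_self _ _))
        (fun k => hl (Finset.mem_insert_of_mem k)) P hP.2.1 hP.2.2 s hs,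
        (p1 s (ui l hl P hP s hs)).2.2]
      ring
    · simp only [hm, sub_self]
    · have e : (f g₀ * χ g₀ - m * ((θ g₀ : F) - 1)) * ψ g₀ / ((χ g₀ : F) - ψ g₀) = -m := by
        rw [div_eq_iff n0, f0, hθ]
        linear_combination (-m * χ g₀ : F) * B.inv g₀
      rw [ph_apply, e, hθ]
      linear_combination (f g - m * χ g : F) * B.inv g
  have trv : ∀ b ∈ Hn θ (insert 2 W) g₁,
      (Tr χ ψ (dec (PP 2)) (Ph χ ψ g₀ b) ↔ b ∈ Zs F (dec (PP 2))) := by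
    intro b hb
    constructor
    · rintro ⟨m, hm⟩
      exact Bo.zero ⟨_, fun g hg => back b m g (by
        rw [hm g hg]; linear_combination (m * ψ g : F) * two)⟩ H.mem H.ne hb.2.2.2
    · intro h
      refine ⟨b g₀ * ψ g₀ / ((χ g₀ : F) - ψ g₀), fun g hg => ?_⟩
      rw [ph_apply, h g hg]
      linear_combination (-(b g₀ * ψ g₀ / ((χ g₀ : F) - ψ g₀)) * χ g : F) * two
  have zc : ∀ b : GQ → F, Ph χ ψ g₀ b ∈ LinearMap.ker (LinearMap.proj (R := F)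
      (φ := fun _ : GQ => F) c) ↔ b ∈ Zs F {c} := fun b => by
    rw [LinearMap.mem_ker, LinearMap.proj_apply, vc]
    exact ⟨fun h g hg => by rw [hg]; exact h, fun h => h c rfl⟩
  refine ⟨rk_eq _ inj le_rfl into onto, (rk_eq _ inj inf_le_left (fun b hb => ?_) fun f hf => ?_).1,
    (rk_eq _ inj inf_le_left (fun b hb => ?_) fun f hf => ?_).1,
    (rk_eq _ inj (inf_le_left.trans inf_le_left) (fun b hb => ?_) fun f hf => ?_).1⟩
  · exact (hV _).2 ⟨into b hb.1, (trv b hb.1).2 hb.2⟩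
  · obtain ⟨b, hb, rfl⟩ := onto f ((hV f).1 hf).1
    exact ⟨b, ⟨hb, (trv b hb).1 ((hV _).1 hf).2⟩, rfl⟩
  · exact ⟨into b hb.1, (zc b).2 hb.2⟩
  · obtain ⟨b, hb, rfl⟩ := onto f hf.1
    exact ⟨b, ⟨hb, (zc b).1 hf.2⟩, rfl⟩
  · exact ⟨(hV _).2 ⟨into b hb.1.1, (trv b hb.1.1).2 hb.1.2⟩, (zc b).2 hb.2⟩
  · obtain ⟨b, hb, rfl⟩ := onto f ((hV f).1 hf.1).1
    exact ⟨b, ⟨⟨hb, (trv b hb).1 ((hV _).1 hf.1).2⟩, (zc b).1 hf.2⟩, rfl⟩

theorem cntD [Finite F] [CharP F 2] {T : Finset ℕ} (H : Hy θ T g₁) (hc : IsConj c) :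
    finrank F (Hn θ T g₁) ≤ finrank F (V2 θ T g₁) + 1 := by
  haveI := fin H hc
  haveI : Module.Finite F (V2 θ T g₁) := Submodule.finiteDimensional_of_le inf_le_left
  obtain ⟨v, -, -, hv⟩ := loc2 H.opn ⟨g₁, H.mem, H.ne⟩
  let β : Hn θ T g₁ →ₗ[F] F := (LinearMap.proj v).domRestrict _
  have h1 := LinearMap.finrank_range_add_finrank_ker β
  have h2 : finrank F (LinearMap.range β) ≤ 1 := by
    simpa using Submodule.finrank_le (LinearMap.range β)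
  have h3 : finrank F (LinearMap.ker β) ≤ finrank F (V2 θ T g₁) := by
    rw [← Submodule.finrank_map_subtype_eq]
    refine Submodule.finrank_mono ?_
    rintro _ ⟨x, hx, rfl⟩
    exact ⟨x.2, (hv x x.2.1 x.2.2.1 hx).zero H.mem H.ne x.2.2.2.2⟩
  omega

/-- **the count** -/
theorem cntX [Finite F] [CharP F 2] (B : Bs χ ψ W)
    (reg : ∀ l ∈ W, l.Prime ∧ ∃ P, Ov l P ∧ ∃ g ∈ dec P, χ g ≠ ψ g)
    (h2 : ∃ g ∈ dec (PP 2), χ g ≠ ψ g) (h0 : χ g₀ ≠ ψ g₀) (hc : IsConj c)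
    {Hp Hm Vp Vm : Submodule F (GQ → F)}
    (hHp : ∀ b, b ∈ Hp ↔ Cc χ ψ b ∧ Opn b ∧ Unr W b ∧ b g₀ = 0)
    (hHm : ∀ b, b ∈ Hm ↔ Cc ψ χ b ∧ Opn b ∧ Unr W b ∧ b g₀ = 0)
    (hVp : ∀ b, b ∈ Vp ↔ b ∈ Hp ∧ Tr χ ψ (dec (PP 2)) b)
    (hVm : ∀ b, b ∈ Vm ↔ b ∈ Hm ∧ Tr ψ χ (dec (PP 2)) b) :
    FiniteDimensional F Hp ∧
    finrank F (Vm ⊓ LinearMap.ker (LinearMap.proj c) : Submodule F (GQ → F)) + 1 = finrank F Hp ∧
    finrank F (Hp ⊓ LinearMap.ker (LinearMap.proj c) : Submodule F (GQ → F)) ≤ finrank F Vm ∧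
    finrank F Hp ≤ finrank F Vp + 1 := by
  obtain ⟨g₁, m1, n1⟩ := h2
  have hθ : ∀ g, (((χ * χ) g : Fˣ) : F) = χ g * χ g := fun g => by
    rw [MonoidHom.mul_apply, Units.val_mul]
  have hne : ∀ g, χ g ≠ ψ g → (χ * χ) g ≠ 1 := fun g h e => h (Units.ext (by
    have e1 := hθ g
    rw [e, Units.val_one] at e1
    linear_combination (-(χ g : F)) * B.inv g - (ψ g : F) * e1))
  have H : Hy (χ * χ) (insert 2 W) g₁ := by
    refine ⟨Subgroup.isOpen_mono (fun g (k : χ g = 1) => by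
      rw [MonoidHom.mem_ker, MonoidHom.mul_apply, k, mul_one]) B.opn, fun l hl => ?_,
      Finset.mem_insert_self _ _, fun l hl P hP s hs => ?_, fun l hl l2 P hP => ?_, m1, hne _ n1⟩
    · rcases Finset.mem_insert.1 hl with rfl | k
      · exact Nat.prime_two
      · exact (reg l k).1
    · have : χ s = 1 := Units.ext (B.unr l (fun k => hl (Finset.mem_insert_of_mem k))
        (fun e => hl (e ▸ Finset.mem_insert_self _ _)) P hP s hs)
      rw [MonoidHom.mul_apply, this, mul_one]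
    · obtain ⟨-, P₀, o, hd⟩ := reg l ((Finset.mem_insert.1 hl).resolve_left l2)
      obtain ⟨g, hg, ne⟩ := Rel.reg_all o hP hd
      exact ⟨g, hg, hne g ne⟩
  have hθ' : ∀ g, (((χ * χ)⁻¹ g : Fˣ) : F) = ψ g * ψ g := fun g => by
    have e := mi (θ := χ * χ) g
    rw [hθ] at e
    have e1 := B.inv g
    linear_combination (ψ g * ψ g : F) * e -
      ((((χ * χ)⁻¹ g : Fˣ) : F) * (χ g * ψ g + 1)) * e1
  obtain ⟨⟨a1, a2⟩, a3, a4, -⟩ := tr B hθ H h0 hc hHp hVp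
  obtain ⟨-, b3, -, b5⟩ := tr B.symm hθ' H.inv h0.symm hc hHm hVm
  have k1 := cntA H hc
  have k2 := cntB H.inv hc
  have ii : (χ * χ)⁻¹⁻¹ = χ * χ := MonoidHom.ext fun g => by
    rw [MonoidHom.inv_apply, MonoidHom.inv_apply, inv_inv]
  rw [ii] at k2
  have k3 := cntC H hc
  have k4 := cntD H hc
  exact ⟨a2 (fin H hc), by omega, by omega, by omega⟩

/-- **row CNT** -/
theorem cnt : Fx.CNT := fun F _ _ _ χ ψ W g0 c B reg h2 h0 hc =>
  cntX B (fun l hl => by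
    obtain ⟨-, P, o, h⟩ := reg l hl
    exact ⟨o.1, P, o, h⟩) h2 h0 hc (fun _ => Iff.rfl) (fun _ => Iff.rfl) (fun _ => Iff.rfl)
    fun _ => Iff.rfl

end Vale.Agent.P022R.Cnt
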