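import Vale.Agent.P022R.Geo
import Vale.Agent.P022D.PA.Etl

/-!
# P022R, row DOM: solving the equations one variable at a time
-/

set_option linter.all false

noncomputable section

namespace Vale.Agent.P022R

open MvPolynomial

namespace DomP

variable {σ F : Type} [Field F]

/-- not a zero divisor modulo `E` -/
def Nz (E : Ideal (MvPolynomial σ F)) (u : MvPolynomial σ F) : Prop := ∀ p, u * p ∈ E → p ∈ E

theorem Nz.mul {E : Ideal (MvPolynomial σ F)} {u v : MvPolynomial σ F} (hu : Nz E u)
    (hv : Nz E v) : Nz E (u * v) := fun p hp => hv p (hu _ (by rwa [← mul_assoc]))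

/-- the inclusion of the unsolved variables -/
abbrev io (F : Type) [Field F] (Z : Finset σ) :
    MvPolynomial {s // s ∉ Z} F →ₐ[F] MvPolynomial σ F := rename Subtype.val

/-- fractions in the unsolved variables -/
def Fr (E : Ideal (MvPolynomial σ F)) (Z : Finset σ) : Subalgebra F (MvPolynomial σ F) where
  carrier := {p | ∃ b b' : MvPolynomial {s // s ∉ Z} F, Nz E (io F Z b') ∧
    io F Z b' * p - io F Z b ∈ E}
  mul_mem' := by
    rintro p q ⟨a, a', ha', ha⟩ ⟨b, b', hb', hb⟩
    refine ⟨a * b, a' * b', by rw [map_mul]; exact ha'.mul hb', ?_⟩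
    have : io F Z (a' * b') * (p * q) - io F Z (a * b) =
        (io F Z b' * q) * (io F Z a' * p - io F Z a) + io F Z a * (io F Z b' * q - io F Z b) := by
      rw [map_mul, map_mul]; ring
    rw [this]
    exact E.add_mem (E.mul_mem_left _ ha) (E.mul_mem_left _ hb)
  add_mem' := by
    rintro p q ⟨a, a', ha', ha⟩ ⟨b, b', hb', hb⟩
    refine ⟨b' * a + a' * b, a' * b', by rw [map_mul]; exact ha'.mul hb', ?_⟩
    have : io F Z (a' * b') * (p + q) - io F Z (b' * a + a' * b) =
        io F Z b' * (io F Z a' * p - io F Z a) + io F Z a' * (io F Z b' * q - io F Z b) := by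
      rw [map_add, map_mul, map_mul, map_mul]; ring
    rw [this]
    exact E.add_mem (E.mul_mem_left _ ha) (E.mul_mem_left _ hb)
  algebraMap_mem' c := by
    refine ⟨algebraMap F _ c, 1, fun p hp => by simpa using hp, ?_⟩
    rw [map_one, one_mul, AlgHom.commutes, sub_self]
    exact E.zero_mem

theorem mem_of_vars [DecidableEq σ] (A : Subalgebra F (MvPolynomial σ F)) (p : MvPolynomial σ F)
    (h : ∀ s ∈ p.vars, (X s : MvPolynomial σ F) ∈ A) : p ∈ A := by
  have h1 := mem_supported_vars p
  rw [supported_eq_adjoin_X] at h1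
  refine Algebra.adjoin_le ?_ h1
  rintro _ ⟨s, hs, rfl⟩
  exact h s hs

theorem all_fr [DecidableEq σ] (E : Ideal (MvPolynomial σ F)) (Z : Finset σ) (ρ : σ → ℕ)
    (h : ∀ z ∈ Z, ∃ u g : MvPolynomial σ F, u * X z - g ∈ E ∧ (∀ p, u * p ∈ E → p ∈ E) ∧
      (∀ s ∈ u.vars, s ∉ Z ∨ ρ s < ρ z) ∧ ∀ s ∈ g.vars, s ∉ Z ∨ ρ s < ρ z)
    (p : MvPolynomial σ F) : p ∈ Fr E Z := by
  have h0 : ∀ s, s ∉ Z → (X s : MvPolynomial σ F) ∈ Fr E Z := fun s hs => by
    refine ⟨X ⟨s, hs⟩, 1, fun p hp => by simpa using hp, ?_⟩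
    rw [map_one, one_mul, rename_X, sub_self]
    exact E.zero_mem
  have h1 : ∀ n s, (s ∉ Z ∨ ρ s < n) → (X s : MvPolynomial σ F) ∈ Fr E Z := by
    intro n
    induction n with
    | zero => exact fun s hs => h0 s (hs.resolve_right (Nat.not_lt_zero _))
    | succ n ih =>
      intro z hz
      by_cases hZ : z ∈ Z
      · have hn : ρ z ≤ n := Nat.lt_succ_iff.mp (hz.resolve_left (not_not.mpr hZ))
        obtain ⟨u, g, hug, hu, hvu, hvg⟩ := h z hZ
        obtain ⟨a, a', ha', ha⟩ := mem_of_vars (Fr E Z) u fun s hs =>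
          ih s ((hvu s hs).imp id fun t => lt_of_lt_of_le t hn)
        obtain ⟨b, b', hb', hb⟩ := mem_of_vars (Fr E Z) g fun s hs =>
          ih s ((hvg s hs).imp id fun t => lt_of_lt_of_le t hn)
        have hna : Nz E (io F Z a) := fun q hq => by
          refine hu q (ha' _ ?_)
          have : io F Z a' * (u * q) = q * (io F Z a' * u - io F Z a) + io F Z a * q := by ring
          rw [this]
          exact E.add_mem (E.mul_mem_left _ ha) hq
        refine ⟨a' * b, a * b', by rw [map_mul]; exact hna.mul hb', ?_⟩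
        have : io F Z (a * b') * X z - io F Z (a' * b) =
            (-(io F Z b' * X z)) * (io F Z a' * u - io F Z a) +
              (io F Z a' * io F Z b') * (u * X z - g) + io F Z a' * (io F Z b' * g - io F Z b) := by
          rw [map_mul, map_mul]; ring
        rw [this]
        exact E.add_mem (E.add_mem (E.mul_mem_left _ ha) (E.mul_mem_left _ hug))
          (E.mul_mem_left _ hb)
      · exact h0 z hZ
  exact mem_of_vars _ p fun s _ => h1 (ρ s + 1) s (Or.inr (Nat.lt_succ_self _))

/-- the dimension of a domain of finite type is at most the transcendence degree -/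
theorem dim_le (R : Type) [CommRing R] [IsDomain R] [Algebra F R] [Algebra.FiniteType F R]
    (n : ℕ) (h : Algebra.trdeg F R ≤ n) : ringKrullDim R ≤ (n : WithBot ℕ∞) := by
  obtain ⟨s, g, hi, hg⟩ := exists_integral_inj_algHom_of_fg F R
  have h1 : Algebra.trdeg F (MvPolynomial (Fin s) F) ≤ Algebra.trdeg F R :=
    trdeg_le_of_injective g hi
  rw [MvPolynomial.trdeg_of_isDomain] at h1
  have h2 : s ≤ n := by
    have := h1.trans h
    simpa using this
  letI := g.toRingHom.toAlgebra
  haveI : Algebra.IsIntegral (MvPolynomial (Fin s) F) R := ⟨hg⟩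
  rw [Vale.Agent.P022D.PA.EtlP.dim_eq (A := MvPolynomial (Fin s) F) (B := R) hi,
    MvPolynomial.ringKrullDim_of_isNoetherianRing, ringKrullDim_eq_zero_of_field, zero_add]
  simpa using h2

end DomP

open DomP in
/-- **row DOM** -/
theorem dom : DOM := by
  intro σ F L _ _ _ _ _ E Z ρ Φ hΦ hind hs
  have hall := all_fr E Z ρ hs
  have hio : ∀ b, Φ (io F Z b) = aeval (fun s : {s // s ∉ Z} => Φ (X s.1)) b := fun b => by
    have : Φ.comp (io F Z) = aeval (fun s : {s // s ∉ Z} => Φ (X s.1)) := by
      ext s; simp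
    exact DFunLike.congr_fun this b
  have hE : E = RingHom.ker Φ.toRingHom := by
    refine le_antisymm (fun p hp => hΦ p hp) fun p hp => ?_
    have hp0 : Φ p = 0 := hp
    obtain ⟨b, b', hb', hb⟩ := hall p
    have h1 := hΦ _ hb
    rw [map_sub, map_mul, hp0, mul_zero, zero_sub, neg_eq_zero, hio] at h1
    have h2 : b = 0 := hind (by rw [h1, map_zero])
    rw [h2, map_zero, sub_zero] at hb
    exact hb' p hb
  have hP : E.IsPrime := by rw [hE]; exact RingHom.ker_isPrime _
  refine ⟨hP, dim_le (F := F) _ _ ?_⟩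
  let S : Set (MvPolynomial σ F ⧸ E) :=
    Set.range fun s : {s // s ∉ Z} => Ideal.Quotient.mk E (X s.1)
  have hmem : ∀ b, Ideal.Quotient.mk E (io F Z b) ∈ Algebra.adjoin F S := fun b => by
    induction b using MvPolynomial.induction_on with
    | C c =>
      rw [rename_C]
      exact Subalgebra.algebraMap_mem _ c
    | add p q hp hq => rw [map_add, map_add]; exact add_mem hp hq
    | mul_X p s hp =>
      rw [map_mul, map_mul, rename_X]
      exact mul_mem hp (Algebra.subset_adjoin ⟨s, rfl⟩)
  haveI : Algebra.IsAlgebraic (Algebra.adjoin F S) (MvPolynomial σ F ⧸ E) := by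
    refine ⟨fun x => ?_⟩
    obtain ⟨p, rfl⟩ := Ideal.Quotient.mk_surjective x
    obtain ⟨b, b', hb', hb⟩ := hall p
    have hne : (⟨_, hmem b'⟩ : Algebra.adjoin F S) ≠ 0 := fun h0 => by
      have h1 : Ideal.Quotient.mk E (io F Z b') = 0 := congrArg Subtype.val h0
      rw [Ideal.Quotient.eq_zero_iff_mem] at h1
      exact hP.ne_top ((Ideal.eq_top_iff_one E).mpr (hb' 1 (by rwa [mul_one])))
    refine ⟨Polynomial.C ⟨_, hmem b'⟩ * Polynomial.X - Polynomial.C ⟨_, hmem b⟩, fun h0 => ?_, ?_⟩
    · have := congrArg (fun q => Polynomial.coeff q 1) h0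
      simp only [Polynomial.coeff_sub, Polynomial.coeff_C_mul, Polynomial.coeff_X_one, mul_one,
        Polynomial.coeff_C_succ, sub_zero, Polynomial.coeff_zero] at this
      exact hne this
    · rw [map_sub, map_mul, Polynomial.aeval_C, Polynomial.aeval_C, Polynomial.aeval_X]
      have := (Ideal.Quotient.eq_zero_iff_mem).mpr hb
      rw [map_sub, map_mul] at this
      exact this
  refine (Algebra.IsAlgebraic.trdeg_le_cardinalMk F S).trans (Cardinal.mk_range_le.trans ?_)
  rw [Cardinal.mk_fintype, Fintype.card_subtype_compl, Fintype.card_coe]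

end Vale.Agent.P022R
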