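import Vale.Agent.P022R.Geo

/-!
# P022R, row EMB: the ring of the initial forms embeds in the framed ring
-/

set_option linter.all false

open MvPolynomial

noncomputable section

namespace Vale.Agent.P022R

namespace EmbP

variable {I J : Type} [Fintype I] [Fintype J] [DecidableEq I] [DecidableEq J]

theorem split_inl {A : Type} [CommRing A] (q : MvPolynomial (I ⊕ J) A) :
    ∃ (q0 : MvPolynomial J A) (c : I → MvPolynomial (I ⊕ J) A),
      q = rename Sum.inr q0 + ∑ k, X (Sum.inl k) * c k := by
  induction q using MvPolynomial.induction_on with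
  | C a => exact ⟨C a, 0, by simp⟩
  | add p q hp hq =>
    obtain ⟨p0, c, rfl⟩ := hp
    obtain ⟨q0, d, rfl⟩ := hq
    refine ⟨p0 + q0, c + d, ?_⟩
    simp only [map_add, Pi.add_apply, mul_add, Finset.sum_add_distrib]
    ring
  | mul_X p v hp =>
    rcases v with k | j
    · refine ⟨0, Pi.single k p, ?_⟩
      rw [map_zero, zero_add, Finset.sum_eq_single k (fun b _ hb => by simp [Pi.single_eq_of_ne hb])
        (fun hb => absurd (Finset.mem_univ k) hb), Pi.single_eq_same, mul_comm]
    · obtain ⟨p0, c, rfl⟩ := hp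
      refine ⟨p0 * X j, fun k => c k * X (Sum.inr j), ?_⟩
      rw [map_mul, rename_X, add_mul, Finset.sum_mul]
      simp only [mul_assoc]

theorem split_inr {A : Type} [CommRing A] (q : MvPolynomial (I ⊕ J) A) :
    ∃ (q0 : MvPolynomial I A) (c : J → MvPolynomial (I ⊕ J) A),
      q = rename Sum.inl q0 + ∑ k, X (Sum.inr k) * c k := by
  induction q using MvPolynomial.induction_on with
  | C a => exact ⟨C a, 0, by simp⟩
  | add p q hp hq =>
    obtain ⟨p0, c, rfl⟩ := hp
    obtain ⟨q0, d, rfl⟩ := hq
    refine ⟨p0 + q0, c + d, ?_⟩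
    simp only [map_add, Pi.add_apply, mul_add, Finset.sum_add_distrib]
    ring
  | mul_X p v hp =>
    rcases v with j | k
    · obtain ⟨p0, c, rfl⟩ := hp
      refine ⟨p0 * X j, fun k => c k * X (Sum.inl j), ?_⟩
      rw [map_mul, rename_X, add_mul, Finset.sum_mul]
      simp only [mul_assoc]
    · refine ⟨0, Pi.single k p, ?_⟩
      rw [map_zero, zero_add, Finset.sum_eq_single k (fun b _ hb => by simp [Pi.single_eq_of_ne hb])
        (fun hb => absurd (Finset.mem_univ k) hb), Pi.single_eq_same, mul_comm]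

variable (K F : Type) [Field F]

theorem toF_a : toF K F (va K F : MvPolynomial (Vr I J K) F) = fa K F := by simp [toF, va]

theorem toF_Y (i : I) (j : J) : toF K F (vY K F i j) = fY K F i j := by simp [toF, vY]

theorem toF_x (i : I) (j : J) : toF K F (vx K F i j) = fγ K F i * fβ K F j := by simp [toF, vx]

theorem toF_last (s : Sh I J) :
    toF K F (s.eqn K F (Sum.inr (Sum.inr (Sum.inr ())))) = s.frm K F (Sum.inr (Sum.inr ())) := by
  simp only [Sh.eqn, Sh.frm, map_add, map_pow, toF_a]
  split_ifs
  · rw [toF_x]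
  · rw [map_sum, Finset.mul_sum]
    congr 1
    refine Finset.sum_congr rfl fun j _ => ?_
    rw [map_mul, toF_Y, toF_x]; ring

theorem toF_eqn (s : Sh I J) (e : Eq I J) :
    toF K F (s.eqn K F e) ∈ Ideal.span (Set.range (s.frm K F)) := by
  rcases e with ⟨i, k, j, l⟩ | ⟨i, k⟩ | ⟨j, l⟩ | ⟨⟨⟩⟩
  · have : toF K F (s.eqn K F (Sum.inl (i, k, j, l))) = 0 := by
      simp only [Sh.eqn, map_sub, map_mul, toF_x]; ring
    rw [this]; exact Ideal.zero_mem _
  · have : toF K F (s.eqn K F (Sum.inr (Sum.inl (i, k)))) = fγ K F k * s.frm K F (Sum.inl i) := by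
      simp only [Sh.eqn, Sh.frm]
      split_ifs
      · rw [map_sum, Finset.mul_sum]
        refine Finset.sum_congr rfl fun j _ => ?_
        rw [map_mul, toF_Y, toF_x]; ring
      · rw [map_zero, mul_zero]
    rw [this]
    exact Ideal.mul_mem_left _ _ (Ideal.subset_span ⟨_, rfl⟩)
  · have : toF K F (s.eqn K F (Sum.inr (Sum.inr (Sum.inl (j, l)))))
        = fβ K F l * s.frm K F (Sum.inr (Sum.inl j)) := by
      simp only [Sh.eqn, Sh.frm]
      split_ifs
      · rw [map_sum, Finset.mul_sum]
        refine Finset.sum_congr rfl fun i _ => ?_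
        rw [map_mul, toF_Y, toF_x]; ring
      · rw [map_zero, mul_zero]
    rw [this]
    exact Ideal.mul_mem_left _ _ (Ideal.subset_span ⟨_, rfl⟩)
  · rw [toF_last]
    exact Ideal.subset_span ⟨_, rfl⟩

/-- the framed ring over a quotient of the ring of the initial forms -/
def psi {A : Type} [CommRing A] [Algebra F A] (μ : MvPolynomial (Vr I J K) F →ₐ[F] A) :
    MvPolynomial (Vf I J K) F →ₐ[F] MvPolynomial (I ⊕ J) A :=
  aeval (Sum.elim (fun _ => C (μ (va K F))) (Sum.elim (fun p => C (μ (vY K F p.1 p.2)))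
    (Sum.elim (fun v => X v) fun k => C (μ (X (Sum.inr (Sum.inr (Sum.inr k))))))))

end EmbP

open EmbP in
theorem emb (h : SEC) : EMB := by
  intro I J K F _ _ _ _ _ s p
  refine ⟨fun hp => ?_, fun hp => ?_⟩
  swap
  · have : Ideal.span (Set.range (s.eqn K F))
        ≤ (Ideal.span (Set.range (s.frm K F))).comap (toF K F) := by
      rw [Ideal.span_le]
      rintro _ ⟨e, rfl⟩
      exact toF_eqn K F s e
    exact this hp
  set E := Ideal.span (Set.range (s.eqn K F)) with hE
  let μ : MvPolynomial (Vr I J K) F →ₐ[F] (MvPolynomial (Vr I J K) F ⧸ E) := Ideal.Quotient.mkₐ F E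
  have hμ : ∀ e, μ (s.eqn K F e) = 0 := fun e =>
    Ideal.Quotient.eq_zero_iff_mem.2 (Ideal.subset_span ⟨e, rfl⟩)
  obtain ⟨ev, e1, e2, e3, e4⟩ := h I J _ (fun i j => μ (vx K F i j)) (fun i k j l => by
    have := hμ (Sum.inl (i, k, j, l))
    simp only [Sh.eqn, map_sub, map_mul] at this
    exact sub_eq_zero.1 this)
  have eC : ∀ a q, ev (C a * q) = a * ev q := fun a q => by
    rw [C_mul', map_smul, smul_eq_mul]
  have pγ : ∀ i, psi K F μ (fγ K F i) = X (Sum.inl i) := fun i => by simp [psi, fγ]
  have pβ : ∀ j, psi K F μ (fβ K F j) = X (Sum.inr j) := fun j => by simp [psi, fβ]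
  have pY : ∀ i j, psi K F μ (fY K F i j) = C (μ (vY K F i j)) := fun i j => by simp [psi, fY]
  have c1 : ∀ (r : MvPolynomial (Vr I J K) F) q, ev (psi K F μ (toF K F r) * q) = μ r * ev q := by
    intro r
    induction r using MvPolynomial.induction_on with
    | C a =>
      intro q
      rw [← algebraMap_eq, AlgHom.commutes, AlgHom.commutes, AlgHom.commutes,
        MvPolynomial.algebraMap_apply, eC]
    | add r t hr ht => intro q; simp only [map_add, add_mul, hr, ht]
    | mul_X r v hr =>
      intro q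
      rw [map_mul (toF K F), map_mul (psi K F μ), map_mul μ, mul_assoc, hr, mul_assoc]
      congr 1
      rcases v with ⟨⟨⟩⟩ | ⟨i, j⟩ | ⟨i, j⟩ | k
      · have : psi K F μ (toF K F (X (Sum.inl ()))) = C (μ (X (Sum.inl ()))) := by
          simp [psi, toF, fa, va]
        rw [this, eC]
      · have : psi K F μ (toF K F (X (Sum.inr (Sum.inl (i, j)))))
            = C (μ (X (Sum.inr (Sum.inl (i, j))))) := by
          simp [psi, toF, fY, vY]
        rw [this, eC]
      · have : psi K F μ (toF K F (X (Sum.inr (Sum.inr (Sum.inl (i, j))))))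
            = X (Sum.inl i) * X (Sum.inr j) := by
          simp [psi, toF, fγ, fβ]
        rw [this, e2]
        rfl
      · have : psi K F μ (toF K F (X (Sum.inr (Sum.inr (Sum.inr k)))))
            = C (μ (X (Sum.inr (Sum.inr (Sum.inr k))))) := by
          simp [psi, toF]
        rw [this, eC]
  have c2 : ∀ e q, ev (psi K F μ (s.frm K F e) * q) = 0 := by
    intro e q
    rcases e with i | j | ⟨⟨⟩⟩
    · obtain ⟨q0, c, rfl⟩ := split_inl q
      rw [mul_add, map_add, Finset.mul_sum, map_sum]
      have a1 : ev (psi K F μ (s.frm K F (Sum.inl i)) * rename Sum.inr q0) = 0 := by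
        simp only [Sh.frm]
        split_ifs
        · rw [map_sum, Finset.sum_mul, map_sum]
          refine Finset.sum_eq_zero fun j _ => ?_
          rw [map_mul (psi K F μ), pY, pβ, mul_assoc, eC, e4, mul_zero]
        · rw [map_zero, zero_mul, map_zero]
      rw [a1, zero_add]
      refine Finset.sum_eq_zero fun k _ => ?_
      have a2 : psi K F μ (s.frm K F (Sum.inl i)) * (X (Sum.inl k) * c k)
          = psi K F μ (toF K F (s.eqn K F (Sum.inr (Sum.inl (i, k))))) * c k := by
        simp only [Sh.eqn, Sh.frm]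
        split_ifs
        · rw [map_sum, map_sum, map_sum, Finset.sum_mul, Finset.sum_mul]
          refine Finset.sum_congr rfl fun j _ => ?_
          simp only [map_mul, toF_Y, toF_x, pγ, pβ]
          ring
        · simp only [map_zero, zero_mul]
      rw [a2, c1, hμ, zero_mul]
    · obtain ⟨q0, c, rfl⟩ := split_inr q
      rw [mul_add, map_add, Finset.mul_sum, map_sum]
      have a1 : ev (psi K F μ (s.frm K F (Sum.inr (Sum.inl j))) * rename Sum.inl q0) = 0 := by
        simp only [Sh.frm]
        split_ifs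
        · rw [map_sum, Finset.sum_mul, map_sum]
          refine Finset.sum_eq_zero fun i _ => ?_
          rw [map_mul (psi K F μ), pY, pγ, mul_assoc, eC, e3, mul_zero]
        · rw [map_zero, zero_mul, map_zero]
      rw [a1, zero_add]
      refine Finset.sum_eq_zero fun l _ => ?_
      have a2 : psi K F μ (s.frm K F (Sum.inr (Sum.inl j))) * (X (Sum.inr l) * c l)
          = psi K F μ (toF K F (s.eqn K F (Sum.inr (Sum.inr (Sum.inl (j, l)))))) * c l := by
        simp only [Sh.eqn, Sh.frm]
        split_ifs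
        · rw [map_sum, map_sum, map_sum, Finset.sum_mul, Finset.sum_mul]
          refine Finset.sum_congr rfl fun i _ => ?_
          simp only [map_mul, toF_Y, toF_x, pγ, pβ]
          ring
        · simp only [map_zero, zero_mul]
      rw [a2, c1, hμ, zero_mul]
    · rw [← toF_last, c1, hμ, zero_mul]
  obtain ⟨c, hc⟩ := Ideal.mem_span_range_iff_exists_fun.1 hp
  have h0 : μ p = 0 := by
    have h1 := c1 p 1
    rw [e1, mul_one, mul_one, ← hc, map_sum, map_sum] at h1
    rw [← h1]
    refine Finset.sum_eq_zero fun e _ => ?_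
    rw [map_mul (psi K F μ), mul_comm, c2]
  exact Ideal.Quotient.eq_zero_iff_mem.1 h0

end Vale.Agent.P022R
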