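import Vale.Agent.P022D.As.End
import Vale.Agent.P022D.As.Dual
import Vale.Agent.P022D.As.Dgd
import Vale.Agent.P022D.As.Grp
import Vale.Agent.P022D.As.Cov

/-!
# P022R: the end game when the ring of relations is a domain modulo the uniformiser
-/

set_option linter.all false

open IsLocalRing Filter

noncomputable section

namespace Vale.Agent.P022R.End

open Vale.Agent.P022D Vale.Agent.P022D.As Vale.Agent.P022D.PA Vale.Agent.P022D.As.EA
  Vale.Agent.P022D.As.EB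
open Vale.Agent.P022D.Core (PS io y1 Coef)

/-- the relations with given leading parts generate the only large prime -/
def GR {O σ ρ : Type} [CommRing O] (ϖ : O) (r : ℕ) (g : ρ → PS O σ) (H : ρ → Ideal (PS O σ)) :
    Prop :=
  ∀ f : ρ → PS O σ, (∀ j, f j - g j ∈ H j) → ∀ η : Ideal (PS O σ), η.IsPrime → (∀ j, f j ∈ η) →
    MvPowerSeries.C ϖ ∈ η → ((2 * r + 2 : ℕ) : WithBot ℕ∞) ≤ ringKrullDim (PS O σ ⧸ η) →
    η ≤ Ideal.span (Set.range f) ⊔ Ideal.span {MvPowerSeries.C ϖ}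

/-- saturated ideals -/
theorem le_of_sat {P : Type} [CommRing P] [IsLocalRing P] [IsNoetherianRing P] {I J : Ideal P}
    {π : P} (hπ : π ∈ maximalIdeal P) (h1 : I ≤ J) (h2 : J ≤ I ⊔ Ideal.span {π})
    (h3 : ∀ g, π * g ∈ J → g ∈ J) : J ≤ I := fun t ht => by
  have key : ∀ k : ℕ, ∃ g ∈ J, t - π ^ k * g ∈ I := fun k => by
    induction k with
    | zero => exact ⟨t, ht, by simp⟩
    | succ k ih =>
      obtain ⟨g, g1, g2⟩ := ih
      obtain ⟨a, ha, w, hw, e⟩ := Submodule.mem_sup.1 (h2 g1)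
      obtain ⟨c, rfl⟩ := Ideal.mem_span_singleton'.1 hw
      refine ⟨c, h3 c ?_, ?_⟩
      · have := J.sub_mem g1 (h1 ha)
        rwa [← e, add_sub_cancel_left, mul_comm] at this
      · have := I.add_mem g2 (I.mul_mem_left (π ^ k) ha)
        rwa [← e, show t - π ^ k * (a + c * π) + π ^ k * a = t - π ^ (k + 1) * c by ring] at this
  refine mem_of_sup I t fun k => ?_
  obtain ⟨g, -, g2⟩ := key k
  exact Submodule.mem_sup.2 ⟨_, g2, π ^ k * g,
    Ideal.mul_mem_right _ _ (Ideal.pow_mem_pow hπ k), sub_add_cancel _ _⟩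

/-- the patching data -/
structure PD {O σ ρ : Type} [CommRing O] [IsLocalRing O] [Fintype σ] {r : ℕ} (ϖ : O)
    (x : PS O (σ ⊕ Fin r) →+* O) (u : ℕ → Fin r ⊕ Fin r → PS O (σ ⊕ Fin r))
    (α β : ℕ → Fin r → PS O σ) (D : ℕ → PS O (σ ⊕ Fin r)) (f : ℕ → ρ → PS O σ)
    (Yb Wc : ℕ → Type) (G : Type)
    [∀ n, AddCommGroup (Yb n)] [∀ n, Module (PS O (σ ⊕ Fin r)) (Yb n)]
    [∀ n, AddCommGroup (Wc n)] [∀ n, Module (PS O (σ ⊕ Fin r)) (Wc n)]
    [AddCommGroup G] [Module (PS O (σ ⊕ Fin r)) G]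
    (q : ∀ n, Yb n →ₗ[PS O (σ ⊕ Fin r)] Wc n) : Prop where
  xC : ∀ o, x (MvPowerSeries.C o) = o
  xm : ∀ z ∈ maximalIdeal (PS O (σ ⊕ Fin r)), x z ∈ maximalIdeal O
  xu : ∀ n s, x (u n s) = 0
  u1 : ∀ n i, u n (Sum.inl i) = y1 O σ i
  xα : ∀ n i, x (io O σ r (α n i)) = 0
  xβ : ∀ n i, x (io O σ r (β n i)) = 0
  xD : ∀ n, IsUnit (x (D n))
  xf : ∀ n j, x (io O σ r (f n j)) = 0
  rel : ∀ n i (w : Wc n),
    (y1 O σ i ^ 2 - io O σ r (α n i) * y1 O σ i + io O σ r (β n i)) • w = 0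
  relf : ∀ n j (w : Wc n), io O σ r (f n j) • w = 0
  dis : ∀ n, Dis (PS O (σ ⊕ Fin r)) (Yb n)
  disC : ∀ n, Dis (PS O (σ ⊕ Fin r)) (Wc n)
  dis0 : Dis (PS O (σ ⊕ Fin r)) G
  sb : ∃ b, ∀ n, Sb (PS O (σ ⊕ Fin r)) b (Yb n)
  sb0 : ∃ b, Sb (PS O (σ ⊕ Fin r)) b G
  nil : ∀ n s (w : Yb n), u n s ^ 2 ^ n • w = 0
  free : ∀ n (w : Yb n), (∀ s, u n s • w = 0) →
    ∃ w' : Yb n, w = (∏ s, u n s ^ (2 ^ n - 1)) • w'
  fib : ∀ n, Fib (u n) (D n) (Yb n) G
  qinj : ∀ n, Function.Injective (q n)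
  qran : ∀ n w, w ∈ LinearMap.range (q n) ↔ (MvPowerSeries.C ϖ : PS O (σ ⊕ Fin r)) • w = 0
  piC : ∀ n (w : Wc n), (MvPowerSeries.C ϖ : PS O (σ ⊕ Fin r)) ^ (n + 1) • w = 0
  flat : ∀ n (w : Wc n), (MvPowerSeries.C ϖ : PS O (σ ⊕ Fin r)) • w = 0 →
    ∃ w' : Wc n, w = (MvPowerSeries.C ϖ : PS O (σ ⊕ Fin r)) ^ n • w'
  grp : ∀ n s (w : Wc n), (1 + u n s) ^ 2 ^ n • w = w
  big : ∃ 𝔭 : Ideal (PS O (σ ⊕ Fin r)), 𝔭.IsPrime ∧
    (2 : WithBot ℕ∞) ≤ ringKrullDim (PS O (σ ⊕ Fin r) ⧸ 𝔭) ∧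
    ∀ z : PS O (σ ⊕ Fin r), (∀ w : G, z • w = 0) → z ∈ 𝔭

theorem endA {O σ ρ : Type} [CommRing O] [IsDomain O] [IsDiscreteValuationRing O] [Coef O]
    [Fintype σ] {r : ℕ} {ϖ : O} {x : PS O (σ ⊕ Fin r) →+* O}
    {u : ℕ → Fin r ⊕ Fin r → PS O (σ ⊕ Fin r)} {α β : ℕ → Fin r → PS O σ}
    {D : ℕ → PS O (σ ⊕ Fin r)} {f : ℕ → ρ → PS O σ} {Yb Wc : ℕ → Type} {G : Type}
    [∀ n, AddCommGroup (Yb n)] [∀ n, Module (PS O (σ ⊕ Fin r)) (Yb n)]
    [∀ n, AddCommGroup (Wc n)] [∀ n, Module (PS O (σ ⊕ Fin r)) (Wc n)]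
    [AddCommGroup G] [Module (PS O (σ ⊕ Fin r)) G]
    {q : ∀ n, Yb n →ₗ[PS O (σ ⊕ Fin r)] Wc n} (hϖ : Irreducible ϖ)
    (H : PD ϖ x u α β D f Yb Wc G q) {g : ρ → PS O σ} {K : ρ → Ideal (PS O σ)}
    (hf : ∀ n j, f n j - g j ∈ K j) (hG : GR ϖ r g K) (j : ℕ) :
    ∃ j0 n : ℕ, j0 ≤ n ∧ ∀ t : PS O (σ ⊕ Fin r), (∀ w : Wc n,
      (MvPowerSeries.C ϖ : PS O (σ ⊕ Fin r)) ^ j0 • w = 0 → (∀ s, u n s • w = 0) →
        (D n * t) • w = 0) → ϖ ^ j ∣ x t := by
  classical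
  haveI := base O σ
  haveI := base O (σ ⊕ Fin r)
  letI : Algebra (PS O σ) (PS O (σ ⊕ Fin r)) := (io O σ r).toAlgebra
  let U : Ultrafilter ℕ := Ultrafilter.of atTop
  have hU : (U : Filter ℕ) ≤ atTop := Ultrafilter.of_le _
  have hio : ∀ z ∈ maximalIdeal (PS O σ), io O σ r z ∈ maximalIdeal (PS O (σ ⊕ Fin r)) :=
    fun z hz h => hz (io_unit h)
  have nu : ∀ z, x z ∈ maximalIdeal O → z ∈ maximalIdeal (PS O (σ ⊕ Fin r)) := fun z hz h =>
    hz (h.map x)
  have nu0 : ∀ z, x z = 0 → z ∈ maximalIdeal (PS O (σ ⊕ Fin r)) := fun z hz =>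
    nu z (hz ▸ zero_mem _)
  have hϖm : (MvPowerSeries.C ϖ : PS O (σ ⊕ Fin r)) ∈ maximalIdeal _ :=
    nu _ (by rw [H.xC]; exact hϖ.not_isUnit)
  have hpi : ∀ n (w : Yb n), (MvPowerSeries.C ϖ : PS O (σ ⊕ Fin r)) • w = 0 := fun n w =>
    H.qinj n (by rw [map_smul, map_zero]; exact (H.qran n _).1 ⟨w, rfl⟩)
  choose ya hya using fun s => lim _ U fun n => u n s
  choose αa hα using fun i => lim _ U fun n => α n i
  choose βa hβ using fun i => lim _ U fun n => β n i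
  choose fa hfa using fun i => lim _ U fun n => f n i
  obtain ⟨d, hD⟩ := lim _ U D
  have hd : d ∉ maximalIdeal (PS O (σ ⊕ Fin r)) :=
    (limi _ U _ _ _ hD).2 1 (Eventually.of_forall fun n h => by
      rw [pow_one, sup_idem] at h
      exact H.xm _ h (H.xD n))
  have ev : ∀ j : ℕ, ∀ᶠ n in (U : Filter ℕ), j + 1 ≤ 2 ^ n := fun j =>
    hU ((eventually_ge_atTop j).mono fun n hn =>
      Nat.succ_le_of_lt (lt_of_le_of_lt hn Nat.lt_two_pow_self))
  have hM := dgd dgen dtor _ (U : Filter ℕ) _ u D Yb G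
    ⟨H.dis, H.dis0, H.sb, H.sb0,
      fun j => (ev j).mono fun n hn => ds_of _ hn (H.nil n) (H.free n), H.fib⟩
  obtain ⟨b, hb⟩ := H.sb
  have hbC : ∀ n, Sb (PS O (σ ⊕ Fin r)) b (Wc n) := fun n => by
    obtain ⟨s, s1, s2⟩ := hb n
    refine ⟨fun j => q n (s j), fun j u hu => by rw [← map_smul, s1 j u hu, map_zero],
      fun w hw => ?_⟩
    obtain ⟨v, rfl⟩ := (H.qran n w).2 (hw _ hϖm)
    have := Submodule.mem_map_of_mem (f := q n)
      (s2 v fun u hu => H.qinj n (by rw [map_smul, hw u hu, map_zero]))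
    rwa [Submodule.map_span, ← Set.range_comp] at this
  obtain ⟨e2, he2⟩ : ϖ ∣ 2 := by
    rw [← Ideal.mem_span_singleton, ← hϖ.maximalIdeal_eq]
    exact Coef.two
  have hC := dgd dgen dtor _ (U : Filter ℕ) _
    (fun n (o : Option (Fin r ⊕ Fin r)) => o.elim (MvPowerSeries.C ϖ) (u n)) D Wc G
    ⟨H.disC, H.dis0, ⟨b, hbC⟩, H.sb0, fun j => by
      obtain ⟨n₀, hn₀⟩ := grp (PS O (σ ⊕ Fin r)) (Fin r ⊕ Fin r) (MvPowerSeries.C ϖ)
        (MvPowerSeries.C e2) (by rw [← map_mul, ← he2, map_ofNat]) j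
      refine hU ((eventually_ge_atTop n₀).mono fun n hn => hn₀ n hn (u n) (Wc n) (H.piC n)
        (H.flat n) (H.grp n) fun w h1 h2 => ?_)
      obtain ⟨v, rfl⟩ := (H.qran n w).2 h1
      obtain ⟨v', rfl⟩ := H.free n v fun s => H.qinj n (by rw [map_smul, h2, map_zero])
      exact ⟨q n v', by rw [← map_smul, hpi, map_zero], map_smul _ _ _⟩, fun n => by
      obtain ⟨γ, b1, b2, b3⟩ := H.fib n
      refine ⟨(q n).comp γ, fun o w => ?_, fun w hw => b2 w (H.qinj n ?_), fun w hw => ?_⟩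
      · rw [LinearMap.comp_apply, ← map_smul]
        cases o with
        | none => exact (congrArg _ (hpi n _)).trans (map_zero _)
        | some s => exact (congrArg _ (b1 s w)).trans (map_zero _)
      · rw [map_zero]; exact hw
      · obtain ⟨v, rfl⟩ := (H.qran n w).2 (hw none)
        obtain ⟨z, hz⟩ := b3 v fun s => H.qinj n (by rw [map_smul, map_zero]; exact hw (some s))
        exact ⟨z, by rw [LinearMap.comp_apply, hz, map_smul]⟩⟩
  have hker : ∀ (z : ℕ → PS O σ) (l : PS O σ), Cv (U : Filter ℕ) z l →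
      (∀ n, x (io O σ r (z n)) = 0) → x (io O σ r l) = 0 := fun z l h h0 =>
    (limi _ U _ _ (RingHom.ker x) (cv_map _ hio h)).1 (Eventually.of_forall h0)
  have xα := fun i => hker _ _ (hα i) fun n => H.xα n i
  have xβ := fun i => hker _ _ (hβ i) fun n => H.xβ n i
  have xf := fun i => hker _ _ (hfa i) fun n => H.xf n i
  have hc := cov O σ r αa βa fun i =>
    ⟨fun h => nu0 _ (xα i) (h.map _), fun h => nu0 _ (xβ i) (h.map _)⟩
  have c1 : Ideal.span (Set.range fun i => y1 O σ i ^ 2 - io O σ r (αa i) * y1 O σ i +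
      io O σ r (βa i)) ≤
        Module.annihilator _ (PA.L (PS O (σ ⊕ Fin r)) U fun n => CharacterModule (Wc n)) := by
    refine Ideal.span_le.2 ?_
    rintro _ ⟨i, rfl⟩
    exact ann_lim (cv_add (cv_sub (cv_const _) (cv_mul (cv_map _ hio (hα i)) (cv_const _)))
      (cv_map _ hio (hβ i))) fun n => dk (H.rel n i)
  have c2 : ∀ i, io O σ r (fa i) ∈
      Module.annihilator _ (PA.L (PS O (σ ⊕ Fin r)) U fun n => CharacterModule (Wc n)) :=
    fun i => ann_lim (cv_map _ hio (hfa i)) fun n => dk (H.relf n i)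
  have hs : Function.Surjective (Lmap (U : Filter ℕ) fun n => CharacterModule.dual (q n)) :=
    (rexC _ U hU (fun n => LinearMap.ker (CharacterModule.dual (q n))) _ _
      (fun n => (LinearMap.ker (CharacterModule.dual (q n))).subtype) _
      (fun n => LinearMap.exact_subtype_ker_map _)
      fun n => CharacterModule.dual_surjective_of_injective _ (H.qinj n)).2
  have c3 : Module.annihilator _ (PA.L (PS O (σ ⊕ Fin r)) U fun n => CharacterModule (Wc n)) ≤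
      Module.annihilator _ (PA.L (PS O (σ ⊕ Fin r)) U fun n => CharacterModule (Yb n)) :=
    LinearMap.annihilator_le_of_surjective _ hs
  obtain ⟨𝔭, p1, p2, p3⟩ := H.big
  obtain ⟨-, η, t1, -, t3, -, t5⟩ := etaC _ U hU _ _ _ _ _ hM ya _ hya hD 𝔭
    (fun z hz => p3 z fun w => CharacterModule.eq_zero_of_character_apply fun φ => by
      rw [← CharacterModule.smul_apply, Module.mem_annihilator.1 hz]; rfl)
    fun h => hd (le_maximalIdeal p1.ne_top h)
  have kπ : io O σ r (MvPowerSeries.C ϖ) ∈ η := by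
    rw [io_C]
    exact t3 (ann_lim (cv_const _) fun n => dk (hpi n))
  have hdim : ((2 * r + 2 : ℕ) : WithBot ℕ∞) ≤ ringKrullDim (PS O σ ⧸ η.comap (io O σ r)) := by
    have e := ((etl _ _ _ _ _ _ _ hc).1 η (c1.trans (c3.trans t3))).1
    refine le_trans ?_ (t5.trans e.le)
    rw [Fintype.card_sum, Fintype.card_fin, ← two_mul, Nat.cast_add (2 * r) 2]
    exact add_le_add le_rfl p2
  have hη := hG fa (fun i => (limi _ U _ _ (K i) (cv_sub (hfa i) (cv_const _))).1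
    (Eventually.of_forall fun n => hf n i)) (η.comap (io O σ r)) inferInstance
    (fun i => t3 (c3 (c2 i))) kπ hdim
  have main : (Module.annihilator _ (PA.L (PS O (σ ⊕ Fin r)) U
      fun n => CharacterModule (Wc n))).comap (io O σ r) ≤ Ideal.span (Set.range fa) := by
    refine le_of_sat (π := MvPowerSeries.C ϖ) (fun h => hϖm ?_) (Ideal.span_le.2 ?_)
      ((Ideal.comap_mono (c3.trans t3)).trans hη) fun z hz => ?_
    · rw [← io_C O σ r]
      exact h.map _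
    · rintro _ ⟨i, rfl⟩
      exact c2 i
    · rw [Ideal.mem_comap, map_mul, io_C] at hz
      refine Module.mem_annihilator.2 fun v => ?_
      obtain ⟨h, a1, a2⟩ := regC _ U hU (Option (Fin r ⊕ Fin r)) _ D _ _ hC
        (fun o => o.elim (MvPowerSeries.C ϖ) ya) d
        (fun o => by cases o with
          | none => exact cv_const _
          | some i => exact hya i) hD (maximalIdeal _)
        (fun o => by cases o with
          | none => exact hϖm
          | some i => exact (limi _ U _ _ _ (hya i)).1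
                        (Eventually.of_forall fun n => nu0 _ (H.xu n i))) hd ∅ none (by simp)
        (io O σ r z • v) (by
          change (MvPowerSeries.C ϖ : PS O (σ ⊕ Fin r)) • io O σ r z • v ∈ _
          rw [← mul_smul, Module.mem_annihilator.1 hz]; exact zero_mem _)
      have a3 : h • io O σ r z • v = 0 := by simpa using a2
      exact (notMem_maximalIdeal.1 a1).smul_eq_zero.1 a3
  haveI := RingHom.ker_isPrime x
  have xy : ∀ i, x (y1 O σ i) = 0 := fun i => H.u1 0 i ▸ H.xu 0 (Sum.inl i)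
  have fin := (etl _ _ _ _ _ _ _ hc).2 _ (RingHom.ker x) c1 (Ideal.span_le.2 (by
      rintro _ ⟨i, rfl⟩
      change x _ = 0
      rw [map_add, map_sub, map_mul, map_pow, xy, xβ]; simp))
    xy (fun i => ⟨xα i, xβ i⟩) (main.trans (Ideal.span_le.2 (by
      rintro _ ⟨i, rfl⟩
      exact xf i)))
  obtain ⟨j0, hj⟩ := desc hϖ x H.xm U _ hC.gen fin 1 j
  obtain ⟨n, h1, h4⟩ := (hj.and ((eventually_ge_atTop j0).filter_mono hU)).exists
  have e : ∀ (k : ℕ) (z : O), z ∈ maximalIdeal O ^ k ↔ ϖ ^ k ∣ z := fun k z => by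
    rw [hϖ.maximalIdeal_eq, Ideal.span_singleton_pow, Ideal.mem_span_singleton]
  refine ⟨j0, n, h4, fun t ht => h1 (D n) t
    (J1 fun o : Option (Fin r ⊕ Fin r) => o.elim (MvPowerSeries.C ϖ ^ j0) (u n))
    (fun h => ?_) (fun z hz => ?_) fun φ => (dtor _ _ _ _ _).2 fun w hw => ?_⟩
  · rw [pow_one] at h
    exact hϖ.not_isUnit (isUnit_of_dvd_unit h (H.xD n))
  · refine (e _ _).1 (Ideal.mem_comap.1 (Ideal.span_le.2 ?_ hz))
    rintro _ ⟨o, rfl⟩
    cases o with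
    | none =>
      change x (MvPowerSeries.C ϖ ^ j0) ∈ maximalIdeal O ^ j0
      rw [map_pow, H.xC, e]
    | some s =>
      change x (u n s) ∈ maximalIdeal O ^ j0
      rw [H.xu]; exact zero_mem _
  · rw [CharacterModule.smul_apply, ht w (hw none) fun s => hw (some s), map_zero]

end Vale.Agent.P022R.End
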