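import Vale.Agent.P022R.AriB
import Vale.Agent.P022R.Chb

/-!
# P022R, row FNB: from the arithmetic rows to the input of the algebraic rows
-/

set_option linter.all false

open NumberField

noncomputable section

namespace Vale.Agent.P022R

open Vale.Agent.P022 Vale.Agent.P022D
open Vale.Agent.P022E.Loc (Pl)
open Vale.Agent.P027M.S (Inert)
open Vale.Agent.P022F (Cc)
open Vale.Agent.P022F.Gen (Opn Unr)

namespace FnbP

variable {O F : Type} [CommRing O] [Field F]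

/-- a dual family -/
theorem dual {G J : Type} [Fintype J] [DecidableEq J] {red : O →+* F}
    (hs : Function.Surjective red) {b : J → G → F} (hb : LinearIndependent F b) :
    ∃ (ξ : J → G) (n : J → J → O),
      ∀ j j', ∑ k, red (n j k) * b j' (ξ k) = if j = j' then 1 else 0 := by
  obtain ⟨ξ, hξ⟩ := Chb.basis (fun g j => b j g) fun μ h =>
    Fintype.linearIndependent_iff.1 hb μ (funext fun g => by
      rw [Finset.sum_apply]
      exact h g)
  obtain ⟨B, hB⟩ := hξ.exists_right_inv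
  choose l hl using hs
  refine ⟨ξ, fun j k => l (B k j), fun j j' => ?_⟩
  have e := congrFun (congrFun hB j') j
  rw [Matrix.mul_apply, Matrix.one_apply] at e
  rw [show (if j = j' then (1 : F) else 0) = if j' = j then 1 else 0 from if_congr eq_comm rfl rfl,
    ← e]
  exact Finset.sum_congr rfl fun k _ => by rw [hl, mul_comm]; rfl

variable {W Q : Finset ℕ} {K : Set GQ} {f : GQ → F}

theorem opn (hK : Ak W Q K) (h : ∀ k ∈ K, f k = 0) : Opn f :=
  hK.1.imp fun _ e => ⟨e.1, fun u hu => h u (e.2 u hu)⟩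

theorem unr (hK : Ak W Q K) (h : ∀ k ∈ K, f k = 0) : Unr (W ∪ Q) f :=
  fun l a1 a2 a3 P a4 a5 s a6 => h s (hK.2 l a1 a2 (fun e => a3 (Finset.mem_union_left _ e))
    (fun e => a3 (Finset.mem_union_right _ e)) P a4 a5 s a6)

theorem sd {J : Type} [Fintype J] [DecidableEq J] {red : O →+* F} {g0 : GQ} {χ ψ : GQ →* Fˣ}
    {b : J → GQ → F} (hb : Alg.Bas W g0 χ ψ b) (hK : Ak W Q K)
    (u : ∀ f, Cc χ ψ f → Opn f → Unr (W ∪ Q) f → Unr W f) {ξ : J → GQ} {n : J → J → O}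
    (du : ∀ j j', ∑ k, red (n j k) * b j' (ξ k) = if j = j' then 1 else 0) :
    Sd red χ ψ g0 K b ξ n :=
  ⟨fun f h1 h2 h3 => by
    obtain ⟨l, hl⟩ := (Submodule.mem_span_range_iff_exists_fun F).1
      (hb.sp f h1 (opn hK h3) (u f h1 (opn hK h3) (unr hK h3)) h2)
    refine ⟨l, fun g => ?_⟩
    rw [← hl, Finset.sum_apply]
    rfl, du⟩

variable [IsLocalRing O] [CharP F 2] {red : O →+* F} {L : Pl O} {T : Finset ℕ} {χ ψ : GQ →* Fˣ}

theorem unq (H : Hx red L T χ ψ) (hK : Ak L.W Q K) (ha : Ad f) (h : ∀ k ∈ K, f k = 0)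
    (h0 : ∀ l ∈ L.W, f (L.τ l) = 0) : Unr Q f := fun l a1 a2 a3 P a4 a5 s a6 => by
  by_cases hW : l ∈ L.W
  · exact P022F.Gen.addin ha (opn hK h) a1 (H.hP l hW).1 (H.hP l hW).2 (H.tm l hW) (h0 l hW) a4 a5 a6
  · exact h s (hK.2 l a1 a2 hW a3 P a4 a5 s a6)

theorem dτ {l : ℕ} (hl : l ∈ L.W) : L.τ l ∈ L.DD :=
  Or.inr (Or.inr (Or.inl ⟨l, Finset.mem_union_left _ hl, rfl⟩))

theorem r2 {χ' ψ' : GQ →* Fˣ} {J : Type} [Fintype J] {r : ℕ} {q : Fin r → ℕ} {τ : Fin r → GQ}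
    {b : J → GQ → F} {y : J → Fin r → F} {κ : F} (H : Hx red L T χ ψ)
    (hK : Ak L.W (Finset.univ.image q) K) (h : Alg.Rec L.W L.c χ' ψ' b q τ y κ) :
    R2 χ' ψ' K L.DD b τ y L.c κ := fun f ω h1 h2 h3 h4 => by
  rw [Finset.sum_comm, mul_comm κ]
  refine h f ω (fun g k => ?_) h2 (fun j => opn hK fun k hk => (h3 k hk).2 j)
    (fun j => unq H hK (h2 j) (fun k hk => (h3 k hk).2 j) fun l hl => h4 _ (dτ hl) j)
    (fun j g hg => h4 g (Or.inl (H.h2 ▸ hg)) j) (fun j => h4 _ (Or.inr (Or.inl rfl)) j)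
    (opn hK fun k hk => (h3 k hk).1) (unr hK fun k hk => (h3 k hk).1)
  rw [h1]
  exact congrArg _ (Finset.sum_congr rfl fun j _ => by ring)

end FnbP

open FnbP in
theorem fnb : FNB := by
  intro O F I J _ _ _ _ _ _ _ _ _ red L T χ ψ g0 s b c H X
  obtain ⟨s0, hs0, hq⟩ := P022F.Gen.quad
  obtain ⟨ξ, n, hn⟩ := dual H.surj X.hb.li
  obtain ⟨ζ, m, hm⟩ := dual H.surj X.hc.li
  choose l hl using H.surj
  refine ⟨⟨g0, L.c, s0, l (χ s0), ξ, n, ζ, m⟩, rfl, fun r q τ y hy V =>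
    ⟨fun p k => l (y p.1 p.2 k), fun K hK => ?_⟩⟩
  have key : ∀ p : GQ → F, Ad p → (∀ k ∈ K, p k = 0) → (∀ l ∈ L.W, p (L.τ l) = 0) → p L.c = 0 →
      p s0 = 0 → (∀ k, p (τ k) = 0) → ∀ g, p g = 0 := fun p h1 h2 h3 h4 h5 h6 =>
    hq F L.c H.cj p h1 (opn hK h2) (V.ad p h1 (opn hK h2) (unq H hK h1 h2 h3) h6) h4 h5
  refine ⟨sd X.hb hK V.u1 hn, sd X.hc hK V.u2 hm, Loc2.conj_sq H.cj, X.cI, fun e j => ?_,
    fun e j => ?_, fun i hi => ?_, fun j hj => ?_, fun e => ?_, fun w hw => ?_, fun k => ?_,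
    hl _, fun p h1 h2 h3 h4 => ?_, fun p h1 h2 h3 h4 h5 h6 => ?_⟩
  · exact (X.bJ j).trans (if_congr (and_iff_right e) rfl rfl)
  · exact (X.bJ j).trans (if_neg fun a => by rw [e] at a; exact absurd a.1 Bool.false_ne_true)
  · have e := r2 H hK (V.rB i (Or.inl hi))
    rw [X.cI, if_neg fun a => X.ok.hi (by rw [← a]; exact hi)] at e
    simpa only [hl] using e
  · have e := r2 H hK (V.rC j hj)
    rw [X.bJ, if_neg fun a => (X.ok.cG a.1).1 (by rw [← a.2]; exact hj)] at e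
    simpa only [hl] using e
  · have e := r2 H hK (V.rB s.i0 (Or.inr ⟨rfl, e⟩))
    rw [X.cI, if_pos rfl] at e
    simpa only [hl] using e
  · exact V.inj w fun i j => by simpa only [hl] using hw (i, j)
  · obtain ⟨P, a1, a2, a3⟩ := V.ine k
    have a4 := (H.hT _ (hy k).1).not.1 (hy k).2
    exact (H.ch.unr _ (hy k).1 (fun e => a4 (Or.inl e)) (fun e => a4 (Or.inr e)) P a1 a2 _ a3).1
  · exact key p h1 h2 (fun l hl => h3 _ (dτ hl)) (h3 _ (Or.inr (Or.inl rfl)))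
      (h3 _ (Or.inl (H.h2 ▸ hs0))) h4
  · refine key p h1 h2 (fun l hl => ?_) h4 h5 h6
    by_cases e : χ (L.τ l) = ψ (L.τ l)
    · have a1 := h3 _ ⟨l, hl, Or.inr (Or.inr rfl)⟩ (H.reg l hl)
      have a2 := h3 _ ⟨l, hl, Or.inr (Or.inl rfl)⟩ fun a => H.reg l hl (by
        rwa [map_mul, map_mul, e, mul_right_inj] at a)
      rwa [h1, a1, add_zero] at a2
    · exact h3 _ ⟨l, hl, Or.inl rfl⟩ e

end Vale.Agent.P022R
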