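import Vale.Agent.P022R.Ari
import Vale.Agent.P022F.Nak

/-!
# P022R, row GWQ
-/

set_option linter.all false

open IsLocalRing NumberField

noncomputable section

namespace Vale.Agent.P022R

open Vale.Agent.P022 Vale.Agent.P022D
open Vale.Agent.P022E.As (Tg cc tt dd yy ev0 mT Gw)
open Vale.Agent.P022E.Loc (Pl Tm)
open Vale.Agent.P022F.Gm (en2 xx GM)
open Vale.Agent.P022D.Gma (ent)
open Vale.Agent.P022.H346 (TF)

theorem gwq : GWQ := by
  intro O F _ _ _ red L T Q χ ψ ϖ g0 α β u a hx hϖ he h ha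
  have vc : ∀ c : O, ev0 L.r (cc c) = c := fun c => MvPolynomial.eval₂Hom_C _ _ c
  have vt : ∀ g, ev0 L.r (tt g : Tg O) = (L.r g).trace := fun g => MvPolynomial.eval₂Hom_X' _ _ _
  have rad : ∀ b : Tg O, red (ev0 L.r b) = 0 → b ∈ a.radical := fun b hb =>
    P022E.As.Bas.rad h hϖ ((hx.ker _).1 hb)
  have hk : ∀ p ∈ a, (red.comp (ev0 L.r)) p = 0 := by
    intro p hp
    by_contra hn
    have hu : IsUnit (ev0 L.r p) := by
      by_contra hu
      exact hn ((hx.ker _).2 hu)
    have h1 : p - cc (ev0 L.r p) ∈ a.radical := rad _ (by rw [map_sub, vc, sub_self, map_zero])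
    have h2 : (cc (ev0 L.r p) : Tg O) ∈ a.radical := by
      have := a.radical.sub_mem (Ideal.le_radical hp) h1
      rwa [sub_sub_cancel] at this
    exact ha (Ideal.radical_eq_top.1
      (Ideal.eq_top_of_isUnit_mem _ h2 (hu.map (MvPolynomial.C : O →+* Tg O))))
  have eq : ∀ {x y : Tg O}, x - y ∈ a → Ideal.Quotient.mk a x = Ideal.Quotient.mk a y :=
    fun hx => Ideal.Quotient.eq.2 hx
  obtain ⟨π, hπ⟩ : ∃ π : Tg O ⧸ a →+* F, ∀ p, π (Ideal.Quotient.mk a p) = red (ev0 L.r p) :=
    ⟨Ideal.Quotient.lift a _ hk, fun _ => rfl⟩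
  let d0 : GQ →* Tg O ⧸ a :=
    { toFun := fun g => Ideal.Quotient.mk a (dd g)
      map_one' := (eq h.d1).trans (map_one _)
      map_mul' := fun g k => (eq (h.dm g k)).trans (map_mul _ _ _) }
  obtain ⟨d, hd⟩ : ∃ d : GQ →* (Tg O ⧸ a)ˣ, ∀ g, (d g : Tg O ⧸ a) = Ideal.Quotient.mk a (dd g) :=
    ⟨d0.toHomUnits, fun _ => rfl⟩
  have T0 : TF (fun g => Ideal.Quotient.mk a (tt g)) d :=
    ⟨(eq h.t1).trans (map_ofNat _ 2), fun g k => eq (h.tc g k), fun g k => by
      have := eq (h.tm g k)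
      rwa [map_mul, map_add, map_mul, ← hd] at this⟩
  have eA' : (fun g => Ideal.Quotient.mk a (eA g0 β u g)) =
      ent (fun g => Ideal.Quotient.mk a (tt g)) g0 (Ideal.Quotient.mk a (cc β))
        (Ideal.Quotient.mk a (cc u)) := funext fun g => by
    simp only [eA, ent, map_mul, map_sub]
  have eB' : (fun g => Ideal.Quotient.mk a (eB g0 β u g)) =
      en2 (fun g => Ideal.Quotient.mk a (tt g)) g0 (Ideal.Quotient.mk a (cc β))
        (Ideal.Quotient.mk a (cc u)) := funext fun g => by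
    simp only [eB, en2, ent, map_mul, map_sub]
  have eX' : (fun g k => Ideal.Quotient.mk a (eX g0 β u g k)) =
      xx (fun g => Ideal.Quotient.mk a (tt g)) g0 (Ideal.Quotient.mk a (cc β))
        (Ideal.Quotient.mk a (cc u)) := funext fun g => funext fun k => by
    simp only [eX, xx, ent, map_mul, map_sub]
  have cm : ∀ x y : O, (cc (x * y) : Tg O) = cc x * cc y := fun x y => map_mul MvPolynomial.C x y
  have ca : ∀ x y : O, (cc (x + y) : Tg O) = cc x + cc y := fun x y => map_add MvPolynomial.C x y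
  have cs : ∀ x y : O, (cc (x - y) : Tg O) = cc x - cc y := fun x y => map_sub MvPolynomial.C x y
  have c1 : (cc (1 : O) : Tg O) = 1 := map_one MvPolynomial.C
  obtain ⟨G0, -, -, x0, x1⟩ := P022F.Gm.gm T0 g0 (α := Ideal.Quotient.mk a (cc α))
    (β := Ideal.Quotient.mk a (cc β)) (u := Ideal.Quotient.mk a (cc u))
    (by rw [← map_add, ← ca, he.hs]; exact (eq (h.clt g0 he.ht)).symm)
    (by rw [← map_mul, ← cm, he.hp, hd]; exact (eq (h.cld g0 he.hd)).symm)
    (by rw [← map_sub, ← map_mul, ← cs, ← cm, he.hu, c1, map_one])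
  have pt : ∀ g, π (Ideal.Quotient.mk a (tt g)) = (χ g : F) + ψ g := fun g => by
    rw [hπ, vt, hx.tr]
  have pc : ∀ c, π (Ideal.Quotient.mk a (cc c)) = red c := fun c => by rw [hπ, vc]
  have pa : ∀ g, π (ent (fun g => Ideal.Quotient.mk a (tt g)) g0 (Ideal.Quotient.mk a (cc β))
      (Ideal.Quotient.mk a (cc u)) g) = χ g := fun g => by
    have e := congrArg red he.hu
    rw [map_mul, map_sub, map_one, he.ha, he.hb] at e
    rw [ent, map_mul, map_sub, map_mul, pt, pt, pc, pc, he.hb, map_mul, map_mul, Units.val_mul,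
      Units.val_mul]
    linear_combination (χ g : F) * e
  refine ⟨π, d, hπ, hd, ?_, fun n hn => ?_, ?_⟩
  · rw [eA', eB', eX']
    refine ⟨G0, pc, hx.surj, ?_, hx.ch.one, pa, fun g => ?_, fun g k => ?_, x0, x1⟩
    · haveI := h.fin
      haveI : Finite ((Tg O ⧸ a) ⧸ (⊥ : Ideal (Tg O ⧸ a))) :=
        Finite.of_surjective _ Ideal.Quotient.mk_surjective
      obtain ⟨N, hN⟩ := P022F.Nak.nilp (⊥ : Ideal (Tg O ⧸ a)) (RingHom.ker π) fun r hr => by
        obtain ⟨p, rfl⟩ := Ideal.Quotient.mk_surjective r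
        obtain ⟨k, hk'⟩ := rad p ((hπ p).symm.trans hr)
        exact ⟨k, by rw [← map_pow]; exact Ideal.Quotient.eq_zero_iff_mem.2 hk'⟩
      exact ⟨N, le_bot_iff.1 hN⟩
    · rw [en2, map_sub, pa, pt, add_sub_cancel_left]
    · rw [xx, map_sub, map_mul, pa, pa, pa, map_mul, Units.val_mul, sub_self]
  · rw [eA', eB', eX']
    have k1 : ∀ z y, Ideal.Quotient.mk a (tt (z * n * y)) = Ideal.Quotient.mk a (tt (z * 1 * y)) :=
      fun z y => by
        have e1 := T0.comm (z * n) y
        have e2 := T0.comm z y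
        have e3 := eq (hn (y * z))
        beta_reduce at e1 e2
        rw [e1, mul_one, e2, ← mul_assoc, e3]
    have k2 : ∀ y, Ideal.Quotient.mk a (tt (n * y)) = Ideal.Quotient.mk a (tt (1 * y)) :=
      fun y => by simpa only [one_mul] using k1 1 y
    refine ⟨(P022F.Gm.ent_congr k2).trans G0.a1, (P022F.Gm.en2_congr k2).trans G0.b1, fun k =>
      ⟨(P022F.Gm.xx_congr_left k2 k).trans (G0.x1 k).1,
        (P022F.Gm.xx_congr_right k1 k).trans (G0.x1 k).2⟩⟩
  · refine eq_top_iff.2 fun r _ => ?_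
    obtain ⟨p, rfl⟩ := Ideal.Quotient.mk_surjective r
    induction p using MvPolynomial.induction_on with
    | C c => exact Subring.subset_closure (Or.inl (Or.inl ⟨c, rfl⟩))
    | add p q hp hq => rw [map_add]; exact add_mem (hp trivial) (hq trivial)
    | mul_X p v hp =>
      rw [map_mul]
      refine mul_mem (hp trivial) ?_
      rcases v with g | g | i
      · exact Subring.subset_closure (Or.inl (Or.inr ⟨g, rfl⟩))
      · exact Subring.subset_closure (Or.inr ⟨g, hd g⟩)
      · have : Ideal.Quotient.mk a (MvPolynomial.X (Sum.inr (Sum.inr i))) = 0 :=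
          Ideal.Quotient.eq_zero_iff_mem.2 (h.yz i (Nat.zero_le i))
        rw [this]
        exact zero_mem _

end Vale.Agent.P022R
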