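import Vale.Agent.P022R.Lx
import Vale.Agent.P022R.AriB
import Vale.Agent.P022R.Ari1
import Vale.Agent.P022R.Top.Lev
import Vale.Agent.P022F.A.L2F

/-!
# P022R, block LX: generators and relations at the auxiliary levels
-/

set_option linter.all false

open IsLocalRing NumberField

noncomputable section

namespace Vale.Agent.P022R.H57

open Vale.Agent.P022 Vale.Agent.P022D
open Vale.Agent.P022E.As (Tg cc tt dd yy ev0 mT Gw)
open Vale.Agent.P022E.Loc (Pl)
open Vale.Agent.P027M.S (Inert mx)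
open Vale.Agent.P022F (OkF diagCh diagCh_val)
open Vale.Agent.P022D.Core (PS Coef)
open Vale.Agent.P022F.Gm (en2 xx)
open Vale.Agent.P022D.Gma (ent)
open Vale.Agent.P022F.End0 (Ph)

open Lx in
theorem lx' (hG : GWQ) (hA : AGEN) (hR : RELP) {O F I J : Type} [CommRing O] [IsDomain O]
    [IsDiscreteValuationRing O] [Coef O] [Field F] [Finite F] [CharP F 2] [Fintype I] [Fintype J]
    [DecidableEq I] [DecidableEq J] {ϖ : O} {S : R.Dat O F} {L : Pl O} {χ ψ : GQ →* Fˣ}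
    {α β u : O} {s : Sh I J} {b : J → GQ → F} {c : I → GQ → F} (X : Dt O GQ I J)
    (hϖ : Irreducible ϖ) (H : Hx S.red L S.T χ ψ) (ev : Ev S.red L χ ψ X.g0 α β u)
    (hX : ∀ (A : Finset ℕ) (n : ℕ), ∃ (q : Fin (Fintype.card I * Fintype.card J) → ℕ)
      (τ : Fin (Fintype.card I * Fintype.card J) → GQ)
      (M : I × J → Fin (Fintype.card I * Fintype.card J) → O), Function.Injective q ∧
      (∀ k, As.Aq S.rb (A ∪ S.T) n (q k)) ∧ (∀ k φ, IsFrob (q k) φ → χ φ ≠ ψ φ) ∧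
      (∀ k, ∃ P : Ideal (𝓞 Qb), P.IsPrime ∧ (q k : 𝓞 Qb) ∈ P ∧ Inert P (τ k)) ∧
      ∀ K, Ak L.W (Finset.univ.image q) K → Fn S.red χ ψ K L.DD L.TT s b c X τ M) :
    ∃ v0 : Vr I J (Fr I J) → Tg O, End.LevR ϖ S L (Fintype.card I * Fintype.card J)
      (fun j => ((s.eqn (Fr I J) O j : MvPolynomial (Vr I J (Fr I J)) O) : PS O (Vr I J (Fr I J))))
      (fun j => Er ϖ (s.wt (Fr I J)) (s.dg j)) v0 := by
  classical
  have hm := hϖ.maximalIdeal_eq
  let ι : O →+* Tg O := MvPolynomial.C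
  refine ⟨vv ι dd (eA X.g0 β u) (eX X.g0 β u) X (fun _ => 1) fun _ _ => 0, fun A n => ?_⟩
  obtain ⟨q, τ, M, qi, ax, rg, ine, hK⟩ := hX A n
  let v := vv ι dd (eA X.g0 β u) (eX X.g0 β u) X τ M
  have two : (2 : F) = 0 := CharTwo.two_eq_zero
  refine ⟨q, qi, ax, fun k φ hφ => ?_, v, fun k => ?_, fun k a ha => ?_,
    fun a ha => ?_⟩
  · by_contra hn
    have h1 := (H.ker _).2 hn
    rw [H.tr, CharTwo.add_eq_zero] at h1
    exact rg k φ hφ (Units.ext h1)
  · have fn := hK Set.univ ⟨⟨⊤, isOpen_univ, fun _ _ => trivial⟩, fun _ _ _ _ _ _ _ _ _ _ => trivial⟩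
    let φ : Tg O →+* F := S.red.comp (ev0 L.r)
    have et : ∀ g, φ (tt g) = (χ g : F) + ψ g := fun g =>
      (congrArg S.red (MvPolynomial.eval₂Hom_X' _ _ _)).trans (H.tr g)
    have ed : ∀ g, φ (dd g) = 1 := fun g =>
      (congrArg S.red (MvPolynomial.eval₂Hom_X' _ _ _)).trans (H.det g)
    have ec : ∀ o, φ (cc o) = S.red o := fun o => congrArg S.red (MvPolynomial.eval₂Hom_C _ _ _)
    have h1 := congrArg S.red ev.hu
    rw [map_mul, map_sub, ev.ha, ev.hb, map_one] at h1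
    have ea : ∀ g, φ (eA X.g0 β u g) = χ g := fun g => by
      simp only [eA, ent, map_mul, map_sub, et, ec, ev.hb, Units.val_mul]
      linear_combination (χ g : F) * h1
    have ex : ∀ g h, φ (eX X.g0 β u g h) = 0 := fun g h => by
      have e : φ (eX X.g0 β u g h) =
          φ (eA X.g0 β u (g * h)) - φ (eA X.g0 β u g) * φ (eA X.g0 β u h) := by
        rw [← map_mul, ← map_sub]
        rfl
      rw [e, ea, ea, ea, map_mul, Units.val_mul, sub_self]
    have c1 : (χ X.c : F) = 1 := by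
      have e : (χ X.c : F) * χ X.c = 1 := by
        rw [← Units.val_mul, ← map_mul, fn.c2, map_one, Units.val_one]
      have e2 : ((χ X.c : F) - 1) ^ 2 = 0 := by linear_combination e - ((χ X.c : F) - 1) * two
      exact sub_eq_zero.1 (pow_eq_zero_iff two_ne_zero |>.1 e2)
    refine (H.ker _).1 (show φ (v k) = 0 from ?_)
    rw [vv_map]
    have eκ : φ.comp ι X.κ = χ X.s := (ec _).trans fn.hκ
    rcases k with k | k | k | _ | k <;>
      simp only [vv, yv, xv, bt, Sum.elim_inl, Sum.elim_inr, Option.elim, ea, ed, ex, c1, eκ,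
        fn.hτ, Units.val_one, sub_self, mul_zero, Finset.sum_const_zero]
  · by_cases ht : a = ⊤
    · rw [ht]
      trivial
    obtain ⟨π, d, -, hd, gq, kr, -⟩ := hG O F S.red L S.T ∅ χ ψ ϖ X.g0 α β u a H hm ev ha ht
    have kτ := fun k => kr (τ k) fun g => by
      obtain ⟨P, p1, p2, p3⟩ := ine k
      exact ha.unr (q k) (ax k).prime (fun e => (ax k).out (Finset.mem_union_right _ e))
        (Finset.notMem_empty _) P p1 p2 _ p3 g
    have d1 : ∀ k, Ideal.Quotient.mk a (dd (τ k)) = 1 := fun k => by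
      obtain ⟨e1, e2, e3⟩ := kτ k
      have e4 := (e3 (τ k)).1
      beta_reduce at e1 e2 e4
      rw [← hd, ← gq.gm.det, e1, e2, e4, mul_one, sub_zero]
    have a1 : ∀ k, Ideal.Quotient.mk a (eA X.g0 β u (τ k)) = 1 := fun k => (kτ k).1
    have a2 : Ideal.Quotient.mk a (eA X.g0 β u 1) = 1 := gq.gm.a1
    rw [← Ideal.Quotient.eq, vv_map, vv_map]
    rcases k with k | k | k | _ | k <;>
      simp only [vv, yv, Sum.elim_inl, Sum.elim_inr, Option.elim, d1, a1, a2, sub_self, mul_zero,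
        map_zero, zero_mul]
  · by_cases ht : a = ⊤
    · subst ht
      exact ⟨fun _ => ⟨0, trivial⟩, fun _ => ⟨0, trivial⟩,
        fun j => ⟨0, zero_mem _, Subsingleton.elim _ _⟩⟩
    have ha' := gw0 ha
    set a' := a.comap z0
    obtain ⟨π, d, hπ, hd, gq, kr, cl⟩ := hG O F S.red L S.T _ χ ψ ϖ X.g0 α β u a' H hm ev ha'
      (Ideal.comap_ne_top _ ht)
    have fn := hK _ ⟨ha'.opn.imp fun U h => ⟨h.1, fun u hu => kr u (h.2 u hu)⟩,
      fun l h1 h2 h3 h4 P h5 h6 s h7 => kr s (ha'.unr l h1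
        (fun e => ((H.hT l h1).1 e).elim h2 h3) h4 P h5 h6 s h7)⟩
    have hD : ∀ g ∈ L.DD, ∃ o, (d g : Tg O ⧸ a') = ((Ideal.Quotient.mk a').comp ι) o :=
      fun g hg => ⟨_, (hd g).trans (Ideal.Quotient.eq.2 (ha'.cld g hg))⟩
    have ev' : ∀ k, vv ((Ideal.Quotient.mk a').comp ι) (fun g => (d g : Tg O ⧸ a'))
        (fun g => Ideal.Quotient.mk a' (eA X.g0 β u g))
        (fun g h => Ideal.Quotient.mk a' (eX X.g0 β u g h)) X τ M k =
        Ideal.Quotient.mk a' (v k) := fun k => by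
      rw [vv_map]
      simp only [hd]
    obtain ⟨g1, g2⟩ := hA O F _ GQ I J _ S.red _ π χ ψ _ d _ _ _ L.DD L.TT s b c X τ M gq fn hD
      (fun g hg => ⟨_, Ideal.Quotient.eq.2 (ha'.clt g hg)⟩) cl
    rw [funext ev'] at g2
    replace g1 : ∀ k, π (Ideal.Quotient.mk a' (v k)) = 0 := fun k => by
      rw [← ev']
      exact g1 k
    have zv : ∀ k, z0 (v k) = v k := fun k => by
      rw [vv_map]
      simp only [z0_a, z0_x, z0_d]
      exact congrArg (fun i => vv i dd (eA X.g0 β u) (eX X.g0 β u) X τ M k) z0_C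
    have gen : ∀ p, z0 p = p → ∃ f : MvPolynomial _ O, p - MvPolynomial.aeval v f ∈ a :=
      fun p hp => by
        obtain ⟨f, hf⟩ := g2 (Ideal.Quotient.mk a' p)
        rw [← MvPolynomial.map_eval₂Hom, Ideal.Quotient.eq, Ideal.mem_comap, map_sub, hp,
          MvPolynomial.map_eval₂Hom] at hf
        simp only [zv] at hf
        exact ⟨f, (congrArg (fun i => p - MvPolynomial.eval₂Hom i v f ∈ a) z0_C).mp hf⟩
    refine ⟨fun γ => gen _ (z0_t γ), fun γ => gen _ (z0_d γ), fun j => ?_⟩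
    obtain ⟨N, hN⟩ := gq.nil
    have van := R.van_of_pow ((Ideal.Quotient.mk a').comp ι) (fun k => Ideal.Quotient.mk a' (v k))
      _ hN g1
    obtain ⟨h, h1, h2⟩ := hR O F _ GQ I J _ S.red _ π χ ψ _ d _ _ _ L.DD L.TT s b c X τ M ϖ
      (Ph ι v a') gq fn hD (Ideal.ext fun o => (H.ker o).trans (by rw [hm]))
      (fun o => R.evl_C van o) (fun k => (R.evl_X van k).trans (ev' k).symm)
      (fun p => (g2 p).elim fun f hf => ⟨f, (R.evl_coe van f).trans hf.symm⟩)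
      (fun w => by
        refine (R.map_evl van π w).trans ?_
        simp only [g1]
        rw [R.evl_zero]
        exact gq.alg _) j
    refine ⟨h, h1, ?_⟩
    have h3 : ∀ w, Ideal.quotientMap a z0 le_rfl (Ph ι v a' w) = Ph ι v a w := fun w => by
      refine (R.map_evl van (Ideal.quotientMap a z0 le_rfl) w).trans ?_
      refine congrArg₂ (fun i y => R.evl i y w) (RingHom.ext fun o => ?_) (funext fun k => ?_)
      · exact congrArg (Ideal.Quotient.mk a) (z0_c o)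
      · exact congrArg (Ideal.Quotient.mk a) (zv k)
    rw [← h3, h2, map_zero]

section

variable {O F : Type} [CommRing O] [IsLocalRing O] [Field F] [CharP F 2] {S : R.Dat O F}
  {L : Pl O}

theorem hx (hL : OkF L S)
    (unr : ∀ l : ℕ, l.Prime → l ∉ S.T → ∀ P : Ideal (𝓞 Qb), P.IsPrime → (l : 𝓞 Qb) ∈ P →
      ∀ s, Inert P s → L.r s = 1)
    (d2 : ∃ g ∈ W.dec (L.P 2), mx S.rb g 0 0 ≠ mx S.rb g 1 1) :
    Hx S.red L S.T (diagCh hL.lo 0) (diagCh hL.lo 1) := by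
  have mW : ∀ {l}, l ∈ L.W → l ∈ L.W ∪ L.C := Finset.mem_union_left _
  have one : ∀ g, mx S.rb g = 1 → diagCh hL.lo 0 g = 1 ∧ diagCh hL.lo 1 g = 1 := fun g k =>
    ⟨Units.ext (by rw [diagCh_val, k]; rfl), Units.ext (by rw [diagCh_val, k]; rfl)⟩
  have hT : ∀ l : ℕ, l.Prime → (l ∈ S.T ↔ l = 2 ∨ l ∈ L.W) := fun l hl => by
    rw [hL.hT, hL.hC, Finset.union_empty, Finset.mem_insert, Finset.mem_insert]
    exact or_iff_right hl.ne_zero
  have reg : ∀ l ∈ L.W, diagCh hL.lo 0 (L.g0 l) ≠ diagCh hL.lo 1 (L.g0 l) := fun l hl e =>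
    (hL.reg l hl).2.2 (by rw [hL.d0, hL.d1]; exact congrArg Units.val e)
  refine ⟨⟨fun g => ?_, ⟨S.rb.ker, hL.dh.opn, fun u hu => one u (congrArg Units.val hu)⟩,
    fun l h1 h2 h3 P h4 h5 s h6 => one s ?_, fun l hl => hL.pr l (mW hl),
    fun l hl => ⟨L.P l, (hL.hP l (mW hl)).1, (hL.hP l (mW hl)).2, L.g0 l, (hL.reg l hl).1, reg l hl⟩,
    d2.imp fun g k => ⟨hL.h2 ▸ k.1, fun e => k.2 (congrArg Units.val e)⟩⟩, S.surj, hL.ker,
    fun g => ?_, fun g => ?_, hT, fun l hl => hL.hP l (mW hl), hL.h2, hL.cj,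
    fun l hl => hL.tm l (mW hl), reg⟩
  · have := hL.det g
    rwa [Matrix.det_fin_two, hL.lo, mul_zero, sub_zero] at this
  · rw [← hL.lift, unr l h1 (fun e => ((hT l h1).1 e).elim h2 h3) P h4 h5 s h6,
      Matrix.map_one _ (map_zero _) (map_one _)]
  · rw [diagCh_val, diagCh_val, ← Matrix.trace_fin_two, ← hL.lift g]
    exact AddMonoidHom.map_trace S.red (L.r g)
  · rw [S.red.map_det, RingHom.mapMatrix_apply, hL.lift g, hL.det]

theorem exEv (hL : OkF L S) {χ ψ : GQ →* Fˣ} (H : Hx S.red L S.T χ ψ)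
    (hψ : ∀ g, (ψ g : F) = mx S.rb g 1 1) {l : ℕ} (hl : l ∈ L.W) :
    ∃ α β u, Ev S.red L χ ψ (L.g0 l) α β u := by
  obtain ⟨y, h1, h2, -⟩ := hL.ty l hl
  rw [hL.d1, ← hψ] at h2
  have h3 : S.red ((L.r (L.g0 l)).trace - y) = χ (L.g0 l) := by
    rw [map_sub, H.tr, h2, add_sub_cancel_right]
  have h4 : IsUnit ((L.r (L.g0 l)).trace - y - y) := by
    by_contra hn
    have := (hL.ker _).2 hn
    rw [map_sub, h3, h2, sub_eq_zero] at this
    exact H.reg l hl (Units.ext this)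
  obtain ⟨u, hu⟩ := h4.exists_right_inv
  refine ⟨_, y, u, sub_add_cancel _ _, ?_, hu, h3, h2, ⟨l, hl, Or.inr (Or.inr rfl)⟩,
    Or.inr (Or.inr (Or.inr ⟨l, hl, rfl⟩))⟩
  have : y ^ 2 - (L.r (L.g0 l)).trace * y + (L.r (L.g0 l)).det = 0 := h1
  linear_combination -this

theorem evSwap {χ ψ : GQ →* Fˣ} {g : GQ} {α β u : O} (h : Ev S.red L χ ψ g α β u) :
    Ev S.red L ψ χ g β α (-u) :=
  ⟨(add_comm _ _).trans h.hs, (mul_comm _ _).trans h.hp, by linear_combination h.hu, h.hb, h.ha,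
    h.ht, h.hd⟩

end

theorem lev (h1 : Alg.ARI2) (h2 : FNB) (hG : GWQ) (hA : AGEN) (hR : RELP) : Top.LEV := by
  intro O F _ _ _ _ _ _ _ ϖ S L hϖ hL unr d2 hW
  obtain ⟨χ, ψ, I, J, i1, i2, i3, i4, s, b, c, l0, ho, hl0, fx, hq⟩ := h1 O F S L _ _ hL
    (diagCh_val hL.lo 0) (diagCh_val hL.lo 1) unr d2 hW
  have H0 := hx hL unr d2
  obtain ⟨α₀, β₀, u₀, e0⟩ := exEv hL H0 (diagCh_val hL.lo 1) hl0
  obtain ⟨H, α, β, u, ev⟩ : Hx S.red L S.T χ ψ ∧ ∃ α β u, Ev S.red L χ ψ (L.g0 l0) α β u := by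
    rcases ho with ⟨rfl, rfl⟩ | ⟨rfl, rfl⟩
    exacts [⟨H0, _, _, _, e0⟩, ⟨H0.swap, _, _, _, evSwap e0⟩]
  obtain ⟨X, eX, hX⟩ := h2 O F I J S.red L S.T χ ψ _ s b c H fx
  obtain ⟨v0, hv⟩ := lx' hG hA hR (s := s) (b := b) (c := c) X hϖ H (eX ▸ ev) fun A n => by
    obtain ⟨q, τ, y, a1, a2, a3, a4⟩ := hq A n
    obtain ⟨M, hM⟩ := hX _ q τ y (fun k => ⟨(a2 k).prime,
      fun e => (a2 k).out (Finset.mem_union_right _ e)⟩) a4
    exact ⟨q, τ, M, a1, a2, a3, a4.ine, hM⟩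
  refine ⟨I, J, Fr I J, i1, i2, i3, i4, inferInstance, s, _, v0, fx.ok, ?_, hv⟩
  rw [Fintype.card_option, Fintype.card_fin]
  ring

end Vale.Agent.P022R.H57
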