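import Vale.Agent.P022R.Alg

/-!
# P022R, row RELP
-/

set_option linter.all false

noncomputable section

namespace Vale.Agent.P022R

open Vale.Agent.P022D.Core (PS)

namespace Relp

section fil

variable {σ O T : Type} [CommRing O] [CommRing T] (w : σ → ℕ) (ϖ : O)

theorem fil_mul {a b : ℕ} {u v : MvPowerSeries σ O} (hu : u ∈ Fil O w a) (hv : v ∈ Fil O w b) :
    u * v ∈ Fil O w (a + b) := by
  classical
  intro d hd
  rw [MvPowerSeries.coeff_mul]
  refine Finset.sum_eq_zero fun p hp => ?_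
  rw [← (Finset.HasAntidiagonal.mem_antidiagonal.mp hp), map_add] at hd
  by_cases h : Finsupp.weight w p.1 < a
  · rw [hu p.1 h, zero_mul]
  · rw [hv p.2 (by omega), mul_zero]

theorem fil_X (s : σ) : (MvPowerSeries.X s : MvPowerSeries σ O) ∈ Fil O w (w s) := by
  classical
  intro d hd
  rw [MvPowerSeries.coeff_X, if_neg]
  rintro rfl
  rw [Finsupp.weight_single, one_smul] at hd
  exact lt_irrefl _ hd

theorem fil_two (hw : ∀ s, 2 ≤ w s) (u : MvPowerSeries σ O) :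
    u - MvPowerSeries.C (MvPowerSeries.constantCoeff u) ∈ Fil O w 2 := by
  classical
  intro d hd
  have : d = 0 := by
    by_contra h
    obtain ⟨s, hs⟩ := Finsupp.ne_iff.1 h
    have := Finsupp.le_weight_of_ne_zero' w (show d s ≠ 0 from hs)
    have := hw s
    omega
  rw [this, map_sub, MvPowerSeries.coeff_zero_C, MvPowerSeries.coeff_zero_eq_constantCoeff_apply,
    sub_self]

/-- the images of the series of order at least `k` modulo `ϖ` -/
def Lf (Φ : PS O σ →+* T) (k : ℕ) : Ideal T :=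
  (Ideal.span {MvPowerSeries.C ϖ} ⊔ Fil O w k).map Φ

variable {w ϖ} {Φ : PS O σ →+* T}

theorem Lf_mono {k l : ℕ} (h : k ≤ l) : Lf w ϖ Φ l ≤ Lf w ϖ Φ k :=
  Ideal.map_mono (sup_le_sup_left (fun u hu d hd => hu d (lt_of_lt_of_le hd h)) _)

theorem Lf_mul {k l : ℕ} {y z : T} (hy : y ∈ Lf w ϖ Φ k) (hz : z ∈ Lf w ϖ Φ l) :
    y * z ∈ Lf w ϖ Φ (k + l) := by
  have h0 : Fil O w k * Fil O w l ≤ Fil O w (k + l) := by
    rw [Ideal.mul_le]
    intro u hu v hv
    exact fil_mul w hu hv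
  have h : Lf w ϖ Φ k * Lf w ϖ Φ l ≤ Lf w ϖ Φ (k + l) := by
    unfold Lf
    rw [← Ideal.map_mul]
    refine Ideal.map_mono ?_
    rw [Ideal.sup_mul, Ideal.mul_sup (Fil O w k)]
    exact sup_le (Ideal.mul_le_left.trans le_sup_left)
      (sup_le (Ideal.mul_le_right.trans le_sup_left) (h0.trans le_sup_right))
  exact h (Ideal.mul_mem_mul hy hz)

theorem Lf_X (s : σ) : Φ (MvPowerSeries.X s) ∈ Lf w ϖ Φ (w s) :=
  Ideal.mem_map_of_mem _ (Ideal.mem_sup_right (fil_X w s))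

theorem Lf_C {o : O} (ho : o ∈ Ideal.span {ϖ}) (k : ℕ) : Φ (MvPowerSeries.C o) ∈ Lf w ϖ Φ k := by
  obtain ⟨c, rfl⟩ := Ideal.mem_span_singleton'.1 ho
  refine Ideal.mem_map_of_mem _ (Ideal.mem_sup_left ?_)
  rw [map_mul]
  exact Ideal.mul_mem_left _ _ (Ideal.mem_span_singleton_self _)

end fil

section bil

variable {O T G I J : Type} [CommRing O] [CommRing T] [Fintype I] [Fintype J]

theorem xv_swap (ι : O →+* T) (x : G → G → T) (X : Dt O G I J) (i : I) (j : J) :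
    ∑ k, ι (X.n j k) * bt ι (fun g k => x k g) X.ζ X.m i (X.ξ k) = xv ι x X i j := by
  simp only [xv, bt, Finset.mul_sum]
  rw [Finset.sum_comm]
  exact Finset.sum_congr rfl fun l _ => Finset.sum_congr rfl fun k _ => mul_left_comm _ _ _

theorem bt_sw (ι : O →+* T) {x : G → G → T} (sw : ∀ g h g' h', x g h * x g' h' = x g h' * x g' h)
    (ξ : J → G) (n : J → J → O) (j l : J) (h h' : G) :
    bt ι x ξ n j h * bt ι x ξ n l h' = bt ι x ξ n l h * bt ι x ξ n j h' := by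
  rw [mul_comm (bt ι x ξ n l h)]
  simp only [bt, Finset.sum_mul_sum]
  refine Finset.sum_congr rfl fun a _ => Finset.sum_congr rfl fun b _ => ?_
  linear_combination ι (n j a) * ι (n l b) * sw (ξ a) h (ξ b) h'

theorem xv_sw (ι : O →+* T) {x : G → G → T} (sw : ∀ g h g' h', x g h * x g' h' = x g h' * x g' h)
    (X : Dt O G I J) (i k : I) (j l : J) :
    xv ι x X i j * xv ι x X k l = xv ι x X i l * xv ι x X k j := by
  simp only [xv, Finset.sum_mul_sum]
  refine Finset.sum_congr rfl fun a _ => Finset.sum_congr rfl fun b _ => ?_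
  linear_combination ι (X.m i a) * ι (X.m k b) * bt_sw ι sw X.ξ X.n j l (X.ζ a) (X.ζ b)

theorem comb {κ μ : Type} [Fintype κ] [Fintype μ] (c : κ → T) (e : μ → T) (B : κ → μ → T)
    (h : ∀ l, ∑ j, c j * B j l = 0) : ∑ j, c j * ∑ l, e l * B j l = 0 := by
  simp only [Finset.mul_sum]
  rw [Finset.sum_comm]
  refine Finset.sum_eq_zero fun l _ => ?_
  have := congrArg (e l * ·) (h l)
  simp only [Finset.mul_sum, mul_zero] at this
  rw [← this]
  exact Finset.sum_congr rfl fun j _ => mul_left_comm _ _ _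

end bil

end Relp

open Relp

theorem relp (h1 : BGEN) (h2 : BREL) : RELP := by
  intro O F T G I J R _ _ _ _ _ _ _ _ _ _ red ι π χ ψ t d a b x D TT s β γ X τ M ϖ Φ H N hD hϖ hC hX
    hs hπ
  set w := s.wt (Option R) with hw
  have w2 : ∀ v, 2 ≤ w v := by
    rintro (_ | _ | _ | _)
    · show 2 ≤ if s.G then 2 else 3
      split_ifs <;> omega
    · exact le_rfl
    · show 2 ≤ 4
      omega
    · exact le_rfl
  have lC : ∀ o, red o = 0 → ∀ k, ι o ∈ Lf w ϖ Φ k := fun o ho k => by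
    rw [← hC]
    exact Lf_C (hϖ ▸ (RingHom.mem_ker.2 ho)) k
  have l2 : ∀ z, π z = 0 → z ∈ Lf w ϖ Φ 2 := fun z hz => by
    obtain ⟨u, rfl⟩ := hs z
    rw [hπ] at hz
    have e := Ideal.add_mem _ (lC _ hz 2)
      (Ideal.mem_map_of_mem Φ (Ideal.mem_sup_right (fil_two w w2 u)))
    rwa [map_sub, hC, add_sub_cancel] at e
  have lx : ∀ i j, xv ι x X i j ∈ Lf w ϖ Φ 4 := fun i j => by
    have := Lf_X (w := w) (ϖ := ϖ) (Φ := Φ) (Sum.inr (Sum.inr (Sum.inl (i, j))))
    rwa [hX] at this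
  have lY : ∀ i j, yv ι (fun g => (d g : T)) τ (M (i, j)) ∈ Lf w ϖ Φ 2 := fun i j => by
    have := Lf_X (w := w) (ϖ := ϖ) (Φ := Φ) (Sum.inr (Sum.inl (i, j)))
    rwa [hX] at this
  have sc : Sd red ψ χ X.g0 (Kr b a fun g k => x k g) γ X.ζ X.m := by
    rw [Kr_swap]; exact N.sc
  have gB := h1 O F T G J red ι π χ ψ X.g0 t d a b x β X.ξ X.n H N.sb
  have gC := h1 O F T G I red ι π ψ χ X.g0 t d b a _ γ X.ζ X.m H.swap sc
  have e1 : ∀ h, ∃ ν : I → T, (∀ i, π (ν i) = γ i h) ∧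
      ∀ j, bt ι x X.ξ X.n j h = ∑ i, ν i * xv ι x X i j := fun h => by
    obtain ⟨ν, n1, n2⟩ := gC h
    refine ⟨ν, n1, fun j => ?_⟩
    have : ∀ k, x (X.ξ k) h = ∑ i, ν i * bt ι (fun g k => x k g) X.ζ X.m i (X.ξ k) :=
      fun k => n2 (X.ξ k)
    rw [bt]
    simp only [this, ← xv_swap, Finset.mul_sum]
    rw [Finset.sum_comm]
    exact Finset.sum_congr rfl fun i _ => Finset.sum_congr rfl fun k _ => mul_left_comm _ _ _
  have lb : ∀ j h, bt ι x X.ξ X.n j h ∈ Lf w ϖ Φ 4 := fun j h => by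
    obtain ⟨ν, -, n2⟩ := e1 h
    rw [n2]
    exact Ideal.sum_mem _ fun i _ => Ideal.mul_mem_left _ _ (lx i j)
  have lxx : ∀ g h, x g h ∈ Lf w ϖ Φ 4 := fun g h => by
    obtain ⟨μ, -, m2⟩ := gB g
    rw [m2]
    exact Ideal.sum_mem _ fun j _ => Ideal.mul_mem_left _ _ (lb j h)
  have lI : ∀ y : G → G → T, (∀ g h, y g h ∈ Lf w ϖ Φ 4) → Ia red ι π y ≤ Lf w ϖ Φ 4 :=
    fun y hy => by
      refine sup_le (sup_le (Ideal.map_le_iff_le_comap.2 fun o ho => lC o ho 4) ?_)
        (Ideal.span_le.2 ?_)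
      · rw [pow_two, Ideal.mul_le]
        intro u hu v hv
        exact Lf_mul (k := 2) (l := 2) (l2 u (RingHom.mem_ker.1 hu)) (l2 v (RingHom.mem_ker.1 hv))
      · rintro _ ⟨g, h, rfl⟩
        exact hy g h
  have lc : ∀ j, bt ι x X.ξ X.n j X.c - xv ι x X s.i0 j ∈ Lf w ϖ Φ 6 := fun j => by
    obtain ⟨ν, n1, n2⟩ := e1 X.c
    have : bt ι x X.ξ X.n j X.c - xv ι x X s.i0 j =
        ∑ i, (ν i - if i = s.i0 then 1 else 0) * xv ι x X i j := by
      simp only [n2, sub_mul, Finset.sum_sub_distrib, ite_mul, one_mul, zero_mul,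
        Finset.sum_ite_eq', Finset.mem_univ, if_true]
    rw [this]
    refine Ideal.sum_mem _ fun i _ => Lf_mul (k := 2) (l := 4) (l2 _ ?_) (lx i j)
    rw [map_sub, n1, N.cc]
    split_ifs <;> simp
  have la : ∀ k, (a X.c - 1) ^ 2 + x X.c X.c ∈ Lf w ϖ Φ k := fun k => by
    have e := H.gm.am X.c X.c
    rw [N.c2, H.gm.a1] at e
    have e2 : (a X.c - 1) ^ 2 + x X.c X.c = ι 2 * (1 - a X.c) := by
      rw [map_ofNat]
      linear_combination -e
    rw [e2]
    exact Ideal.mul_mem_right _ _ (lC 2 (by rw [map_ofNat]; exact CharTwo.two_eq_zero) k)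
  have two : ∀ k z, z ∈ Lf w ϖ Φ k → ∀ y, y + z ∈ Lf w ϖ Φ k → y ∈ Lf w ϖ Φ k :=
    fun k z hz y hy => (Ideal.add_mem_iff_left _ hz).1 hy
  have ev : ∀ p : MvPolynomial (Vr I J (Option R)) O, Φ (p : PS O (Vr I J (Option R))) =
      MvPolynomial.eval₂Hom ι (vv ι (fun g => (d g : T)) a x X τ M) p := fun p => by
    have : Φ.comp MvPolynomial.coeToMvPowerSeries.ringHom =
        MvPolynomial.eval₂Hom ι (vv ι (fun g => (d g : T)) a x X τ M) := by
      refine MvPolynomial.ringHom_ext (fun o => ?_) fun v => ?_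
      · rw [RingHom.comp_apply, MvPolynomial.coeToMvPowerSeries.ringHom_apply, MvPolynomial.coe_C,
          hC, MvPolynomial.eval₂Hom_C]
      · rw [RingHom.comp_apply, MvPolynomial.coeToMvPowerSeries.ringHom_apply, MvPolynomial.coe_X,
          hX, MvPolynomial.eval₂Hom_X']
    exact RingHom.congr_fun this p
  have ex : ∀ i j, MvPolynomial.eval₂Hom ι (vv ι (fun g => (d g : T)) a x X τ M)
      (vx (Option R) O i j) = xv ι x X i j := fun i j => MvPolynomial.eval₂Hom_X' _ _ _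
  have eY : ∀ i j, MvPolynomial.eval₂Hom ι (vv ι (fun g => (d g : T)) a x X τ M)
      (vY (Option R) O i j) = yv ι (fun g => (d g : T)) τ (M (i, j)) :=
    fun i j => MvPolynomial.eval₂Hom_X' _ _ _
  have ea : MvPolynomial.eval₂Hom ι (vv ι (fun g => (d g : T)) a x X τ M)
      (va (Option R) O) = a X.c - 1 := MvPolynomial.eval₂Hom_X' _ _ _
  suffices main : ∀ j, MvPolynomial.eval₂Hom ι (vv ι (fun g => (d g : T)) a x X τ M)
      (s.eqn (Option R) O j) ∈ Lf w ϖ Φ (s.dg j + 1) by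
    intro j
    obtain ⟨u, hu, e⟩ := (Ideal.mem_map_iff_of_surjective Φ hs).1 (main j)
    exact ⟨-u, neg_mem hu, by rw [map_add, map_neg, ev, e, add_neg_cancel]⟩
  rintro (⟨i, k, j, l⟩ | ⟨i, k⟩ | ⟨j, l⟩ | u)
  · rw [Sh.eqn, map_sub, map_mul, map_mul, ex, ex, ex, ex, xv_sw ι H.gm.sw X i k j l, sub_self]
    exact Ideal.zero_mem _
  · rw [Sh.eqn]
    split_ifs with hi
    · obtain ⟨ν, n1, n2⟩ := h2 O F T G J R red ι π χ ψ X.g0 t d a b x β X.ξ X.n D τ
        (fun j => M (i, j)) X.c 0 H N.sb hD (by rw [map_zero]; exact N.row i hi) (Or.inl rfl)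
      have e := comb (fun j => yv ι (fun g => (d g : T)) τ (M (i, j)) + ν j) (fun l => ι (X.m k l))
        (fun j l => bt ι x X.ξ X.n j (X.ζ l)) fun l => by rw [n2, map_zero, zero_mul]
      simp only [map_sum, map_mul, ex, eY]
      refine two _ (∑ j, ν j * xv ι x X k j) (Ideal.sum_mem _ fun j _ =>
        Lf_mono (show 6 + 1 ≤ 4 + 4 by omega) (Lf_mul (lI x lxx (n1 j)) (lx k j))) _ ?_
      rw [← Finset.sum_add_distrib]
      simp only [← add_mul]
      rw [show ∑ j, (yv ι (fun g => (d g : T)) τ (M (i, j)) + ν j) * xv ι x X k j = 0 from e]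
      exact Ideal.zero_mem _
    · rw [map_zero]; exact Ideal.zero_mem _
  · rw [Sh.eqn]
    split_ifs with hj
    · obtain ⟨ν, n1, n2⟩ := h2 O F T G I R red ι π ψ χ X.g0 t d b a _ γ X.ζ X.m D τ
        (fun i => M (i, j)) X.c 0 H.swap sc hD (by rw [map_zero, Kr_swap]; exact N.col j hj)
        (Or.inl rfl)
      have e := comb (fun i => yv ι (fun g => (d g : T)) τ (M (i, j)) + ν i) (fun k => ι (X.n l k))
        (fun i k => bt ι (fun g k => x k g) X.ζ X.m i (X.ξ k)) fun k => by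
          rw [n2, map_zero, zero_mul]
      simp only [xv_swap] at e
      simp only [map_sum, map_mul, ex, eY]
      refine two _ (∑ i, ν i * xv ι x X i l) (Ideal.sum_mem _ fun i _ =>
        Lf_mono (show 6 + 1 ≤ 4 + 4 by omega)
          (Lf_mul (lI _ (fun g h => lxx h g) (n1 i)) (lx i l))) _ ?_
      rw [← Finset.sum_add_distrib]
      simp only [← add_mul]
      rw [e]
      exact Ideal.zero_mem _
    · rw [map_zero]; exact Ideal.zero_mem _
  · rw [Sh.eqn, map_add, map_pow, ea]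
    show _ ∈ Lf w ϖ Φ ((if s.G then 4 else 6) + 1)
    rcases hG : s.G with _ | _
    · obtain ⟨ν, n1, n2⟩ := h2 O F T G J R red ι π χ ψ X.g0 t d a b x β X.ξ X.n D τ
        (fun j => M (s.i0, j)) X.c 1 H N.sb hD (by rw [map_one]; exact N.lst hG)
        (Or.inr (N.bH hG))
      have e := n2 X.c
      rw [map_one, one_mul] at e
      simp only [Bool.false_eq_true, if_false, map_sum, map_mul, ex, eY]
      refine two _ (∑ j, (yv ι (fun g => (d g : T)) τ (M (s.i0, j)) *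
        (bt ι x X.ξ X.n j X.c - xv ι x X s.i0 j) + ν j * bt ι x X.ξ X.n j X.c))
        (Ideal.sum_mem _ fun j _ => Ideal.add_mem _
          (Lf_mono (show 6 + 1 ≤ 2 + 6 by omega) (Lf_mul (lY _ j) (lc j)))
          (Lf_mono (show 6 + 1 ≤ 4 + 4 by omega) (Lf_mul (lI x lxx (n1 j)) (lb j _)))) _ ?_
      have e3 := la (6 + 1)
      rw [← e] at e3
      rw [add_assoc, ← Finset.sum_add_distrib]
      refine (congrArg (fun z => (a X.c - 1) ^ 2 + z ∈ Lf w ϖ Φ (6 + 1))
        (Finset.sum_congr rfl fun j _ => ?_)).mp e3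
      ring
    · obtain ⟨μ, m1, m2⟩ := gB X.c
      simp only [if_true, ex]
      refine two _ (∑ j, (μ j * (bt ι x X.ξ X.n j X.c - xv ι x X s.i0 j) +
        (μ j - if j = s.j0 then 1 else 0) * xv ι x X s.i0 j))
        (Ideal.sum_mem _ fun j _ => Ideal.add_mem _
          (Ideal.mul_mem_left _ _ (Lf_mono (show 4 + 1 ≤ 6 by omega) (lc j)))
          (Lf_mono (show 4 + 1 ≤ 2 + 4 by omega) (Lf_mul (l2 _ ?_) (lx _ j)))) _ ?_
      · rw [map_sub, m1, N.bG hG]
        split_ifs <;> simp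
      have e3 := la (4 + 1)
      rw [m2 X.c] at e3
      have e4 : xv ι x X s.i0 s.j0 + ∑ j, (μ j * (bt ι x X.ξ X.n j X.c - xv ι x X s.i0 j) +
          (μ j - if j = s.j0 then 1 else 0) * xv ι x X s.i0 j) =
          ∑ j, μ j * bt ι x X.ξ X.n j X.c := by
        simp only [mul_sub, sub_mul, Finset.sum_add_distrib, Finset.sum_sub_distrib, ite_mul,
          one_mul, zero_mul, Finset.sum_ite_eq', Finset.mem_univ, if_true]
        ring
      rw [add_assoc, e4]
      exact e3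

end Vale.Agent.P022R
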