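import Vale.Agent.P022R.Top.All
import Vale.Agent.P022R.LevH57
import Vale.Agent.P022R.Fix
import Vale.Agent.P022R.Cnt3
import Vale.Agent.P022R.Fnb
import Vale.Agent.P022R.Gwq
import Vale.Agent.P022R.Bgen
import Vale.Agent.P022R.Brel
import Vale.Agent.P022R.Agen
import Vale.Agent.P022R.Relp

/-!
P022R: the residually reducible distinguished case.
-/

namespace Vale.Agent.P022R

open Vale.Agent.P022

theorem fixF : Alg.FIX := by
  intro F _ _ _ χ₀ ψ₀ W g0 c0 B h2 reg d2 n0 hc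
  obtain ⟨χ, ψ, I, J, i1, i2, i3, i4, s, b, c, h3, h4, h5⟩ := Fx.fix Cnt.cnt B
    (fun l hl => ⟨fun e => h2 (e ▸ hl), (reg l hl).2⟩) d2 n0 hc
  exact ⟨χ, ψ, I, J, i1, i2, i3, i4, s, b, c, h3, h4, h5.tb, h5.tc⟩

theorem levF : Top.LEV := H57.lev (Alg.ari2 fixF) fnb gwq (agen bgen) (relp bgen (brel bgen))

/-- **the residually reducible distinguished case** -/
theorem finalR (E : Type) [NontriviallyNormedField E] [NormedAlgebra ℚ_[2] E]
    [FiniteDimensional ℚ_[2] E] (r : GQ →* GL (Fin 2) E) (hc : Continuous r)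
    (ho : St.OddRep r) (hi : St.AbsIrr r) (hS : {p : ℕ | p.Prime ∧ ¬ St.UnrAt r p}.Finite)
    (k : Type) [Field k] [CharP k 2] (χ₁ χ₂ : GQ →* kˣ) (hr : St.IsEis r χ₁ χ₂)
    (hd : ∀ l : ℕ, l.Prime → l = 2 ∨ ¬ St.UnrAt r l → ∃ g, St.IsDec l g ∧ χ₁ g ≠ χ₂ g) :
    St.Q1Concl r :=
  Top.allL levF E r hc ho hi hS k χ₁ χ₂ hr hd

end Vale.Agent.P022R
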