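import Vale.Agent.P022R.Fix
import Vale.Agent.P022R.Cnt2
import Vale.Agent.P022R.Ari1

/-!
# P022R: the count for the cocycles of a pair of characters
-/

set_option linter.all false

noncomputable section

namespace Vale.Agent.P022R.Fx

open NumberField Module
open Vale.Agent.P022 Vale.Agent.P022E.GW Vale.Agent.P022R.Rel
open Vale.Agent.P022D.W (dec)
open Vale.Agent.P022D.Loc2 (PP)
open Vale.Agent.P022F (Cc)
open Vale.Agent.P022F.Gen (Opn Unr)
open Vale.Agent.P022R.Cnt (Hn Hy V2 Vi Zs)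

variable {F : Type} [Field F]

theorem eqv {X : Type} [AddCommGroup X] [Module F X] {A A' : Submodule F X} (f g : X →ₗ[F] X)
    (h1 : ∀ a ∈ A, f a ∈ A') (h2 : ∀ a ∈ A', g a ∈ A) (h3 : ∀ a ∈ A, g (f a) = a)
    (h4 : ∀ a ∈ A', f (g a) = a) : Nonempty (A ≃ₗ[F] A') :=
  ⟨LinearEquiv.ofLinear (f.restrict h1) (g.restrict h2)
    (LinearMap.ext fun a => Subtype.ext (h4 a a.2))
    (LinearMap.ext fun a => Subtype.ext (h3 a a.2))⟩

/-- twist and change of the base point -/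
def Ph (θ u w : GQ → F) (g1 : GQ) : (GQ → F) →ₗ[F] (GQ → F) where
  toFun b g := (b g * u g - b g1 * u g1 / (θ g1 - 1) * (θ g - 1)) * w g
  map_add' a b := funext fun g => by simp only [Pi.add_apply]; ring
  map_smul' m a := funext fun g => by
    simp only [Pi.smul_apply, smul_eq_mul, RingHom.id_apply]; ring

theorem Ph_ap (θ u w : GQ → F) (g1 : GQ) (b : GQ → F) (g : GQ) :
    Ph θ u w g1 b g = (b g * u g - b g1 * u g1 / (θ g1 - 1) * (θ g - 1)) * w g := rfl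

section

variable [CharP F 2] {χ ψ θ : GQ →* Fˣ} {W : Finset ℕ} {g0 g1 c : GQ}

theorem trf (B : Bs χ ψ W) (hθ : ∀ g, (θ g : F) = χ g * χ g) (H : Hy θ (insert 2 W) g1)
    (n0 : θ g0 ≠ 1) (hc : IsConj c) :
    Nonempty (Hs W g0 χ ψ ≃ₗ[F] Hn θ (insert 2 W) g1) ∧
    Nonempty (Vs W g0 χ ψ ≃ₗ[F] V2 θ (insert 2 W) g1) ∧
    Nonempty ((Hs W g0 χ ψ ⊓ Kc F c : Submodule F (GQ → F)) ≃ₗ[F] Vi θ (insert 2 W) g1 c) ∧
    Nonempty ((Vs W g0 χ ψ ⊓ Kc F c : Submodule F (GQ → F)) ≃ₗ[F]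
      Cnt.Sh θ (insert 2 W) g1 c) := by
  have two : (2 : F) = 0 := CharTwo.two_eq_zero
  have m0 := Cnt.ne1 n0
  have m1 := Cnt.ne1 H.ne
  have tc : (θ c : F) = 1 := by rw [Cnt.sq_one (θ := θ) (H56.conj_sq hc), Units.val_one]
  let f := Ph (fun g => (θ g : F)) (fun g => (χ g : F)) (fun _ => 1) g1
  let k := Ph (fun g => (θ g : F)) (fun _ => 1) (fun g => (ψ g : F)) g0
  have fa : ∀ b g, f b g = b g * χ g - b g1 * χ g1 / ((θ g1 : F) - 1) * (θ g - 1) := fun b g =>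
    mul_one _
  have ka : ∀ d g, k d g = (d g - d g0 / ((θ g0 : F) - 1) * (θ g - 1)) * ψ g := fun d g => by
    simp only [k, Ph_ap, mul_one]
  have f1 : ∀ b ∈ Hs W g0 χ ψ, f b ∈ Hn θ (insert 2 W) g1 := by
    rintro b ⟨a1, ⟨U, hU, a2⟩, a3, -⟩
    refine ⟨fun g h => ?_, ⟨U ⊓ θ.ker, hU.inter H.opn, fun u hu => ?_⟩,
      fun l hl P o i hi => ?_, ?_⟩
    · simp only [fa, a1 g h, map_mul, Units.val_mul, hθ g, hθ h]
      linear_combination (b g * χ g) * B.inv h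
    · rw [fa, a2 u hu.1, show θ u = 1 from hu.2, Units.val_one, sub_self, zero_mul, mul_zero,
        sub_zero]
    · rw [fa, H.unr l hl P o i hi, a3 l o.1 (fun e => hl (e ▸ Finset.mem_insert_self _ _))
        (fun e => hl (Finset.mem_insert_of_mem e)) P o.2.1 o.2.2 i hi, Units.val_one, sub_self,
        zero_mul, mul_zero, sub_zero]
    · rw [fa, div_mul_cancel₀ _ m1, sub_self]
  have k1 : ∀ d ∈ Hn θ (insert 2 W) g1, k d ∈ Hs W g0 χ ψ := by
    rintro d ⟨a1, ⟨U, hU, a2⟩, a3, -⟩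
    refine ⟨fun g h => ?_, ⟨U ⊓ θ.ker, hU.inter H.opn, fun u hu => ?_⟩,
      fun l lp l2 lW P p1 p2 i hi => ?_, ?_⟩
    · simp only [ka, a1 g h, map_mul, Units.val_mul, hθ g, hθ h]
      linear_combination ((χ g : F) * ψ h *
        (d h - d g0 / ((θ g0 : F) - 1) * (χ h * χ h - 1))) * B.inv g
    · rw [ka, a2 u hu.1, show θ u = 1 from hu.2, Units.val_one, sub_self, mul_zero, sub_self,
        zero_mul]
    · have hl : l ∉ insert 2 W := fun e => (Finset.mem_insert.1 e).elim l2 lW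
      rw [ka, H.unr l hl P ⟨lp, p1, p2⟩ i hi, a3 l hl P ⟨lp, p1, p2⟩ i hi, Units.val_one, sub_self,
        mul_zero, sub_self, zero_mul]
    · rw [ka, div_mul_cancel₀ _ m0, sub_self, zero_mul]
  have kf : ∀ b ∈ Hs W g0 χ ψ, k (f b) = b := fun b hb => funext fun g => by
    rw [ka, fa, fa, hb.2.2.2, zero_mul, zero_sub, neg_div, mul_div_cancel_right₀ _ m0]
    linear_combination b g * B.inv g
  have fk : ∀ d ∈ Hn θ (insert 2 W) g1, f (k d) = d := fun d hd => funext fun g => by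
    rw [fa, ka, ka, hd.2.2.2, zero_sub, mul_assoc _ (ψ g1 : F), B.symm.inv, mul_one, neg_div,
      mul_div_cancel_right₀ _ m1, mul_assoc _ (ψ g : F), B.symm.inv]
    ring
  have f2 : ∀ b ∈ Vs W g0 χ ψ, f b ∈ V2 θ (insert 2 W) g1 := by
    rintro b ⟨hb, m, hm⟩
    refine ⟨f1 b hb, Cnt.Bo.zero (θ := θ) ⟨m - b g1 * χ g1 / ((θ g1 : F) - 1), fun g hg => ?_⟩
      H.mem H.ne (f1 b hb).2.2.2⟩
    rw [fa, hm g hg, hθ g]
    linear_combination m * B.inv g + m * two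
  have k2 : ∀ d ∈ V2 θ (insert 2 W) g1, k d ∈ Vs W g0 χ ψ := by
    rintro d ⟨hd, h0⟩
    refine ⟨k1 d hd, -(d g0 / ((θ g0 : F) - 1)), fun g hg => ?_⟩
    rw [ka, h0 g hg, hθ g]
    linear_combination (-(d g0 / ((θ g0 : F) - 1)) * χ g) * B.inv g +
      (d g0 / ((θ g0 : F) - 1) * ψ g) * two
  have f3 : ∀ b ∈ Kc F c, f b ∈ Zs F {c} := fun b hb g hg => by
    rw [hg, fa, show b c = 0 from hb, tc, sub_self, zero_mul, mul_zero, sub_self]
  have k3 : ∀ d ∈ Zs F {c}, k d ∈ Kc F c := fun d hd => by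
    show k d c = 0
    rw [ka, hd c rfl, tc, sub_self, mul_zero, sub_self, zero_mul]
  exact ⟨eqv f k f1 k1 kf fk, eqv f k f2 k2 (fun b hb => kf b hb.1) fun d hd => fk d hd.1,
    eqv f k (fun b hb => ⟨f1 b hb.1, f3 b hb.2⟩) (fun d hd => ⟨k1 d hd.1, k3 d hd.2⟩)
      (fun b hb => kf b hb.1) fun d hd => fk d hd.1,
    eqv f k (fun b hb => ⟨f2 b hb.1, f3 b hb.2⟩) (fun d hd => ⟨k2 d hd.1, k3 d hd.2⟩)
      (fun b hb => kf b hb.1.1) fun d hd => fk d hd.1.1⟩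

theorem sq1 (B : Bs χ ψ W) {g : GQ} (h : χ g ≠ ψ g) : (χ * χ) g ≠ 1 := fun e => h (Units.ext (by
  have e' : (χ g : F) * χ g = 1 := congrArg Units.val e
  linear_combination (ψ g : F) * e' - (χ g : F) * B.inv g))

theorem codim [Finite F] (H : Hy θ (insert 2 W) g1) (hc : IsConj c) :
    finrank F (Hn θ (insert 2 W) g1) ≤ finrank F (V2 θ (insert 2 W) g1) + 1 := by
  haveI := Cnt.fin H hc
  obtain ⟨v, -, -, hv⟩ := Cnt.loc2 H.opn ⟨g1, H.mem, H.ne⟩
  let β : Hn θ (insert 2 W) g1 →ₗ[F] F := (LinearMap.proj v).domRestrict _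
  have h1 := β.finrank_range_add_finrank_ker
  have h2 : finrank F (LinearMap.range β) ≤ 1 := by
    simpa using Submodule.finrank_le (LinearMap.range β)
  haveI : Module.Finite F (V2 θ (insert 2 W) g1) := Submodule.finiteDimensional_of_le inf_le_left
  have h3 : finrank F (LinearMap.ker β) ≤ finrank F (V2 θ (insert 2 W) g1) := by
    rw [← Submodule.finrank_map_subtype_eq]
    refine Submodule.finrank_mono ?_
    rintro _ ⟨x, hx, rfl⟩
    exact ⟨x.2, (hv x x.2.1 x.2.2.1 hx).zero H.mem H.ne x.2.2.2.2⟩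
  omega

end

/-- **the count** -/
theorem cnt : CNT := by
  intro F _ _ _ χ ψ W g0 c B reg ⟨g1, m1, n1⟩ n0 hc
  have H : Hy (χ * χ) (insert 2 W) g1 := by
    refine ⟨Subgroup.isOpen_mono (H₁ := χ.ker) (fun g k => ?_) B.opn, fun l hl => ?_,
      Finset.mem_insert_self _ _, fun l hl P o i hi => ?_, fun l hl l2 P o => ?_, m1, sq1 B n1⟩
    · show χ g * χ g = 1
      rw [show χ g = 1 from k, mul_one]
    · rcases Finset.mem_insert.1 hl with rfl | k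
      · exact Nat.prime_two
      · obtain ⟨-, P, o, -⟩ := reg l k
        exact o.1
    · rw [Finset.mem_insert, not_or] at hl
      show χ i * χ i = 1
      rw [show χ i = 1 from Units.ext (B.unr l hl.2 hl.1 P o i hi), mul_one]
    · obtain ⟨-, P', o', k⟩ := reg l ((Finset.mem_insert.1 hl).resolve_left l2)
      exact (reg_all o' o k).imp fun g hg => ⟨hg.1, sq1 B hg.2⟩
  obtain ⟨⟨a1⟩, ⟨a2⟩, ⟨a3⟩, -⟩ := trf (g0 := g0) B (fun g => rfl) H (sq1 B n0) hc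
  obtain ⟨-, ⟨b2⟩, -, ⟨b4⟩⟩ := trf (g0 := g0) B.symm (θ := (χ * χ)⁻¹) (fun g => by
    have e : (ψ g : F) = (χ g : F)⁻¹ := eq_inv_of_mul_eq_one_right (B.inv g)
    rw [e, MonoidHom.inv_apply, Units.val_inv_eq_inv_val, MonoidHom.mul_apply, Units.val_mul,
      mul_inv]) H.inv (fun e => sq1 B n0 (Cnt.inv1.1 e)) hc
  haveI := Cnt.fin H hc
  have c1 := Cnt.cntA H hc
  have c2 := Cnt.cntB H.inv hc
  rw [show (χ * χ)⁻¹⁻¹ = χ * χ from MonoidHom.ext fun g => inv_inv _] at c2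
  refine ⟨a1.symm.finiteDimensional, ?_, ?_, ?_⟩
  · rw [a1.finrank_eq, b4.finrank_eq]
    omega
  · rw [a3.finrank_eq, b2.finrank_eq]
    exact Cnt.cntC H hc
  · rw [a1.finrank_eq, a2.finrank_eq]
    exact codim H hc

/-- **row FIX** -/
theorem fixC : Alg.FIX := by
  intro F _ _ _ χ₀ ψ₀ W g0 c0 B w2 reg h2 n0 hc
  obtain ⟨χ, ψ, I, J, i1, i2, i3, i4, s, b, c, ho, X, A⟩ :=
    fix cnt B (fun l hl => ⟨fun e => w2 (e ▸ hl), (reg l hl).2⟩) h2 n0 hc
  exact ⟨χ, ψ, I, J, i1, i2, i3, i4, s, b, c, ho, X, A.tb, A.tc⟩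

/-- **row ARI2** -/
theorem ari2C : Alg.ARI2 := Alg.ari2 fixC

end Vale.Agent.P022R.Fx
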