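import Vale.Agent.P022R.Geo

/-!
# P022R, row GB: pairwise coprime leading monomials
-/

set_option linter.all false

open MvPolynomial

noncomputable section

namespace Vale.Agent.P022R

namespace GbP

variable {σ κ F : Type} [Field F] (m : MonomialOrder.{0,0} σ) (f : κ → MvPolynomial σ F)

/-- division by the members of `T` -/
theorem red (h0 : ∀ k, f k ≠ 0) (T : Set κ) (c : MvPolynomial σ F) :
    ∃ r, c - r ∈ Ideal.span (f '' T) ∧ (r ≠ 0 → ∀ k ∈ T, ¬ m.degree (f k) ≤ m.degree r) := by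
  obtain ⟨g, r, e, -, hr⟩ := m.div (b := fun k : T => f k.1)
    (fun k => m.isUnit_leadingCoeff.2 (h0 k.1)) c
  refine ⟨r, ?_, fun hr0 k hk => hr _ (m.degree_mem_support hr0) ⟨k, hk⟩⟩
  rw [sub_eq_iff_eq_add.2 e, Finsupp.linearCombination_apply, Finsupp.sum]
  refine Ideal.sum_mem _ fun k _ => ?_
  rw [smul_eq_mul]
  exact Ideal.mul_mem_left _ _ (Ideal.subset_span ⟨k.1, k.2, rfl⟩)

theorem lead (h0 : ∀ k, f k ≠ 0)
    (hc : ∀ k k', k ≠ k' → ∀ s, m.degree (f k) s = 0 ∨ m.degree (f k') s = 0) (T : Finset κ) :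
    ∀ g ∈ Ideal.span (f '' (T : Set κ)), g ≠ 0 → ∃ k ∈ T, m.degree (f k) ≤ m.degree g := by
  classical
  induction T using Finset.induction_on with
  | empty =>
    intro g hg hg0
    simp at hg
    exact absurd hg hg0
  | insert a T ha ih =>
    intro g hg hg0
    rw [Finset.coe_insert, Set.image_insert_eq, Ideal.mem_span_insert] at hg
    obtain ⟨c, h, hh, rfl⟩ := hg
    obtain ⟨r, hr1, hr2⟩ := red m f h0 (T : Set κ) c
    have hh' : (c - r) * f a + h ∈ Ideal.span (f '' (T : Set κ)) :=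
      Ideal.add_mem _ (Ideal.mul_mem_right _ _ hr1) hh
    have e : c * f a + h = r * f a + ((c - r) * f a + h) := by ring
    rw [e] at hg0 ⊢
    generalize (c - r) * f a + h = h' at hh' hg0
    by_cases hr0 : r = 0
    · subst hr0
      rw [zero_mul, zero_add] at hg0 ⊢
      obtain ⟨k, hk, hk'⟩ := ih h' hh' hg0
      exact ⟨k, Finset.mem_insert_of_mem hk, hk'⟩
    have hd : m.degree (r * f a) = m.degree r + m.degree (f a) := m.degree_mul hr0 (h0 a)
    have hle : m.degree (f a) ≤ m.degree (r * f a) := hd ▸ le_add_self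
    by_cases hh0 : h' = 0
    · subst hh0
      rw [add_zero]
      exact ⟨a, Finset.mem_insert_self _ _, hle⟩
    obtain ⟨k, hk, hk'⟩ := ih h' hh' hh0
    rcases lt_trichotomy (m.toSyn (m.degree h')) (m.toSyn (m.degree (r * f a))) with h1 | h1 | h1
    · rw [m.degree_add_of_lt h1]
      exact ⟨a, Finset.mem_insert_self _ _, hle⟩
    · exfalso
      have h2 : m.degree h' = m.degree (r * f a) := m.toSyn.injective h1
      refine hr2 hr0 k hk fun s => ?_
      have h3 := hk' s
      rw [h2, hd, Finsupp.add_apply] at h3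
      rcases hc k a (fun e => ha (e ▸ hk)) s with h4 | h4
      · rw [h4]; exact Nat.zero_le _
      · rwa [h4, add_zero] at h3
    · rw [m.degree_add_eq_right_of_lt h1]
      exact ⟨k, Finset.mem_insert_of_mem hk, hk'⟩

end GbP

theorem gb : GB := by
  intro σ κ F _ _ m f u h0 hc hu p hp
  have e : Set.range f = f '' ((Finset.univ : Finset κ) : Set κ) := by simp
  rw [e] at hp ⊢
  obtain ⟨r, hr1, hr2⟩ := GbP.red m f h0 ((Finset.univ : Finset κ) : Set κ) p
  by_cases hr0 : r = 0
  · rwa [hr0, sub_zero] at hr1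
  exfalso
  have h1 : X u * r ∈ Ideal.span (f '' ((Finset.univ : Finset κ) : Set κ)) := by
    have : X u * r = X u * p - X u * (p - r) := by ring
    rw [this]
    exact Ideal.sub_mem _ hp (Ideal.mul_mem_left _ _ hr1)
  obtain ⟨k, hk, hk'⟩ := GbP.lead m f h0 hc Finset.univ _ h1 (mul_ne_zero (X_ne_zero u) hr0)
  refine hr2 hr0 k hk fun s => ?_
  have h3 := hk' s
  rw [m.degree_mul (X_ne_zero u) hr0, m.degree_X, Finsupp.add_apply] at h3
  by_cases hs : u = s
  · subst hs
    rw [hu k]; exact Nat.zero_le _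
  · rwa [Finsupp.single_eq_of_ne (Ne.symm hs), zero_add] at h3

end Vale.Agent.P022R
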