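import Vale.Agent.P022F.GenB
import Vale.Agent.P022F.Gm
import Vale.Agent.P022F.OkF
import Vale.Agent.P022E.GW.TauG
import Vale.Agent.P022R.Cnt0

/-!
P022R: the trace ring of a good quotient is generated by finitely many given elements.
-/

set_option linter.all false

open IsLocalRing NumberField TrivSqZeroExt

noncomputable section

namespace Vale.Agent.P022R.GenR

open Vale.Agent.P022 Vale.Agent.P022.H443 Vale.Agent.P022.H346 Vale.Agent.P022D
open Vale.Agent.P022E.As (Tg cc tt dd yy ev0 mT Gw)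
open Vale.Agent.P022E.Loc (Pl Tm)
open Vale.Agent.P027M.S (Inert mx)
open Vale.Agent.P022F (Cc OkF)
open Vale.Agent.P022F.Gen (Opn Unr addin addcj dual le_of_sq quad)
open Vale.Agent.P022F.Gm (GM gm en2 xx ent_congr en2_congr xx_congr_left xx_congr_right)
open Vale.Agent.P022D.Gma (ent)
open Vale.Agent.P022E.GW (Ov Gn Fb)

variable {O F : Type} [CommRing O] [Field F]

/-- the symbols `y` are sent to zero -/
def z0 : Tg O →ₐ[O] Tg O := MvPolynomial.aeval (Sum.elim tt (Sum.elim dd fun _ => 0))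

@[simp] theorem z0_tt (g : GQ) : z0 (tt g : Tg O) = tt g := MvPolynomial.aeval_X _ _
@[simp] theorem z0_dd (g : GQ) : z0 (dd g : Tg O) = dd g := MvPolynomial.aeval_X _ _
@[simp] theorem z0_yy (i : ℕ) : z0 (yy i : Tg O) = 0 := MvPolynomial.aeval_X _ _
@[simp] theorem z0_cc (c : O) : z0 (cc c : Tg O) = cc c := MvPolynomial.aeval_C _ _

theorem map_ent {B B' : Type} [CommRing B] [CommRing B'] (φ : B →+* B') (t : GQ → B) (g0 : GQ)
    (β u : B) (g : GQ) : φ (ent t g0 β u g) = ent (fun g => φ (t g)) g0 (φ β) (φ u) g := by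
  simp only [ent, map_mul, map_sub]

theorem map_en2 {B B' : Type} [CommRing B] [CommRing B'] (φ : B →+* B') (t : GQ → B) (g0 : GQ)
    (β u : B) (g : GQ) : φ (en2 t g0 β u g) = en2 (fun g => φ (t g)) g0 (φ β) (φ u) g := by
  simp only [en2, map_sub, map_ent]

theorem map_xx {B B' : Type} [CommRing B] [CommRing B'] (φ : B →+* B') (t : GQ → B) (g0 : GQ)
    (β u : B) (g h : GQ) : φ (xx t g0 β u g h) = xx (fun g => φ (t g)) g0 (φ β) (φ u) g h := by
  simp only [xx, map_sub, map_mul, map_ent]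

theorem z0_ent (g0 : GQ) (β u : O) (g : GQ) :
    z0 (ent tt g0 (cc β) (cc u) g : Tg O) = ent tt g0 (cc β) (cc u) g := by
  simp only [ent, map_mul, map_sub, z0_tt, z0_cc]

theorem z0_en2 (g0 : GQ) (β u : O) (g : GQ) :
    z0 (en2 tt g0 (cc β) (cc u) g : Tg O) = en2 tt g0 (cc β) (cc u) g := by
  simp only [en2, map_sub, z0_tt, z0_ent]

theorem z0_xx (g0 : GQ) (β u : O) (g h : GQ) :
    z0 (xx tt g0 (cc β) (cc u) g h : Tg O) = xx tt g0 (cc β) (cc u) g h := by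
  simp only [xx, map_sub, map_mul, z0_ent]

/-- the trace ring of a good quotient is a good quotient -/
theorem gw0 {ϖ : O} {L : Pl O} {T Q : Finset ℕ} {r : ℕ} {a : Ideal (Tg O)}
    (h : Gw ϖ L T Q r a) : Gw ϖ L T Q 0 (a.comap z0) := by
  have := h.fin
  refine ⟨Finite.of_injective _ (Ideal.quotientMap_injective (I := a)
      (f := (z0 : Tg O →ₐ[O] Tg O).toRingHom)), h.nil0.imp fun k e => ?_,
    fun g => (h.nilt g).imp fun k e => ?_, fun g => (h.nild g).imp fun k e => ?_,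
    fun i => ⟨1, ?_⟩, ?_, fun g k => ?_, fun g k => ?_, ?_, fun g k => ?_,
    h.opn.imp fun U e => ⟨e.1, fun u hu g => ?_⟩, fun l a1 a2 a3 P a4 a5 s a6 g => ?_,
    fun g hg => ?_, fun g hg => ?_, fun i _ => ?_⟩ <;>
    simp only [Ideal.mem_comap, map_pow, map_sub, map_add, map_mul, map_one, map_ofNat, z0_tt,
      z0_dd, z0_yy, z0_cc, pow_one, zero_mem]
  exacts [e, e, e, h.t1, h.tc g k, h.tm g k, h.d1, h.dm g k, e.2 u hu g,
    h.unr l a1 a2 a3 P a4 a5 s a6 g, h.clt g hg, h.cld g hg]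

/-- the data -/
structure Hy [IsLocalRing O] (red : O →+* F) (L : Pl O) (T : Finset ℕ) (χ ψ : GQ →* Fˣ) :
    Prop where
  surj : Function.Surjective red
  ker : ∀ c, red c = 0 ↔ c ∈ maximalIdeal O
  tr : ∀ g, red (L.r g).trace = (χ g : F) + ψ g
  det : ∀ g, red (L.r g).det = (χ g : F) * ψ g
  hT : ∀ l : ℕ, l.Prime → l ∈ T → l = 2 ∨ l ∈ L.W
  hP : ∀ l ∈ L.W, (L.P l).IsPrime ∧ (l : 𝓞 Qb) ∈ L.P l
  h2 : L.P 2 = Loc2.PP 2
  cj : IsConj L.c
  tm : ∀ l ∈ L.W, Tm l (L.P l) (L.τ l) (L.φ l)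
  reg : ∀ l ∈ L.W, χ (L.g0 l) ≠ ψ (L.g0 l)

/-- the regular element and its eigenvalues -/
structure G0 (red : O →+* F) (L : Pl O) (χ ψ : GQ →* Fˣ) (g0 : GQ) (al be u : O) : Prop where
  mt : g0 ∈ L.TT
  md : g0 ∈ L.DD
  hs : al + be = (L.r g0).trace
  hp : al * be = (L.r g0).det
  hu : (al - be) * u = 1
  ra : red al = χ g0
  rb : red be = ψ g0

/-- the element which detects the quadratic characters unramified outside two -/
def Qd (F : Type) [Field F] (s : GQ) : Prop := s ∈ W.dec (Loc2.PP 2) ∧ ∀ c : GQ, IsConj c →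
  ∀ p : GQ → F, (∀ g h, p (g * h) = p g + p h) → Opn p → Unr ∅ p → p c = 0 → p s = 0 →
    ∀ g, p g = 0

theorem exQd (F : Type) [Field F] [CharP F 2] : ∃ s, Qd F s := by
  obtain ⟨s, h1, h2⟩ := quad
  exact ⟨s, h1, h2 F⟩

/-- normalised cocycles are detected by their values at the `ξ j` -/
def Dt {J : Type} (S : Finset ℕ) (χ ψ : GQ →* Fˣ) (g0 : GQ) (ξ : J → GQ) : Prop :=
  ∀ f : GQ → F, Cc χ ψ f → Opn f → Unr S f → f g0 = 0 → (∀ j, f (ξ j) = 0) → ∀ g, f g = 0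

/-- the coordinates of a tangent vector vanish -/
def Tn {I J κ : Type} (g0 c s : GQ) (be u : O) (ξ : J → GQ) (ζ : I → GQ) (τ : κ → GQ)
    (φ : Tg O →+* DualNumber F) : Prop :=
  (∀ j i, (φ (xx tt g0 (cc be) (cc u) (ξ j) (ζ i))).snd = 0) ∧
    (φ (ent tt g0 (cc be) (cc u) c)).snd = 0 ∧ (φ (ent tt g0 (cc be) (cc u) s)).snd = 0 ∧
    ∀ k, (φ (ent tt g0 (cc be) (cc u) (τ k))).snd = 0 ∧ (φ (dd (τ k))).snd = 0

theorem addgn [CharP F 2] {p : GQ → F} (h : ∀ g k, p (g * k) = p g + p k) (ho : Opn p) {l : ℕ}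
    (h2 : l ≠ 2) {P Q : Ideal (𝓞 Qb)} (hP : Ov l P) {τ : GQ} (ht : Gn l P τ) (h0 : p τ = 0)
    (hQ : Q.IsPrime) (h1 : (l : 𝓞 Qb) ∈ Q) {s : GQ} (hs : Inert Q s) : p s = 0 := by
  obtain ⟨g, hg⟩ := Fm.W3.conj_in hP.1 hP.2.1 hP.2.2 (s := s) ⟨Q, hQ, h1, hs⟩
  rw [← addcj h g s, P022E.GW.Tg.mult hP h2 ht (fun s _ t _ => h s t)
    (ho.imp fun U e => ⟨e.1, fun σ m _ => e.2 σ m⟩) hg, h0, mul_zero]

/-- cocycles are unramified at the primes at which the characters are unramified and different -/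
theorem unrQ [CharP F 2] {χ ψ : GQ →* Fˣ} (o1 : IsOpen (χ.ker : Set GQ))
    (o2 : IsOpen (ψ.ker : Set GQ)) {S Q : Finset ℕ}
    (hQ : ∀ l ∈ Q, l ∉ S → ∀ P, Ov l P → (∃ g ∈ W.dec P, χ g ≠ ψ g) ∧ ∀ s, Inert P s → χ s = ψ s)
    {f : GQ → F} (hf : Cc χ ψ f) (ho : Opn f) (hu : Unr (S ∪ Q) f) : Unr S f := by
  intro l hl h2 hS P hP hlP s hs
  by_cases hq : l ∈ Q
  · obtain ⟨⟨g, g1, g2⟩, k⟩ := hQ l hq hS P ⟨hl, hP, hlP⟩
    have iψ : ∀ g, (ψ g : F) * ((ψ g)⁻¹ : Fˣ) = 1 := fun g => Units.mul_inv _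
    obtain ⟨m, hm⟩ := Cnt.loc (θ := χ * ψ⁻¹) (b := fun g => f g * ((ψ g)⁻¹ : Fˣ))
      (by
        have := galQb
        refine Subgroup.isOpen_mono (H₁ := χ.ker ⊓ ψ.ker) (fun u hu => ?_) (o1.inter o2)
        show χ u * (ψ u)⁻¹ = 1
        rw [show χ u = 1 from hu.1, show ψ u = 1 from hu.2, inv_one, mul_one])
      (fun g h => by
        show f (g * h) * _ = f g * _ + ((χ g * (ψ g)⁻¹ : Fˣ) : F) * (f h * _)
        rw [hf, map_mul, mul_inv, Units.val_mul, Units.val_mul]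
        linear_combination (f g * ((ψ g)⁻¹ : Fˣ)) * iψ h)
      (ho.imp fun U e => ⟨e.1, fun σ m => by show f σ * _ = 0; rw [e.2 σ m, zero_mul]⟩)
      ⟨hl, hP, hlP⟩ h2 ⟨g, g1, fun e => g2 (mul_inv_eq_one.1 e)⟩
    have e := hm s (W.inP_le_dec hs)
    rw [show (χ * ψ⁻¹) s = 1 from mul_inv_eq_one.2 (k s hs), Units.val_one, sub_self,
      mul_zero] at e
    exact (mul_eq_zero.1 e).resolve_right (Units.ne_zero _)
  · exact hu l hl h2 (fun e => (Finset.mem_union.1 e).elim hS hq) P hP hlP s hs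

variable [IsLocalRing O] [CharP F 2] {red : O →+* F} {L : Pl O} {T Q : Finset ℕ} {χ ψ : GQ →* Fˣ}
  {ϖ : O} {g0 s : GQ} {al be u : O} {I J κ : Type} {ξ : J → GQ} {ζ : I → GQ} {τ : κ → GQ}

/-- **the tangent space** -/
theorem tanR (H : Hy red L T χ ψ) (G : G0 red L χ ψ g0 al be u) (hs : Qd F s)
    (dB : Dt (L.W ∪ Q) χ ψ g0 ξ) (dC : Dt (L.W ∪ Q) ψ χ g0 ζ)
    (hQ : ∀ l ∈ Q, ∃ k P, Ov l P ∧ Gn l P (τ k)) {a : Ideal (Tg O)} (h : Gw ϖ L T Q 0 a)
    (φ : Tg O →+* DualNumber F) (ha : ∀ u ∈ a, φ u = 0) (hc : ∀ c, φ (cc c) = inl (red c))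
    (z : Tn g0 L.c s be u ξ ζ τ φ) : ∀ w, (φ w).snd = 0 := by
  obtain ⟨hs, hq⟩ := hs
  obtain ⟨z1, z2, z3, z4⟩ := z
  have two : (2 : F) = 0 := CharTwo.two_eq_zero
  have eq : ∀ {x y : Tg O}, x - y ∈ a → φ x = φ y := fun hx => by
    have := ha _ hx
    rwa [map_sub, sub_eq_zero] at this
  have nil : ∀ {x : Tg O} {c : O}, (∃ k : ℕ, (x - cc c) ^ k ∈ a) → (φ x).fst = red c := by
    rintro x c ⟨k, hk⟩
    have := congrArg fst (ha _ hk)
    rw [map_pow, fst_pow, fst_zero, map_sub, fst_sub, hc, fst_inl] at this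
    exact sub_eq_zero.1 (eq_zero_of_pow_eq_zero this)
  have cst : ∀ {x : Tg O} {c : O}, x - cc c ∈ a → (φ x).snd = 0 := fun hx => by
    rw [eq hx, hc, snd_inl]
  let d0 : GQ →* DualNumber F :=
    { toFun := fun g => φ (dd g)
      map_one' := (eq h.d1).trans (map_one φ)
      map_mul' := fun g k => (eq (h.dm g k)).trans (map_mul φ _ _) }
  have T0 : TF (fun g => φ (tt g)) d0.toHomUnits :=
    ⟨(eq h.t1).trans (map_ofNat φ 2), fun g k => eq (h.tc g k), fun g k => by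
      have := eq (h.tm g k)
      rwa [map_mul, map_add, map_mul] at this⟩
  have opn : ∀ {b : GQ → F}, (∀ n, (∀ g, φ (tt (g * n)) = φ (tt g)) → b n = 0) → Opn b :=
    fun hb => by
      obtain ⟨U, hU, hu⟩ := h.opn
      exact ⟨U, hU, fun u hu' => hb u fun g => eq (hu u hu' g)⟩
  have unr : ∀ {b : GQ → F}, (∀ n, (∀ g, φ (tt (g * n)) = φ (tt g)) → b n = 0) →
      Unr (L.W ∪ Q) b :=
    fun hb l hl h2 hW P hP hlP s hs => hb s fun g => eq (h.unr l hl
      (fun hT => (H.hT l hl hT).elim h2 fun e => hW (Finset.mem_union_left _ e))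
      (fun e => hW (Finset.mem_union_right _ e)) P hP hlP s hs g)
  have ft : ∀ g, (φ (tt g)).fst = (χ g : F) + ψ g := fun g => (nil (h.nilt g)).trans (H.tr g)
  have cm : ∀ x y : O, φ (cc (x * y)) = φ (cc x) * φ (cc y) := fun x y => by
    rw [← map_mul]; exact congrArg φ (map_mul MvPolynomial.C x y)
  obtain ⟨M, -, -, x0, x1⟩ := gm T0 g0 (α := φ (cc al)) (β := φ (cc be)) (u := φ (cc u))
    (by
      rw [eq (h.clt g0 G.mt), ← G.hs, ← map_add]
      exact congrArg φ (map_add MvPolynomial.C al be).symm)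
    (by
      show _ = φ (dd g0)
      rw [eq (h.cld g0 G.md), ← G.hp, cm])
    (by
      rw [← map_sub, ← map_mul, ← map_one φ]
      refine congrArg φ ?_
      rw [← map_one (MvPolynomial.C : O →+* Tg O), ← G.hu, map_mul, map_sub]
      rfl)
  simp only [map_xx, map_ent] at z1 z2 z3 z4
  have hw : ((χ g0 : F) - ψ g0) * red u = 1 := by
    rw [← G.ra, ← G.rb, ← map_sub, ← map_mul, G.hu, map_one]
  have fa : ∀ g, (ent (fun g => φ (tt g)) g0 (φ (cc be)) (φ (cc u)) g).fst = χ g := fun g => by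
    rw [ent, fst_mul, fst_sub, fst_mul, ft, ft, hc, hc, fst_inl, fst_inl, G.rb, map_mul, map_mul,
      Units.val_mul, Units.val_mul]
    linear_combination (χ g : F) * hw
  have nn : ∀ n, (∀ g, φ (tt (g * n)) = φ (tt g)) →
      ent (fun g => φ (tt g)) g0 (φ (cc be)) (φ (cc u)) n = 1 ∧
      en2 (fun g => φ (tt g)) g0 (φ (cc be)) (φ (cc u)) n = 1 ∧
      ∀ k, xx (fun g => φ (tt g)) g0 (φ (cc be)) (φ (cc u)) n k = 0 ∧
        xx (fun g => φ (tt g)) g0 (φ (cc be)) (φ (cc u)) k n = 0 := fun n hn => by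
    have e1 : ∀ y, φ (tt (n * y)) = φ (tt (1 * y)) := fun y => by
      rw [eq (h.tc n y), hn, one_mul]
    refine ⟨(ent_congr e1).trans M.a1, (en2_congr e1).trans M.b1, fun k =>
      ⟨(xx_congr_left e1 k).trans (M.x1 k).1, (xx_congr_right (s' := 1) (fun z y => ?_) k).trans
        (M.x1 k).2⟩⟩
    show φ (tt (z * n * y)) = φ (tt (z * 1 * y))
    rw [eq (h.tc (z * n) y), ← mul_assoc, hn, eq (h.tc y z), mul_one]
  generalize ent (fun g => φ (tt g)) g0 (φ (cc be)) (φ (cc u)) = A at M z2 z3 z4 fa nn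
  generalize en2 (fun g => φ (tt g)) g0 (φ (cc be)) (φ (cc u)) = D at M nn
  generalize xx (fun g => φ (tt g)) g0 (φ (cc be)) (φ (cc u)) = x at M x0 x1 z1 nn
  have fd : ∀ g, (D g).fst = ψ g := fun g => by
    have := congrArg fst (M.sum g)
    rw [fst_add, fa, ft] at this
    exact add_left_cancel this
  have fx : ∀ g h, (x g h).fst = 0 := fun g h => by
    have := congrArg fst (M.am g h)
    rw [fst_add, fst_mul, fa, fa, fa, map_mul, Units.val_mul] at this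
    exact left_eq_add.1 this
  have xi : ∀ g i, (x g (ζ i)).snd = 0 := fun g i => by
    have z : ∀ n, (∀ g, φ (tt (g * n)) = φ (tt g)) → (x n (ζ i)).snd = 0 := fun n hn => by
      rw [((nn n hn).2.2 _).1, snd_zero]
    refine dB (fun g => (x g (ζ i)).snd) (fun g g' => ?_) (opn z) (unr z)
      (by show (x g0 _).snd = 0; rw [x0, snd_zero]) (fun j => z1 j i) g
    show (x (g * g') _).snd = _
    rw [M.cl, snd_add, DualNumber.snd_mul, DualNumber.snd_mul, fx, fx, fa, fd]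
    ring
  have xz : ∀ g k, x g k = 0 := fun g k => by
    have z : ∀ n, (∀ g, φ (tt (g * n)) = φ (tt g)) → (x g n).snd = 0 := fun n hn => by
      rw [((nn n hn).2.2 _).2, snd_zero]
    ext
    · rw [fx, fst_zero]
    rw [snd_zero]
    refine dC (fun k => (x g k).snd) (fun k k' => ?_) (opn z) (unr z)
      (by show (x g g0).snd = 0; rw [x1, snd_zero]) (xi g) k
    show (x g (k * k')).snd = _
    rw [M.cr, snd_add, DualNumber.snd_mul, DualNumber.snd_mul, fx, fx, fa, fd]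
    ring
  have iχ : ∀ g, (χ g : F) * ((χ g)⁻¹ : Fˣ) = 1 := fun g => Units.mul_inv _
  have iψ : ∀ g, (ψ g : F) * ((ψ g)⁻¹ : Fˣ) = 1 := fun g => Units.mul_inv _
  obtain ⟨p, ep⟩ : ∃ p : GQ → F, ∀ g, p g = ((χ g)⁻¹ : Fˣ) * (A g).snd := ⟨_, fun _ => rfl⟩
  obtain ⟨q, eq'⟩ : ∃ q : GQ → F, ∀ g, q g = ((ψ g)⁻¹ : Fˣ) * (D g).snd := ⟨_, fun _ => rfl⟩
  have hp : ∀ g k, p (g * k) = p g + p k := fun g k => by
    rw [ep, ep, ep, M.am, xz, add_zero, DualNumber.snd_mul, fa, fa, map_mul, mul_inv, Units.val_mul]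
    linear_combination (((χ k)⁻¹ : Fˣ) * (A k).snd) * iχ g + (((χ g)⁻¹ : Fˣ) * (A g).snd) * iχ k
  have hq' : ∀ g k, q (g * k) = q g + q k := fun g k => by
    rw [eq', eq', eq', M.bm, xz, add_zero, DualNumber.snd_mul, fd, fd, map_mul, mul_inv,
      Units.val_mul]
    linear_combination (((ψ k)⁻¹ : Fˣ) * (D k).snd) * iψ g + (((ψ g)⁻¹ : Fˣ) * (D g).snd) * iψ k
  have hn : ∀ n, (∀ g, φ (tt (g * n)) = φ (tt g)) → p n = 0 ∧ q n = 0 := fun n k => by
    rw [ep, eq', (nn n k).1, (nn n k).2.1, snd_one, mul_zero, mul_zero]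
    exact ⟨rfl, rfl⟩
  have ht : ∀ g, (φ (tt g)).snd = χ g * p g + ψ g * q g := fun g => by
    rw [show φ (tt g) = _ from (M.sum g).symm, snd_add, ep, eq']
    linear_combination (-(A g).snd) * iχ g - (D g).snd * iψ g
  have hd : ∀ g, (φ (dd g)).snd = χ g * ψ g * (p g + q g) := fun g => by
    rw [show φ (dd g) = _ from (M.det g).symm, xz, sub_zero, DualNumber.snd_mul, fa, fd, ep, eq']
    linear_combination (-(ψ g : F) * (A g).snd) * iχ g - (χ g : F) * (D g).snd * iψ g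
  have tT : ∀ g ∈ L.TT, (χ g : F) * p g + ψ g * q g = 0 := fun g hg =>
    (ht g).symm.trans (cst (h.clt g hg))
  have tD0 : ∀ g, (φ (dd g)).snd = 0 → p g + q g = 0 := fun g hg =>
    (mul_eq_zero.1 ((hd g).symm.trans hg)).resolve_left (mul_ne_zero (χ g).ne_zero (ψ g).ne_zero)
  have tD : ∀ g ∈ L.DD, p g + q g = 0 := fun g hg => tD0 g (cst (h.cld g hg))
  have both : ∀ g, χ g ≠ ψ g → (χ g : F) * p g + ψ g * q g = 0 → p g + q g = 0 → p g = 0 :=
    fun g n1 n2 n3 => by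
      have : ((χ g : F) - ψ g) * p g = 0 := by linear_combination n2 - (ψ g : F) * n3
      exact (mul_eq_zero.1 this).resolve_left (sub_ne_zero.2 fun e => n1 (Units.ext e))
  have tau : ∀ l ∈ L.W, p (L.τ l) = 0 ∧ q (L.τ l) = 0 := fun l hl => by
    have a1 := tT _ ⟨l, hl, Or.inl rfl⟩
    have a2 := tT _ ⟨l, hl, Or.inr (Or.inl rfl)⟩
    have a3 := tT _ ⟨l, hl, Or.inr (Or.inr rfl)⟩
    have a4 := tD _ (Or.inr (Or.inr (Or.inr ⟨l, hl, rfl⟩)))
    have a5 := both _ (H.reg l hl) a3 a4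
    have a6 : q (L.g0 l) = 0 := by linear_combination a4 - a5
    rw [hp, hq', a5, a6, map_mul, map_mul, Units.val_mul, Units.val_mul] at a2
    have a7 : ((χ (L.g0 l) : F) - ψ (L.g0 l)) * (χ (L.τ l) * p (L.τ l)) = 0 := by
      linear_combination a2 - (ψ (L.g0 l) : F) * a1
    have a8 := (mul_eq_zero.1 ((mul_eq_zero.1 a7).resolve_left
      (sub_ne_zero.2 fun e => H.reg l hl (Units.ext e)))).resolve_left (χ _).ne_zero
    rw [a8, mul_zero, zero_add] at a1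
    exact ⟨a8, (mul_eq_zero.1 a1).resolve_left (ψ _).ne_zero⟩
  have un0 : ∀ {b : GQ → F}, (∀ g k, b (g * k) = b g + b k) → Opn b → Unr (L.W ∪ Q) b →
      (∀ l ∈ L.W, b (L.τ l) = 0) → (∀ k, b (τ k) = 0) → Unr ∅ b :=
    fun hb ho hu h0 h1 l hl h2 _ P hP hlP s hs => by
      by_cases hW : l ∈ L.W
      · exact addin hb ho hl (H.hP l hW).1 (H.hP l hW).2 (H.tm l hW) (h0 l hW) hP hlP hs
      by_cases hq : l ∈ Q
      · obtain ⟨k, P', o, g⟩ := hQ l hq
        exact addgn hb ho h2 o g (h1 k) hP hlP hs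
      · exact hu l hl h2 (fun e => (Finset.mem_union.1 e).elim hW hq) P hP hlP s hs
  have pz : ∀ g, (A g).snd = 0 → p g = 0 := fun g e => by rw [ep, e, mul_zero]
  have op := opn fun n k => (hn n k).1
  have up := un0 hp op (unr fun n k => (hn n k).1) (fun l hl => (tau l hl).1)
    fun k => pz _ (z4 k).1
  have ad : ∀ g k, p (g * k) + q (g * k) = (p g + q g) + (p k + q k) := fun g k => by
    rw [hp, hq']; ring
  have z0 : ∀ n, (∀ g, φ (tt (g * n)) = φ (tt g)) → p n + q n = 0 := fun n k => by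
    rw [(hn n k).1, (hn n k).2, add_zero]
  have pq : ∀ g, p g + q g = 0 := hq L.c H.cj (fun g => p g + q g) ad (opn z0)
    (un0 ad (opn z0) (unr z0) (fun l hl => by rw [(tau l hl).1, (tau l hl).2, add_zero])
      fun k => tD0 _ (z4 k).2)
    (tD _ (Or.inr (Or.inl rfl))) (tD _ (Or.inl (H.h2 ▸ hs)))
  have p0 : ∀ g, p g = 0 := hq L.c H.cj p hp op up (pz _ z2) (pz _ z3)
  have q0 : ∀ g, q g = 0 := fun g => by linear_combination pq g - p0 g
  have gen : ∀ i, (φ (MvPolynomial.X i)).snd = 0 := by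
    rintro (g | g | i)
    · exact (ht g).trans (by rw [p0, q0, mul_zero, mul_zero, add_zero])
    · exact (hd g).trans (by rw [pq, mul_zero])
    · rw [show φ (MvPolynomial.X (Sum.inr (Sum.inr i))) = 0 from ha _ (h.yz i (Nat.zero_le i)),
        snd_zero]
  intro w
  induction w using MvPolynomial.induction_on with
  | C c => rw [show φ (MvPolynomial.C c) = inl (red c) from hc c, snd_inl]
  | add u v hu hv => rw [map_add, snd_add, hu, hv, add_zero]
  | mul_X u i hu => rw [map_mul, DualNumber.snd_mul, hu, gen, mul_zero, zero_mul, add_zero]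

/-- the maximal ideal is nilpotent modulo a good ideal -/
theorem nilm {r : ℕ} {a : Ideal (Tg O)} (h : Gw ϖ L T Q r a)
    (hϖ : maximalIdeal O = Ideal.span {ϖ}) : ∃ k : ℕ, mT L.r ^ k ≤ a := by
  have := h.fin
  obtain ⟨k, hk⟩ : IsNilpotent (nilradical (Tg O ⧸ a)) := IsNoetherianRing.isNilpotent_nilradical _
  refine ⟨k, ?_⟩
  rw [← Ideal.mk_ker (I := a), ← Ideal.map_eq_bot_iff_le_ker, Ideal.map_pow, eq_bot_iff]
  refine le_trans (Ideal.pow_right_mono ?_ k) hk.le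
  rw [Ideal.map_le_iff_le_comap]
  intro b hb
  obtain ⟨n, hn⟩ := P022E.As.Bas.rad h hϖ hb
  exact ⟨n, by rw [← map_pow]; exact Ideal.Quotient.eq_zero_iff_mem.2 hn⟩

/-- Nakayama: if no tangent vector is killed by the `v i`, they generate -/
theorem nak (surj : Function.Surjective red) (ker : ∀ c, red c = 0 ↔ c ∈ maximalIdeal O)
    (hϖ : maximalIdeal O = Ideal.span {ϖ}) {r : ℕ} {a : Ideal (Tg O)} (h : Gw ϖ L T Q r a)
    {σ : Type} (v : σ → Tg O) (vm : ∀ i, v i ∈ mT L.r)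
    (hg : ∀ φ : Tg O →+* DualNumber F, (∀ w ∈ a, φ w = 0) → (∀ c, φ (cc c) = inl (red c)) →
      (∀ w, (φ w).fst = red (ev0 L.r w)) → (∀ i, φ (v i) = 0) → ∀ w, (φ w).snd = 0)
    (p : Tg O) : ∃ f : MvPolynomial σ O, p - MvPolynomial.aeval v f ∈ a := by
  by_cases ha : a = ⊤
  · exact ⟨0, by rw [ha]; trivial⟩
  let π : Tg O →+* F := red.comp (ev0 L.r)
  have hm : RingHom.ker π = mT L.r := Ideal.ext fun u => ker _
  have hr : mT L.r ≤ a.radical := fun b hb => P022E.As.Bas.rad h hϖ hb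
  have hmax : (mT L.r).IsMaximal := by
    rw [← hm]
    exact RingHom.ker_isMaximal_of_surjective π fun x => by
      obtain ⟨c, rfl⟩ := surj x
      exact ⟨cc c, congrArg red (As.ev0_cc _ c)⟩
  have ham : a ≤ mT L.r := by
    rw [hmax.eq_of_le (fun e => ha (Ideal.radical_eq_top.1 e)) hr]
    exact Ideal.le_radical
  have hk := nilm h hϖ
  have sub : ∀ p : Tg O, p - cc (ev0 L.r p) ∈ mT L.r := fun p => by
    show ev0 L.r (p - cc _) ∈ maximalIdeal O
    rw [map_sub, As.ev0_cc, sub_self]; exact zero_mem _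
  let K : Ideal (Tg O) := Ideal.span (insert (cc ϖ) (Set.range v))
  have hϖm : ϖ ∈ maximalIdeal O := hϖ ▸ Ideal.mem_span_singleton_self ϖ
  have hK0 : ∀ y ∈ insert (cc ϖ) (Set.range v), y ∈ mT L.r := by
    rintro _ (rfl | ⟨i, rfl⟩)
    · show ev0 L.r (cc ϖ) ∈ maximalIdeal O
      rwa [As.ev0_cc]
    · exact vm i
  have hK : K ≤ mT L.r := Ideal.span_le.2 hK0
  have hJ : mT L.r ≤ a ⊔ K := le_of_sq (hk.imp fun k e => e.trans le_sup_left) fun u hu => by
    by_contra hn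
    obtain ⟨φ, h1, h2, h3⟩ := dual red surj MvPolynomial.C π
      (fun c => congrArg red (As.ev0_cc _ c)) (a ⊔ K ⊔ mT L.r ^ 2)
      (by rw [hm]; exact sup_le (sup_le ham hK) (Ideal.pow_le_self two_ne_zero))
      (by rw [hm]; exact le_sup_right)
      (fun c hc => by
        obtain ⟨e, rfl⟩ := Ideal.mem_span_singleton'.1 (hϖ ▸ (ker c).1 hc)
        rw [map_mul]
        exact Ideal.mul_mem_left _ _ (Ideal.mem_sup_left (Ideal.mem_sup_right
          (Ideal.subset_span (Or.inl rfl))))) ((ker _).2 hu) hn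
    refine h3 (hg φ (fun v hv => h1 v (Ideal.mem_sup_left (Ideal.mem_sup_left hv))) h2
      (fun w => ?_) (fun i => h1 _ (Ideal.mem_sup_left (Ideal.mem_sup_right
        (Ideal.subset_span (Or.inr ⟨i, rfl⟩))))) u)
    have := congrArg fst (h1 _ (Ideal.mem_sup_right (Ideal.pow_mem_pow (sub w) 2)))
    rw [map_pow, fst_pow, fst_zero, map_sub, fst_sub, show φ (cc _) = _ from h2 _, fst_inl] at this
    exact sub_eq_zero.1 (eq_zero_of_pow_eq_zero this)
  have key : ∀ (k : ℕ) (p : Tg O), ∃ f : MvPolynomial σ O,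
      p - MvPolynomial.aeval v f ∈ a ⊔ mT L.r ^ k := fun k => by
    induction k with
    | zero => exact fun p => ⟨0, Ideal.mem_sup_right (by rw [pow_zero, Ideal.one_eq_top]; trivial)⟩
    | succ k ih =>
      have st : ∀ w ∈ K, ∀ b : Tg O, ∃ f : MvPolynomial σ O,
          b * w - MvPolynomial.aeval v f ∈ a ⊔ mT L.r ^ (k + 1) := fun w hw => by
        induction hw using Submodule.span_induction with
        | mem y hy =>
          intro b
          obtain ⟨f, e⟩ := ih b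
          obtain ⟨y', ey⟩ : ∃ y' : MvPolynomial σ O, MvPolynomial.aeval v y' = y := by
            obtain rfl | ⟨i, rfl⟩ := hy
            exacts [⟨MvPolynomial.C ϖ, MvPolynomial.aeval_C _ _⟩, ⟨_, MvPolynomial.aeval_X _ _⟩]
          refine ⟨f * y', ?_⟩
          rw [map_mul, ey, ← sub_mul]
          obtain ⟨x1, a1, x2, a2, e2⟩ := Submodule.mem_sup.1 e
          rw [← e2, add_mul, pow_succ]
          exact add_mem (Ideal.mem_sup_left (Ideal.mul_mem_right _ _ a1))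
            (Ideal.mem_sup_right (Ideal.mul_mem_mul a2 (hK0 y hy)))
        | zero => exact fun b => ⟨0, by rw [mul_zero, map_zero, sub_zero]; exact zero_mem _⟩
        | add x y _ _ hx hy =>
          intro b
          obtain ⟨f, e⟩ := hx b
          obtain ⟨f', e'⟩ := hy b
          exact ⟨f + f', by rw [mul_add, map_add, add_sub_add_comm]; exact add_mem e e'⟩
        | smul c x _ hx =>
          intro b
          rw [smul_eq_mul, ← mul_assoc]
          exact hx _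
      intro p
      obtain ⟨x, hx, w, hw, e⟩ := Submodule.mem_sup.1 (hJ (sub p))
      obtain ⟨f, ef⟩ := st w hw 1
      refine ⟨MvPolynomial.C (ev0 L.r p) + f, ?_⟩
      rw [map_add, MvPolynomial.aeval_C, ← sub_sub, show algebraMap O (Tg O) _ = cc _ from rfl, ← e,
        add_sub_assoc]
      exact add_mem (Ideal.mem_sup_left hx) (by rwa [one_mul] at ef)
  obtain ⟨k, hk⟩ := hk
  exact (key k p).imp fun f e => sup_le le_rfl hk e

/-- **GEN** -/
theorem gen (H : Hy red L T χ ψ) (G : G0 red L χ ψ g0 al be u) (hs : Qd F s)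
    (hϖ : maximalIdeal O = Ideal.span {ϖ})
    (dB : Dt (L.W ∪ Q) χ ψ g0 ξ) (dC : Dt (L.W ∪ Q) ψ χ g0 ζ)
    (hQ : ∀ l ∈ Q, ∃ k P, Ov l P ∧ Gn l P (τ k)) {σ : Type} (v : σ → Tg O)
    (vm : ∀ i, v i ∈ mT L.r) (vz : ∀ i, z0 (v i) = v i)
    (hv : ∀ φ : Tg O →+* DualNumber F, (∀ c, φ (cc c) = inl (red c)) →
      (∀ w, (φ w).fst = red (ev0 L.r w)) → (∀ i, φ (v i) = 0) → Tn g0 L.c s be u ξ ζ τ φ)
    {r : ℕ} {a : Ideal (Tg O)} (h : Gw ϖ L T Q r a) (p : Tg O) :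
    ∃ f : MvPolynomial σ O, z0 p - MvPolynomial.aeval v f ∈ a := by
  obtain ⟨f, e⟩ := nak H.surj H.ker hϖ (gw0 h) v vm (fun φ h1 h2 h3 h4 =>
    tanR H G hs dB dC hQ (gw0 h) φ h1 h2 (hv φ h2 h3 h4)) p
  refine ⟨f, ?_⟩
  rw [Ideal.mem_comap, map_sub, ← AlgHom.comp_apply, MvPolynomial.comp_aeval] at e
  simpa only [vz] using e

theorem hy {S : P022D.R.Dat O F} (hL : OkF L S) (hχ : ∀ g, (χ g : F) = mx S.rb g 0 0)
    (hψ : ∀ g, (ψ g : F) = mx S.rb g 1 1) : Hy S.red L S.T χ ψ where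
  surj := S.surj
  ker := hL.ker
  tr g := by
    rw [hχ, hψ, ← Matrix.trace_fin_two, ← hL.lift g]
    exact AddMonoidHom.map_trace S.red (L.r g)
  det g := by
    rw [hχ, hψ, S.red.map_det, RingHom.mapMatrix_apply, hL.lift g,
      Matrix.det_fin_two, hL.lo, mul_zero, sub_zero]
  hT l hl h := by
    rw [hL.hT, Finset.mem_insert, Finset.mem_insert] at h
    rcases h with h | h | h
    exacts [absurd h hl.ne_zero, Or.inl h, Or.inr (hL.memW h)]
  hP l hl := hL.hP l (Finset.mem_union_left _ hl)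
  h2 := hL.h2
  cj := hL.cj
  tm l hl := hL.tm l (Finset.mem_union_left _ hl)
  reg l hl e := (hL.reg l hl).2.2 (by rw [hL.d0, hL.d1, ← hχ, ← hψ, e])

theorem exG0 {S : P022D.R.Dat O F} (hL : OkF L S) (hχ : ∀ g, (χ g : F) = mx S.rb g 0 0)
    (hψ : ∀ g, (ψ g : F) = mx S.rb g 1 1) {l : ℕ} (hl : l ∈ L.W) :
    ∃ al be u, G0 S.red L χ ψ (L.g0 l) al be u := by
  have H := hy hL hχ hψ
  obtain ⟨y, h1, h2, -⟩ := hL.ty l hl
  rw [hL.d1, ← hψ] at h2
  have h3 : S.red ((L.r (L.g0 l)).trace - y) = χ (L.g0 l) := by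
    rw [map_sub, H.tr, h2, add_sub_cancel_right]
  have h4 : IsUnit ((L.r (L.g0 l)).trace - y - y) := by
    by_contra hn
    have := (hL.ker _).2 hn
    rw [map_sub, h3, h2, sub_eq_zero] at this
    exact H.reg l hl (Units.ext this)
  obtain ⟨u, hu⟩ := h4.exists_right_inv
  refine ⟨_, y, u, ⟨l, hl, Or.inr (Or.inr rfl)⟩, Or.inr (Or.inr (Or.inr ⟨l, hl, rfl⟩)),
    sub_add_cancel _ _, ?_, hu, h3, h2⟩
  have : y ^ 2 - (L.r (L.g0 l)).trace * y + (L.r (L.g0 l)).det = 0 := h1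
  linear_combination -this

end Vale.Agent.P022R.GenR
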