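import Vale.Agent.P022R.Geo
import Vale.Agent.P022D.CA.Pow

/-!
# P022R, row GEO: reduction modulo the uniformiser
-/

set_option linter.all false

open IsLocalRing

noncomputable section

namespace Vale.Agent.P022R

open Vale.Agent.P022D.Core (PS Coef I0)
open Vale.Agent.P022D

namespace GeoP

variable {I J : Type} [Fintype I] [Fintype J] [DecidableEq I] [DecidableEq J]

theorem wt_pos (s : Sh I J) (K : Type) (v : Vr I J K) : 0 < s.wt K v := by
  rcases v with v | v | v | v
  · show 0 < (if s.G then 2 else 3)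
    split_ifs <;> omega
  · show 0 < 2
    omega
  · show 0 < 4
    omega
  · show 0 < 2
    omega

variable (K R : Type) [CommRing R]

theorem hx (s : Sh I J) (i : I) (j : J) :
    (vx K R i j).IsWeightedHomogeneous (s.wt K) 4 :=
  MvPolynomial.isWeightedHomogeneous_X R (s.wt K) (Sum.inr (Sum.inr (Sum.inl (i, j))))

theorem hY (s : Sh I J) (i : I) (j : J) :
    (vY K R i j).IsWeightedHomogeneous (s.wt K) 2 :=
  MvPolynomial.isWeightedHomogeneous_X R (s.wt K) (Sum.inr (Sum.inl (i, j)))

theorem ha (s : Sh I J) :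
    (va K R : MvPolynomial (Vr I J K) R).IsWeightedHomogeneous (s.wt K) (if s.G then 2 else 3) :=
  MvPolynomial.isWeightedHomogeneous_X R (s.wt K) (Sum.inl ())

theorem hom (s : Sh I J) (j : Eq I J) :
    (s.eqn K R j).IsWeightedHomogeneous (s.wt K) (s.dg j) := by
  rcases j with ⟨i, k, j, l⟩ | ⟨i, k⟩ | ⟨j, l⟩ | u
  · exact ((hx K R s i j).mul (hx K R s k l)).sub ((hx K R s i l).mul (hx K R s k j))
  · show (if i ∈ s.I0 then ∑ j, vY K R i j * vx K R k j else 0 :
      MvPolynomial (Vr I J K) R).IsWeightedHomogeneous (s.wt K) 6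
    split_ifs
    · exact MvPolynomial.IsWeightedHomogeneous.sum _ _ _ fun j _ =>
        (hY K R s i j).mul (hx K R s k j)
    · exact MvPolynomial.isWeightedHomogeneous_zero _ _ _
  · show (if j ∈ s.J0 then ∑ i, vY K R i j * vx K R i l else 0 :
      MvPolynomial (Vr I J K) R).IsWeightedHomogeneous (s.wt K) 6
    split_ifs
    · exact MvPolynomial.IsWeightedHomogeneous.sum _ _ _ fun i _ =>
        (hY K R s i j).mul (hx K R s i l)
    · exact MvPolynomial.isWeightedHomogeneous_zero _ _ _
  · show (va K R ^ 2 + (if s.G then vx K R s.i0 s.j0 else ∑ j, vY K R s.i0 j * vx K R s.i0 j) :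
      MvPolynomial (Vr I J K) R).IsWeightedHomogeneous (s.wt K) (if s.G then 4 else 6)
    have h := (ha K R s).pow 2
    cases hG : s.G
    · rw [hG] at h
      simp only [Bool.false_eq_true, if_false] at h ⊢
      exact h.add (MvPolynomial.IsWeightedHomogeneous.sum _ _ _ fun j _ =>
        (hY K R s s.i0 j).mul (hx K R s s.i0 j))
    · rw [hG] at h
      simp only [if_true] at h ⊢
      exact h.add (hx K R s s.i0 s.j0)

theorem map_eqn {R' : Type} [CommRing R'] (ψ : R →+* R') (s : Sh I J) (j : Eq I J) :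
    MvPolynomial.map ψ (s.eqn K R j) = s.eqn K R' j := by
  rcases j with ⟨i, k, j, l⟩ | ⟨i, k⟩ | ⟨j, l⟩ | u
  · simp only [Sh.eqn, vx, map_sub, map_mul, MvPolynomial.map_X]
  · simp only [Sh.eqn]
    split_ifs
    · simp only [vx, vY, map_sum, map_mul, MvPolynomial.map_X]
    · exact map_zero _
  · simp only [Sh.eqn]
    split_ifs
    · simp only [vx, vY, map_sum, map_mul, MvPolynomial.map_X]
    · exact map_zero _
  · simp only [Sh.eqn]
    split_ifs
    · simp only [vx, va, map_add, map_pow, MvPolynomial.map_X]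
    · simp only [vx, vY, va, map_add, map_pow, map_sum, map_mul, MvPolynomial.map_X]

theorem map_coe {σ R R' : Type} [CommRing R] [CommRing R'] (ψ : R →+* R')
    (p : MvPolynomial σ R) :
    MvPowerSeries.map (σ := σ) ψ (p : MvPowerSeries σ R) =
      ((MvPolynomial.map ψ p : MvPolynomial σ R') : MvPowerSeries σ R') := by
  ext n
  rw [MvPowerSeries.coeff_map, MvPolynomial.coeff_coe, MvPolynomial.coeff_coe,
    MvPolynomial.coeff_map]

theorem map_er {σ O F : Type} [CommRing O] [CommRing F] (ψ : O →+* F) (ϖ : O) (h : ψ ϖ = 0)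
    (w : σ → ℕ) (k : ℕ) (u : PS O σ) (hu : u ∈ Er ϖ w k) :
    MvPowerSeries.map (σ := σ) ψ u ∈ Fil F w (k + 1) := by
  obtain ⟨a, ha, b, hb, rfl⟩ := Submodule.mem_sup.1 hu
  obtain ⟨c, rfl⟩ := Ideal.mem_span_singleton'.1 ha
  rw [map_add, map_mul, MvPowerSeries.map_C, h, map_zero, mul_zero, zero_add]
  intro d hd
  rw [MvPowerSeries.coeff_map, hb d hd, map_zero]

end GeoP

open GeoP in
theorem geo (h1 : PRM) (h2 : GR) : GEO := by
  intro O I J K _ _ _ hc _ _ _ _ _ ϖ s hϖ hs g hg η hη hle hdim
  have hker0 : RingHom.ker (residue O) = Ideal.span {ϖ} := by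
    rw [ker_residue, hϖ.maximalIdeal_eq]
  have hz : residue O ϖ = 0 := by
    rw [← RingHom.mem_ker, hker0]
    exact Ideal.mem_span_singleton_self ϖ
  have h20 : (2 : ResidueField O) = 0 := by
    have := (residue_eq_zero_iff (2 : O)).2 hc.two
    rwa [map_ofNat] at this
  haveI : CharP (ResidueField O) 2 := CharTwo.of_one_ne_zero_of_two_eq_zero one_ne_zero h20
  have hμ := CA.map_surj (σ := Vr I J K) (residue O) residue_surjective
  have hker := CA.ker_map (σ := Vr I J K) (residue O) hker0
  obtain ⟨hp, hd⟩ := h1 I J K (ResidueField O) s hs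
  have hk : RingHom.ker (MvPowerSeries.map (σ := Vr I J K) (residue O)) ≤ η := by
    rw [hker]
    exact le_sup_right.trans hle
  have hη' : (η.map (MvPowerSeries.map (σ := Vr I J K) (residue O))).comap
      (MvPowerSeries.map (σ := Vr I J K) (residue O)) = η := by
    rw [Ideal.comap_map_of_surjective _ hμ, ← RingHom.ker_eq_comap_bot, sup_eq_left.2 hk]
  have hsp : Ideal.span (Set.range fun j => MvPowerSeries.map (σ := Vr I J K) (residue O) (g j)) =
      (Ideal.span (Set.range g)).map (MvPowerSeries.map (σ := Vr I J K) (residue O)) := by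
    rw [Ideal.map_span, ← Set.range_comp]
    rfl
  have key := h2 (Vr I J K) (Eq I J) (ResidueField O) (s.wt K) (wt_pos s K) s.dg
    (s.eqn K (ResidueField O)) _ (hom K _ s) hp hd
    (fun j => MvPowerSeries.map (σ := Vr I J K) (residue O) (g j)) (fun j => by
      have h3 := map_er (residue O) ϖ hz (s.wt K) (s.dg j) _ (hg j)
      rwa [map_sub, map_coe, map_eqn] at h3)
    (η.map (MvPowerSeries.map (σ := Vr I J K) (residue O))) (by
      rw [hsp]
      exact Ideal.map_mono (le_sup_left.trans hle)) (by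
      rw [← ringKrullDim_eq_of_ringEquiv (CA.comapEquiv _ hμ _), hη']
      exact hdim)
  rw [hsp] at key
  have h4 := Ideal.comap_mono (f := MvPowerSeries.map (σ := Vr I J K) (residue O)) key
  rw [hη', Ideal.comap_map_of_surjective _ hμ, ← RingHom.ker_eq_comap_bot, hker] at h4
  exact h4

end Vale.Agent.P022R
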