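import Vale.Agent.P022R.Geo
import Vale.Agent.P022D.CA.Dep
import Vale.Agent.P022D.CA.Cpl

/-!
# P022R, row GR: passage to the initial forms
-/

set_option linter.all false

open IsLocalRing

noncomputable section

namespace Vale.Agent.P022R

namespace Gr

open MvPolynomial

variable {σ F : Type} [Field F] {w : σ → ℕ}

theorem mem_Fil {k : ℕ} {u : MvPowerSeries σ F} :
    u ∈ Fil F w k ↔ ∀ d : σ →₀ ℕ, Finsupp.weight w d < k → MvPowerSeries.coeff d u = 0 := Iff.rfl

theorem Fil_zero (u : MvPowerSeries σ F) : u ∈ Fil F w 0 := fun _ h => absurd h (Nat.not_lt_zero _)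

theorem Fil_mul {a b : ℕ} {u v : MvPowerSeries σ F} (hu : u ∈ Fil F w a) (hv : v ∈ Fil F w b) :
    u * v ∈ Fil F w (a + b) := by
  classical
  intro d hd
  rw [MvPowerSeries.coeff_mul]
  refine Finset.sum_eq_zero fun p hp => ?_
  rw [← (Finset.HasAntidiagonal.mem_antidiagonal.mp hp), map_add] at hd
  by_cases h : Finsupp.weight w p.1 < a
  · rw [hu _ h, zero_mul]
  · rw [hv p.2 (by omega), mul_zero]

theorem hom_mem {p : MvPolynomial σ F} {k : ℕ} (hp : p.IsWeightedHomogeneous w k) :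
    (p : MvPowerSeries σ F) ∈ Fil F w k := fun d hd => by
  rw [MvPolynomial.coeff_coe]
  exact hp.coeff_eq_zero d hd.ne

theorem approx (𝔟 : Ideal (MvPowerSeries σ F)) (S : Set (MvPolynomial σ F))
    (hS : ∀ e ∈ S, ∃ n, e.IsWeightedHomogeneous w n ∧
      ∃ g ∈ 𝔟, g - (e : MvPowerSeries σ F) ∈ Fil F w (n + 1))
    {p : MvPolynomial σ F} (hp : p ∈ Ideal.span S) (k : ℕ) : ∀ a : MvPolynomial σ F,
    ∃ b ∈ 𝔟, ((weightedHomogeneousComponent w k (a * p) : MvPolynomial σ F) :
      MvPowerSeries σ F) - b ∈ Fil F w (k + 1) := by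
  have hadd : ∀ p q : MvPolynomial σ F,
      (∃ b ∈ 𝔟, ((weightedHomogeneousComponent w k p : MvPolynomial σ F) :
        MvPowerSeries σ F) - b ∈ Fil F w (k + 1)) →
      (∃ b ∈ 𝔟, ((weightedHomogeneousComponent w k q : MvPolynomial σ F) :
        MvPowerSeries σ F) - b ∈ Fil F w (k + 1)) →
      ∃ b ∈ 𝔟, ((weightedHomogeneousComponent w k (p + q) : MvPolynomial σ F) :
        MvPowerSeries σ F) - b ∈ Fil F w (k + 1) := by
    rintro p q ⟨b, hb, h⟩ ⟨c, hc, h'⟩
    refine ⟨b + c, 𝔟.add_mem hb hc, ?_⟩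
    rw [map_add, MvPolynomial.coe_add, add_sub_add_comm]
    exact Ideal.add_mem _ h h'
  induction hp using Submodule.span_induction with
  | mem e he =>
    obtain ⟨n, hn, g, hg, hge⟩ := hS e he
    intro a
    induction a using MvPolynomial.induction_on' with
    | monomial d r =>
      have h1 : (monomial d r : MvPolynomial σ F).IsWeightedHomogeneous w (Finsupp.weight w d) :=
        isWeightedHomogeneous_monomial w d r rfl
      by_cases hk : k = Finsupp.weight w d + n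
      · subst hk
        refine ⟨(monomial d r : MvPolynomial σ F) * g, 𝔟.mul_mem_left _ hg, ?_⟩
        rw [(h1.mul hn).weightedHomogeneousComponent_same, MvPolynomial.coe_mul, ← mul_sub,
          add_assoc]
        exact Fil_mul (hom_mem h1) (by rw [← neg_sub]; exact Submodule.neg_mem _ hge)
      · refine ⟨0, 𝔟.zero_mem, ?_⟩
        rw [(h1.mul hn).weightedHomogeneousComponent_ne k hk, MvPolynomial.coe_zero, sub_zero]
        exact Ideal.zero_mem _
    | add p q hp hq => rw [add_mul]; exact hadd _ _ hp hq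
  | zero =>
    intro a
    refine ⟨0, 𝔟.zero_mem, ?_⟩
    rw [mul_zero, map_zero, MvPolynomial.coe_zero, sub_zero]
    exact Ideal.zero_mem _
  | add p q _ _ hp hq => intro a; rw [mul_add]; exact hadd _ _ (hp a) (hq a)
  | smul c p _ hp => intro a; rw [smul_eq_mul, ← mul_assoc]; exact hp _

theorem approx' (𝔟 : Ideal (MvPowerSeries σ F)) (S : Set (MvPolynomial σ F))
    (hS : ∀ e ∈ S, ∃ n, e.IsWeightedHomogeneous w n ∧
      ∃ g ∈ 𝔟, g - (e : MvPowerSeries σ F) ∈ Fil F w (n + 1))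
    {p : MvPolynomial σ F} (hp : p ∈ Ideal.span S) {k : ℕ} (hk : p.IsWeightedHomogeneous w k) :
    ∃ b ∈ 𝔟, (p : MvPowerSeries σ F) - b ∈ Fil F w (k + 1) := by
  have := approx 𝔟 S hS hp k 1
  rwa [one_mul, hk.weightedHomogeneousComponent_same] at this

variable [Fintype σ]

theorem exists_init (hw : ∀ s, 0 < w s) {k : ℕ} {u : MvPowerSeries σ F} (hu : u ∈ Fil F w k) :
    ∃ p : MvPolynomial σ F, p.IsWeightedHomogeneous w k ∧
      u - (p : MvPowerSeries σ F) ∈ Fil F w (k + 1) := by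
  classical
  have hf := Finsupp.finite_of_nat_weight_eq w (fun s => (hw s).ne') k
  refine ⟨∑ d ∈ hf.toFinset, monomial d (MvPowerSeries.coeff d u), ?_, fun d hd => ?_⟩
  · exact IsWeightedHomogeneous.sum _ _ _ fun d hd =>
      isWeightedHomogeneous_monomial w d _ (hf.mem_toFinset.1 hd)
  · rw [map_sub, MvPolynomial.coeff_coe, coeff_sum]
    simp only [coeff_monomial, Finset.sum_ite_eq', Set.Finite.mem_toFinset, Set.mem_setOf_eq]
    split_ifs with h
    · exact sub_self _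
    · rw [hu d (by omega), sub_zero]

theorem weight_le (d : σ →₀ ℕ) (N : ℕ) (h : ∀ s, d s ≤ N) :
    Finsupp.weight w d ≤ N * ∑ s, w s := by
  rw [Finsupp.weight_eq_sum, Finset.mul_sum]
  exact Finset.sum_le_sum fun s _ => Nat.mul_le_mul_right _ (h s)

theorem krull (𝔟 : Ideal (MvPowerSeries σ F)) {t : MvPowerSeries σ F}
    (h : ∀ k, ∃ b ∈ 𝔟, ∃ k' ≥ k, t - b ∈ Fil F w k') : t ∈ 𝔟 := by
  by_cases hb : 𝔟 = ⊤
  · rw [hb]; trivial
  have : Nontrivial (MvPowerSeries σ F ⧸ 𝔟) := Ideal.Quotient.nontrivial_iff.2 hb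
  have : IsLocalRing (MvPowerSeries σ F ⧸ 𝔟) :=
    IsLocalRing.of_surjective' (Ideal.Quotient.mk 𝔟) Ideal.Quotient.mk_surjective
  have h1 : (maximalIdeal (MvPowerSeries σ F)).map (Ideal.Quotient.mk 𝔟) ≠ ⊤ := by
    intro h2
    have h3 := congrArg (Ideal.comap (Ideal.Quotient.mk 𝔟)) h2
    rw [Ideal.comap_map_of_surjective _ Ideal.Quotient.mk_surjective, Ideal.comap_top,
      ← RingHom.ker_eq_comap_bot, Ideal.mk_ker, sup_eq_left.2 (le_maximalIdeal hb)] at h3
    exact (maximalIdeal.isMaximal _).ne_top h3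
  rw [← Ideal.Quotient.eq_zero_iff_mem, ← Ideal.mem_bot,
    ← Ideal.iInf_pow_eq_bot_of_isLocalRing _ h1, Ideal.mem_iInf]
  intro N
  obtain ⟨b, hb', k', hk', ht⟩ := h (N * ∑ s, w s + 1)
  have h2 : t - b ∈ maximalIdeal (MvPowerSeries σ F) ^ N := by
    refine Vale.Agent.P022D.CA.Cpl.JI_le_pow N fun d => ?_
    by_cases hd : N ≤ d.degree
    · rw [Nat.sub_eq_zero_of_le hd, pow_zero, Ideal.one_eq_top]; trivial
    · rw [ht d (lt_of_le_of_lt (weight_le d N fun s => (Finsupp.le_degree s d).trans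
        (not_le.1 hd).le) hk')]
      exact Ideal.zero_mem _
  have h3 := Ideal.mem_map_of_mem (Ideal.Quotient.mk 𝔟) h2
  rwa [Ideal.map_pow, map_sub, Ideal.Quotient.eq_zero_iff_mem.2 hb', sub_zero] at h3

/-- either everything is absorbed or there is a new initial form -/
theorem reduce (hw : ∀ s, 0 < w s) (𝔟 : Ideal (MvPowerSeries σ F)) (S : Set (MvPolynomial σ F))
    (hS : ∀ e ∈ S, ∃ n, e.IsWeightedHomogeneous w n ∧
      ∃ g ∈ 𝔟, g - (e : MvPowerSeries σ F) ∈ Fil F w (n + 1))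
    {t : MvPowerSeries σ F} {k0 : ℕ} (ht : t ∈ Fil F w k0) :
    t ∈ 𝔟 ∨ ∃ k ≥ k0, ∃ p : MvPolynomial σ F, p.IsWeightedHomogeneous w k ∧ p ∉ Ideal.span S ∧
      ∃ b ∈ 𝔟, t - b - (p : MvPowerSeries σ F) ∈ Fil F w (k + 1) := by
  rw [or_iff_not_imp_right]
  intro hc
  push Not at hc
  have h1 : ∀ k, ∃ b ∈ 𝔟, t - b ∈ Fil F w (k0 + k) := by
    intro k
    induction k with
    | zero => exact ⟨0, 𝔟.zero_mem, by rwa [sub_zero]⟩
    | succ k ih =>
      obtain ⟨b, hb, h⟩ := ih
      obtain ⟨p, hp, h'⟩ := exists_init hw h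
      have h2 : p ∈ Ideal.span S := by
        by_contra h3
        exact hc (k0 + k) (Nat.le_add_right _ _) p hp h3 b hb h'
      obtain ⟨c, hc', h3⟩ := approx' 𝔟 S hS h2 hp
      refine ⟨b + c, 𝔟.add_mem hb hc', ?_⟩
      have := Ideal.add_mem _ h' h3
      rwa [show t - b - ↑p + (↑p - c) = t - (b + c) by ring] at this
  exact krull (w := w) 𝔟 fun k => (h1 k).imp fun b hb => ⟨hb.1, k0 + k, Nat.le_add_left _ _, hb.2⟩

theorem hom_mem_of_pow {𝔠 : Ideal (MvPolynomial σ F)} {N : ℕ}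
    (h : ∀ s, (X s : MvPolynomial σ F) ^ N ∈ 𝔠) {p : MvPolynomial σ F} {k : ℕ}
    (hp : p.IsWeightedHomogeneous w k) (hk : N * ∑ s, w s < k) : p ∈ 𝔠 := by
  classical
  rw [p.as_sum]
  refine Ideal.sum_mem _ fun d hd => ?_
  have h1 : Finsupp.weight w d = k := hp (mem_support_iff.1 hd)
  obtain ⟨s, hs⟩ : ∃ s, N < d s := by
    by_contra hc
    push Not at hc
    have := weight_le (w := w) d N hc
    omega
  have h2 : d = Finsupp.single s N + (d - Finsupp.single s N) := by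
    rw [add_tsub_cancel_of_le (Finsupp.single_le_iff.2 hs.le)]
  rw [h2, monomial_single_add]
  exact Ideal.mul_mem_right _ _ (h s)

omit [Fintype σ] in
theorem max_le_Fil (hw : ∀ s, 0 < w s) (k : ℕ) :
    maximalIdeal (MvPowerSeries σ F) ^ k ≤ Fil F w k := by
  induction k with
  | zero => exact fun u _ => Fil_zero u
  | succ k ih =>
    rw [pow_succ, Ideal.mul_le]
    intro u hu v hv
    refine Fil_mul (ih hu) fun d hd => ?_
    have h0 : d = 0 := by
      ext s
      have := Finsupp.le_weight w (hw s).ne' d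
      rw [Finsupp.zero_apply]; omega
    rw [Vale.Agent.P022D.CA.Cpl.mem_max_iff, maximalIdeal_eq_bot, Ideal.mem_bot] at hv
    rw [h0]
    exact hv

omit [Fintype σ] in
theorem mem_max {u : MvPowerSeries σ F} {k : ℕ} (hk : 0 < k) (hu : u ∈ Fil F w k) :
    u ∈ maximalIdeal (MvPowerSeries σ F) := by
  rw [Vale.Agent.P022D.CA.Cpl.mem_max_iff, maximalIdeal_eq_bot, Ideal.mem_bot]
  exact hu 0 (by rwa [map_zero])

end Gr

open Gr Vale.Agent.P022D.CA in
theorem gr (hH : HSP) : GR := by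
  intro σ ι F _ _ _ w hw n e D he hpr hdim g hg η hη hD t ht
  have hS : ∀ p ∈ Set.range e, ∃ n, p.IsWeightedHomogeneous w n ∧
      ∃ b ∈ Ideal.span (Set.range g), b - (p : MvPowerSeries σ F) ∈ Fil F w (n + 1) := by
    rintro _ ⟨j, rfl⟩
    exact ⟨n j, he j, g j, Ideal.subset_span ⟨j, rfl⟩, hg j⟩
  refine (reduce hw _ _ hS (Fil_zero t)).resolve_right ?_
  rintro ⟨k, -, p, hp, hpe, b, hb, htb⟩
  have hlt : Ideal.span (Set.range e) < Ideal.span (insert p (Set.range e)) :=
    lt_of_le_of_ne (Ideal.span_mono (Set.subset_insert _ _)) fun h =>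
      hpe (h ▸ Ideal.subset_span (Set.mem_insert _ _))
  have hnd : ¬ (D : WithBot ℕ∞) ≤
      ringKrullDim (MvPolynomial σ F ⧸ Ideal.span (insert p (Set.range e))) := fun h => by
    have h1 := (dimGE_succ hpr hlt h).trans hdim
    have h2 : D + 1 ≤ D := by exact_mod_cast h1
    omega
  have hS' : ∀ 𝔟 : Ideal (MvPowerSeries σ F), η ≤ 𝔟 → ∀ q ∈ insert p (Set.range e),
      ∃ n, q.IsWeightedHomogeneous w n ∧
        ∃ c ∈ 𝔟, c - (q : MvPowerSeries σ F) ∈ Fil F w (n + 1) := by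
    rintro 𝔟 h𝔟 q (rfl | hq)
    · exact ⟨k, hp, t - b, h𝔟 (η.sub_mem ht (hη hb)), htb⟩
    · obtain ⟨m, h1, c, h2, h3⟩ := hS q hq
      exact ⟨m, h1, c, h𝔟 (hη h2), h3⟩
  cases D with
  | zero =>
    have h1 : Ideal.span (insert p (Set.range e)) = ⊤ := by
      by_contra hc
      have : Nontrivial (MvPolynomial σ F ⧸ Ideal.span (insert p (Set.range e))) :=
        Ideal.Quotient.nontrivial_iff.2 hc
      exact hnd (by exact_mod_cast ringKrullDim_nonneg_of_nontrivial)
    have h2 : (1 : MvPowerSeries σ F) ∈ η := by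
      refine (reduce hw η _ (hS' η le_rfl) (Fil_zero 1)).resolve_right ?_
      rintro ⟨_, -, q, -, hq, -⟩
      exact hq (h1 ▸ Submodule.mem_top)
    have : Subsingleton (MvPowerSeries σ F ⧸ η) :=
      Ideal.Quotient.subsingleton_iff.2 ((Ideal.eq_top_iff_one _).2 h2)
    rw [ringKrullDim_eq_bot_of_subsingleton] at hD
    exact absurd hD (by simp)
  | succ d =>
    obtain ⟨h, N, hh, hN⟩ := hH σ F w hw d (insert p (Set.range e))
      (fun q hq => (hS' η le_rfl q hq).imp fun _ h => h.1) (dim_le_of_not hnd)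
    let fs : List (MvPowerSeries σ F) := List.ofFn fun i => (h i : MvPowerSeries σ F)
    have h1 := dimGE_ofList fs (I := η) (k := 1) (fun f hf => by
      obtain ⟨i, rfl⟩ := (List.mem_ofFn' _ _).1 hf
      obtain ⟨m, hm, hi⟩ := hh i
      exact mem_max hm (hom_mem hi)) (by rwa [List.length_ofFn, add_comm])
    obtain ⟨P, hP, hle, hP1⟩ := dimGE_prime h1
    have h2 : maximalIdeal (MvPowerSeries σ F) ^ (N * ∑ s, w s + 1) ≤ P := by
      intro u hu
      refine (reduce hw P (insert p (Set.range e) ∪ Set.range h) ?_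
        (max_le_Fil hw _ hu)).resolve_right ?_
      · rintro q (hq | ⟨i, rfl⟩)
        · exact hS' P (le_sup_left.trans hle) q hq
        · obtain ⟨m, -, hi⟩ := hh i
          refine ⟨m, hi, h i, hle (Ideal.mem_sup_right (Ideal.subset_span ?_)), ?_⟩
          · exact (List.mem_ofFn' _ _).2 ⟨i, rfl⟩
          · rw [sub_self]; exact Ideal.zero_mem _
      · rintro ⟨m, hm, q, hq, hq', -⟩
        refine hq' ?_
        rw [Ideal.span_union]
        exact hom_mem_of_pow hN hq hm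
    have h3 : P = maximalIdeal (MvPowerSeries σ F) :=
      ((maximalIdeal.isMaximal _).eq_of_le hP.ne_top (hP.le_of_pow_le h2)).symm
    subst h3
    rw [ringKrullDim_eq_zero_of_isField
      ((Ideal.Quotient.maximal_ideal_iff_isField_quotient _).1 inferInstance)] at hP1
    exact absurd hP1 (by simp)

end Vale.Agent.P022R
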