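import Mathlib

/-!
# P022R, row GR, part 0: homogeneous systems of parameters
-/

set_option linter.all false

noncomputable section

namespace Vale.Agent.P022R.Gr

open DirectSum

variable {A τ : Type} [CommRing A] [SetLike τ A] [AddSubgroupClass τ A] (𝒜 : ℕ → τ)
  [GradedRing 𝒜]

theorem ex_hom {p q : Ideal A} (hq : q.IsHomogeneous 𝒜) (h : ¬ q ≤ p) :
    ∃ n, ∃ y ∈ 𝒜 n, y ∈ q ∧ y ∉ p := by
  classical
  by_contra hc
  apply h
  intro x hx
  rw [← sum_support_decompose 𝒜 x]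
  refine Ideal.sum_mem _ fun i _ => ?_
  by_contra hi
  exact hc ⟨i, _, SetLike.coe_mem _, hq i hx, hi⟩

theorem avoid1 {p : Ideal A} (hp : p.IsPrime) (h0 : ∃ n, 0 < n ∧ ∃ x ∈ 𝒜 n, x ∉ p)
    (S : Finset (Ideal A)) (hS : ∀ q ∈ S, q.IsHomogeneous 𝒜 ∧ ¬ q ≤ p) :
    ∃ n, 0 < n ∧ ∃ y ∈ 𝒜 n, y ∉ p ∧ ∀ q ∈ S, y ∈ q := by
  classical
  induction S using Finset.induction_on with
  | empty =>
    obtain ⟨n, hn, x, hx, hxp⟩ := h0
    exact ⟨n, hn, x, hx, hxp, fun q hq => absurd hq (Finset.notMem_empty q)⟩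
  | insert q S _ ih =>
    obtain ⟨n, hn, y, hy, hyp, hyS⟩ := ih fun r hr => hS r (Finset.mem_insert_of_mem hr)
    obtain ⟨hq, hqp⟩ := hS q (Finset.mem_insert_self q S)
    obtain ⟨m, z, hz, hzq, hzp⟩ := ex_hom 𝒜 hq hqp
    refine ⟨n + m, Nat.add_pos_left hn m, y * z, SetLike.mul_mem_graded hy hz,
      fun h => (hp.mem_or_mem h).elim hyp hzp, fun r hr => ?_⟩
    rcases Finset.mem_insert.1 hr with rfl | hr
    · exact Ideal.mul_mem_left _ _ hzq
    · exact Ideal.mul_mem_right _ _ (hyS r hr)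

theorem avoid (h1 : ∃ n, 0 < n ∧ ∃ x, x ∈ 𝒜 n) (S : Finset (Ideal A))
    (hS : ∀ p ∈ S, p.IsPrime ∧ p.IsHomogeneous 𝒜 ∧ ∃ n, 0 < n ∧ ∃ x ∈ 𝒜 n, x ∉ p)
    (hA : ∀ p ∈ S, ∀ q ∈ S, q ≤ p → q = p) :
    ∃ n, 0 < n ∧ ∃ x ∈ 𝒜 n, ∀ p ∈ S, x ∉ p := by
  classical
  induction S using Finset.induction_on with
  | empty =>
    obtain ⟨n, hn, x, hx⟩ := h1
    exact ⟨n, hn, x, hx, fun q hq => absurd hq (Finset.notMem_empty q)⟩
  | insert p S hpS ih =>
    obtain ⟨n, hn, x, hx, hxS⟩ := ih (fun r hr => hS r (Finset.mem_insert_of_mem hr))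
      fun r hr s hs => hA r (Finset.mem_insert_of_mem hr) s (Finset.mem_insert_of_mem hs)
    obtain ⟨hp, -, hp0⟩ := hS p (Finset.mem_insert_self p S)
    by_cases hxp : x ∈ p
    · obtain ⟨m, hm, y, hy, hyp, hyS⟩ := avoid1 𝒜 hp hp0 S fun q hq =>
        ⟨(hS q (Finset.mem_insert_of_mem hq)).2.1, fun h => hpS (by
          rw [← hA p (Finset.mem_insert_self p S) q (Finset.mem_insert_of_mem hq) h]; exact hq)⟩
      have e1 : x ^ m ∈ 𝒜 (m * n) := SetLike.pow_mem_graded m hx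
      have e2 : y ^ n ∈ 𝒜 (m * n) := by
        rw [mul_comm]; exact SetLike.pow_mem_graded n hy
      refine ⟨m * n, Nat.mul_pos hm hn, x ^ m + y ^ n, add_mem e1 e2, fun r hr h => ?_⟩
      rcases Finset.mem_insert.1 hr with rfl | hr
      · exact hyp (hp.mem_of_pow_mem n
          ((Ideal.add_mem_iff_right _ (Ideal.pow_mem_of_mem _ hxp m hm)).1 h))
      · exact hxS r hr ((hS r (Finset.mem_insert_of_mem hr)).1.mem_of_pow_mem m
          ((Ideal.add_mem_iff_left _ (Ideal.pow_mem_of_mem _ (hyS r hr) n hn)).1 h))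
    · refine ⟨n, hn, x, hx, fun r hr => ?_⟩
      rcases Finset.mem_insert.1 hr with rfl | hr
      · exact hxp
      · exact hxS r hr

theorem minp_hom {I p : Ideal A} (hI : I.IsHomogeneous 𝒜) (hp : p ∈ I.minimalPrimes) :
    p.IsHomogeneous 𝒜 := by
  have h1 : I ≤ (p.homogeneousCore 𝒜).toIdeal := by
    rw [← hI.toIdeal_homogeneousCore_eq_self]
    exact Ideal.homogeneousCore_mono 𝒜 hp.1.2
  have h2 := Ideal.toIdeal_homogeneousCore_le 𝒜 p
  have h3 := hp.2 ⟨hp.1.1.homogeneousCore, h1⟩ h2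
  exact (Ideal.IsHomogeneous.iff_eq 𝒜 p).2 (le_antisymm h2 h3)

omit [SetLike τ A] [AddSubgroupClass τ A] [GradedRing 𝒜] in
/-- an element outside all the minimal primes lowers the dimension -/
theorem dim_succ {I J : Ideal A} (hIJ : I ≤ J) (h : ∀ p ∈ I.minimalPrimes, ¬ J ≤ p) :
    ringKrullDim (A ⧸ J) + 1 ≤ ringKrullDim (A ⧸ I) := by
  by_cases hJ : J = ⊤
  · haveI : Subsingleton (A ⧸ J) := Ideal.Quotient.subsingleton_iff.2 hJ
    rw [ringKrullDim_eq_bot_of_subsingleton]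
    exact bot_le
  have hI : I ≠ ⊤ := fun e => hJ (top_le_iff.1 (e ▸ hIJ))
  have n1 : Nonempty (PrimeSpectrum.zeroLocus (R := A) J) := by
    rwa [Set.nonempty_coe_sort, Set.nonempty_iff_ne_empty, ne_eq,
      PrimeSpectrum.zeroLocus_empty_iff_eq_top]
  have n2 : Nonempty (PrimeSpectrum.zeroLocus (R := A) I) := by
    rwa [Set.nonempty_coe_sort, Set.nonempty_iff_ne_empty, ne_eq,
      PrimeSpectrum.zeroLocus_empty_iff_eq_top]
  rw [ringKrullDim_quotient, ringKrullDim_quotient, Order.krullDim_eq_iSup_length,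
    Order.krullDim_eq_iSup_length, ← WithBot.coe_one, ← WithBot.coe_add,
    ENat.iSup_add, WithBot.coe_le_coe, iSup_le_iff]
  intro l
  have hJl : J ≤ l.head.1.asIdeal := l.head.2
  haveI := l.head.1.isPrime
  obtain ⟨p, hp, hp'⟩ := Ideal.exists_minimalPrimes_le (hIJ.trans hJl)
  let p' : PrimeSpectrum.zeroLocus (R := A) I := ⟨⟨p, hp.1.1⟩, hp.1.2⟩
  let φ : PrimeSpectrum.zeroLocus (R := A) J → PrimeSpectrum.zeroLocus (R := A) I :=
    fun q => ⟨q.1, fun x hx => q.2 (hIJ hx)⟩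
  have hφ : StrictMono φ := fun _ _ h => h
  have hlt : p' < (l.map φ hφ).head := by
    refine lt_of_le_of_ne hp' fun e => h p hp ?_
    have : p = l.head.1.asIdeal := congrArg (fun q => q.1.asIdeal) e
    rw [this]; exact hJl
  refine le_trans ?_ (le_iSup _ ((l.map φ hφ).cons p' hlt))
  simp

/-- **homogeneous system of parameters** -/
theorem hsop [IsNoetherianRing A] (h0 : ∀ x ∈ 𝒜 0, x ≠ 0 → IsUnit x) (d : ℕ) :
    ∀ I : Ideal A, I.IsHomogeneous 𝒜 → ringKrullDim (A ⧸ I) < (d + 1 : ℕ) →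
    ∃ s : Finset A, s.card ≤ d ∧ (∀ x ∈ s, ∃ n, 0 < n ∧ x ∈ 𝒜 n) ∧
      ∀ n, 0 < n → ∀ x ∈ 𝒜 n, x ∈ (I ⊔ Ideal.span (s : Set A)).radical := by
  classical
  -- a proper homogeneous ideal is contained in every ideal containing the positive part
  have key : ∀ p q : Ideal A, p.IsHomogeneous 𝒜 → p ≠ ⊤ → (∀ n, 0 < n → ∀ x ∈ 𝒜 n, x ∈ q) →
      p ≤ q := fun p q hp hpt hq => by
    by_contra hc
    obtain ⟨n, y, hy, hyp, hyq⟩ := ex_hom 𝒜 hp hc
    rcases Nat.eq_zero_or_pos n with rfl | hn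
    · exact hpt (Ideal.eq_top_of_isUnit_mem _ hyp (h0 y hy fun e => hyq (e ▸ q.zero_mem)))
    · exact hyq (hq n hn y hy)
  -- the step
  have step : ∀ I : Ideal A, I.IsHomogeneous 𝒜 →
      (∀ n, 0 < n → ∀ x ∈ 𝒜 n, x ∈ I.radical) ∨ ∃ n, 0 < n ∧ ∃ f ∈ 𝒜 n,
        I ⊔ Ideal.span {f} ≠ ⊤ ∧
        ringKrullDim (A ⧸ (I ⊔ Ideal.span {f})) + 1 ≤ ringKrullDim (A ⧸ I) := fun I hI => by
    by_cases hc : ∀ n, 0 < n → ∀ x ∈ 𝒜 n, x ∈ I.radical
    · exact Or.inl hc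
    right
    have hall : ∀ p ∈ I.minimalPrimes, ∃ n, 0 < n ∧ ∃ x ∈ 𝒜 n, x ∉ p := fun p hp => by
      by_contra hn
      have hp0 : ∀ n, 0 < n → ∀ x ∈ 𝒜 n, x ∈ p := fun n h x hx => by
        by_contra hxp
        exact hn ⟨n, h, x, hx, hxp⟩
      apply hc
      intro n h x hx
      rw [← Ideal.sInf_minimalPrimes, Ideal.mem_sInf]
      intro q hq
      exact hp.2 hq.1 (key q p (minp_hom 𝒜 hI hq) hq.1.1.ne_top hp0) (hp0 n h x hx)
    have hfin := Ideal.finite_minimalPrimes_of_isNoetherianRing A I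
    obtain ⟨n, hn, f, hf, hfp⟩ := avoid 𝒜 ⟨1, one_pos, 0, zero_mem _⟩ hfin.toFinset
      (fun p hp => by
        have hp' := hfin.mem_toFinset.1 hp
        exact ⟨hp'.1.1, minp_hom 𝒜 hI hp', hall p hp'⟩)
      (fun p hp q hq h => le_antisymm h ((hfin.mem_toFinset.1 hp).2 (hfin.mem_toFinset.1 hq).1 h))
    refine ⟨n, hn, f, hf, ?_, dim_succ le_sup_left fun p hp h => hfp p (hfin.mem_toFinset.2 hp)
      (h (Ideal.mem_sup_right (Ideal.mem_span_singleton_self f)))⟩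
    intro ht
    have hIt : I ≠ ⊤ := fun e => hc fun n _ x _ => by rw [e, Ideal.radical_top]; trivial
    have hP : ∀ n, 0 < n → ∀ x ∈ 𝒜 n, x ∈ (HomogeneousIdeal.irrelevant 𝒜).toIdeal :=
      fun n h x hx => HomogeneousIdeal.mem_irrelevant_of_mem 𝒜 h hx
    have h1 : (1 : A) ∈ (HomogeneousIdeal.irrelevant 𝒜).toIdeal := by
      have : I ⊔ Ideal.span {f} ≤ (HomogeneousIdeal.irrelevant 𝒜).toIdeal :=
        sup_le (key I _ hI hIt hP) ((Ideal.span_singleton_le_iff_mem _).2 (hP n hn f hf))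
      exact this (ht ▸ Submodule.mem_top)
    have h2 : GradedRing.proj 𝒜 0 (1 : A) = 0 := (HomogeneousIdeal.mem_irrelevant_iff 𝒜 1).1 h1
    rw [GradedRing.proj_apply, decompose_of_mem_same 𝒜 (SetLike.one_mem_graded 𝒜)] at h2
    exact hIt ((Ideal.eq_top_iff_one I).2 (h2 ▸ I.zero_mem))
  have hs : ∀ (I : Ideal A) (n : ℕ) (f : A), I.IsHomogeneous 𝒜 → f ∈ 𝒜 n →
      (I ⊔ Ideal.span {f}).IsHomogeneous 𝒜 := fun I n f hI hf =>
    hI.sup (Ideal.homogeneous_span 𝒜 _ fun x hx => ⟨n, by rw [Set.mem_singleton_iff.1 hx]; exact hf⟩)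
  induction d with
  | zero =>
    intro I hI hd
    rcases step I hI with h | ⟨n, hn, f, hf, ht, h⟩
    · exact ⟨∅, le_rfl, fun x hx => absurd hx (Finset.notMem_empty x),
        fun n hn x hx => Ideal.radical_mono le_sup_left (h n hn x hx)⟩
    · exfalso
      haveI := Ideal.Quotient.nontrivial_iff.2 ht
      have h3 := ringKrullDim_nonneg_of_nontrivial (R := A ⧸ (I ⊔ Ideal.span {f}))
      have h4 : (0 : WithBot ℕ∞) + 1 ≤ ringKrullDim (A ⧸ I) := le_trans (by gcongr) h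
      have h5 := lt_of_le_of_lt h4 hd
      simp at h5
  | succ d ih =>
    intro I hI hd
    rcases step I hI with h | ⟨n, hn, f, hf, ht, h⟩
    · exact ⟨∅, Nat.zero_le _, fun x hx => absurd hx (Finset.notMem_empty x),
        fun n hn x hx => Ideal.radical_mono le_sup_left (h n hn x hx)⟩
    · have h5 : ringKrullDim (A ⧸ (I ⊔ Ideal.span {f})) < (d + 1 : ℕ) := by
        have h6 := lt_of_le_of_lt h hd
        by_contra hc
        have h7 : ((d + 1 : ℕ) : WithBot ℕ∞) + 1 ≤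
            ringKrullDim (A ⧸ (I ⊔ Ideal.span {f})) + 1 := by
          have := not_lt.1 hc
          gcongr
        have h8 := lt_of_le_of_lt h7 h6
        norm_cast at h8
        exact lt_irrefl _ h8
      obtain ⟨s, hs1, hs2, hs3⟩ := ih _ (hs I n f hI hf) h5
      refine ⟨insert f s, (Finset.card_insert_le f s).trans (Nat.succ_le_succ hs1),
        fun x hx => ?_, fun m hm x hx => ?_⟩
      · rcases Finset.mem_insert.1 hx with rfl | hx
        · exact ⟨n, hn, hf⟩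
        · exact hs2 x hx
      · rw [Finset.coe_insert, Ideal.span_insert, ← sup_assoc]
        exact hs3 m hm x hx

end Vale.Agent.P022R.Gr
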