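import Vale.Agent.P022R.Geo

/-! # P022R: passage to the initial forms -/

set_option linter.all false

open IsLocalRing

noncomputable section

namespace Vale.Agent.P022R.H46

open Finsupp (weight)

variable {σ F : Type} [Field F] {w : σ → ℕ}

/-- the ideal of the initial forms -/
def In (w : σ → ℕ) (I : Ideal (MvPowerSeries σ F)) : Ideal (MvPolynomial σ F) where
  carrier := {p | ∀ k, ∃ q ∈ I, ∀ d, weight w d ≤ k →
    MvPowerSeries.coeff d q = if weight w d = k then p.coeff d else 0}
  zero_mem' := fun k => ⟨0, I.zero_mem, fun d _ => by simp⟩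
  add_mem' {a b} ha hb k := by
    obtain ⟨q, hq, e⟩ := ha k
    obtain ⟨q', hq', e'⟩ := hb k
    refine ⟨q + q', I.add_mem hq hq', fun d hd => ?_⟩
    rw [map_add, e d hd, e' d hd, MvPolynomial.coeff_add]
    split_ifs <;> simp
  smul_mem' c a ha := by
    classical
    rw [smul_eq_mul]
    induction c using MvPolynomial.induction_on' with
    | monomial u r =>
      intro k
      obtain ⟨q, hq, e⟩ := ha (k - weight w u)
      by_cases h : weight w u ≤ k
      · refine ⟨MvPowerSeries.monomial u r * q, I.mul_mem_left _ hq, fun d hd => ?_⟩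
        rw [MvPowerSeries.coeff_monomial_mul, MvPolynomial.coeff_monomial_mul']
        by_cases k1 : u ≤ d
        · have k2 : weight w (d - u) + weight w u = weight w d := by
            rw [← map_add, tsub_add_cancel_of_le k1]
          rw [if_pos k1, if_pos k1, e _ (by omega)]
          by_cases k3 : weight w d = k
          · rw [if_pos k3, if_pos (by omega)]
          · rw [if_neg k3, if_neg (by omega), mul_zero]
        · rw [if_neg k1, if_neg k1, ite_self]
      · refine ⟨0, I.zero_mem, fun d hd => ?_⟩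
        rw [map_zero, MvPolynomial.coeff_monomial_mul', if_neg (c := u ≤ d), ite_self]
        intro k1
        have k2 : weight w (d - u) + weight w u = weight w d := by
          rw [← map_add, tsub_add_cancel_of_le k1]
        omega
    | add p p' hp hp' =>
      intro k
      obtain ⟨q, hq, e⟩ := hp k
      obtain ⟨q', hq', e'⟩ := hp' k
      refine ⟨q + q', I.add_mem hq hq', fun d hd => ?_⟩
      rw [map_add, e d hd, e' d hd, add_mul, MvPolynomial.coeff_add]
      split_ifs <;> simp

theorem In_mono {I J : Ideal (MvPowerSeries σ F)} (h : I ≤ J) : In w I ≤ In w J := fun p hp k =>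
  (hp k).imp fun q hq => ⟨h hq.1, hq.2⟩

theorem mem_In {I : Ideal (MvPowerSeries σ F)} {p : MvPolynomial σ F} {n : ℕ}
    {q : MvPowerSeries σ F} (hp : p.IsWeightedHomogeneous w n) (hq : q ∈ I)
    (e : q - (p : MvPowerSeries σ F) ∈ Fil F w (n + 1)) : p ∈ In w I := by
  intro k
  by_cases h : k = n
  · subst h
    refine ⟨q, hq, fun d hd => ?_⟩
    have := e d (by omega)
    rw [map_sub, sub_eq_zero, MvPolynomial.coeff_coe] at this
    rw [this]
    split_ifs with k1
    · rfl
    · exact hp.coeff_eq_zero d k1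
  · refine ⟨0, I.zero_mem, fun d hd => ?_⟩
    rw [map_zero]
    split_ifs with k1
    · exact (hp.coeff_eq_zero d (by omega)).symm
    · rfl

theorem In_hom (I : Ideal (MvPowerSeries σ F)) :
    In w I = Ideal.span {p | p ∈ In w I ∧ ∃ n, p.IsWeightedHomogeneous w n} := by
  classical
  refine le_antisymm (fun p hp => ?_) (Ideal.span_le.2 fun p hp => hp.1)
  rw [← MvPolynomial.sum_weightedHomogeneousComponent w p,
    finsum_eq_sum _ (MvPolynomial.weightedHomogeneousComponent_finsupp p)]
  refine Ideal.sum_mem _ fun n _ => Ideal.subset_span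
    ⟨fun k => ?_, n, MvPolynomial.weightedHomogeneousComponent_isWeightedHomogeneous n p⟩
  by_cases h : k = n
  · subst h
    obtain ⟨q, hq, e⟩ := hp k
    refine ⟨q, hq, fun d hd => ?_⟩
    rw [e d hd, MvPolynomial.coeff_weightedHomogeneousComponent]
    split_ifs <;> rfl
  · refine ⟨0, I.zero_mem, fun d hd => ?_⟩
    rw [map_zero, MvPolynomial.coeff_weightedHomogeneousComponent]
    split_ifs with k1 k2
    · omega
    · rfl
    · rfl

variable [Fintype σ]

theorem ex_cmp (hw : ∀ s, 0 < w s) (k : ℕ) (v : MvPowerSeries σ F) (hv : v ∈ Fil F w k) :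
    ∃ p : MvPolynomial σ F, p.IsWeightedHomogeneous w k ∧
      v - (p : MvPowerSeries σ F) ∈ Fil F w (k + 1) := by
  classical
  have hf := Finsupp.finite_of_nat_weight_eq w (fun s => (hw s).ne') k
  have e : ∀ d, (∑ u ∈ hf.toFinset, MvPolynomial.monomial u (MvPowerSeries.coeff u v)).coeff d =
      if weight w d = k then MvPowerSeries.coeff d v else 0 := fun d => by
    rw [MvPolynomial.coeff_sum]
    simp only [MvPolynomial.coeff_monomial]
    rw [Finset.sum_ite_eq']
    simp
  refine ⟨∑ u ∈ hf.toFinset, MvPolynomial.monomial u (MvPowerSeries.coeff u v),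
    fun d hd => ?_, fun d hd => ?_⟩
  rotate_left
  · rw [map_sub, MvPolynomial.coeff_coe, e]
    split_ifs with h
    · exact sub_self _
    · rw [sub_zero]
      exact hv d (by omega)
  · rw [e] at hd
    by_contra h
    exact hd (if_neg h)

theorem fil_one_le : Fil F w 1 ≤ maximalIdeal (MvPowerSeries σ F) := fun u hu => by
  rw [mem_maximalIdeal, mem_nonunits_iff, MvPowerSeries.isUnit_iff_constantCoeff,
    ← MvPowerSeries.coeff_zero_eq_constantCoeff_apply, hu 0 (by simp)]
  exact not_isUnit_zero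

theorem le_fil_one (hw : ∀ s, 0 < w s) : maximalIdeal (MvPowerSeries σ F) ≤ Fil F w 1 :=
  fun u hu d hd => by
  have : d = 0 := by
    ext s
    have := Finsupp.le_weight w (hw s).ne' d
    rw [Finsupp.zero_apply]
    omega
  subst this
  rw [mem_maximalIdeal, mem_nonunits_iff, MvPowerSeries.isUnit_iff_constantCoeff, isUnit_iff_ne_zero,
    not_not] at hu
  rw [MvPowerSeries.coeff_zero_eq_constantCoeff_apply, hu]

theorem fil_mul (a b : ℕ) : Fil F w a * Fil F w b ≤ Fil (σ := σ) F w (a + b) := by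
  classical
  refine Ideal.mul_le.2 fun x hx y hy d hd => ?_
  rw [MvPowerSeries.coeff_mul]
  refine Finset.sum_eq_zero fun p hp => ?_
  rw [← (Finset.HasAntidiagonal.mem_antidiagonal.mp hp), map_add] at hd
  by_cases h : weight w p.1 < a
  · rw [hx _ h, zero_mul]
  · rw [hy _ (by omega), mul_zero]

theorem pow_le_fil (hw : ∀ s, 0 < w s) (n : ℕ) :
    maximalIdeal (MvPowerSeries σ F) ^ n ≤ Fil F w n := by
  induction n with
  | zero => exact fun u _ d hd => absurd hd (Nat.not_lt_zero _)
  | succ n ih => rw [pow_succ]; exact (Ideal.mul_mono ih (le_fil_one hw)).trans (fil_mul n 1)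

theorem fil_step (k : ℕ) : Fil F w (k + (∑ s, w s + 1)) ≤
    maximalIdeal (MvPowerSeries σ F) * Fil F w k := by
  classical
  intro u hu
  have ch : ∀ d : σ →₀ ℕ, d ≠ 0 → ∃ s, Finsupp.single s 1 ≤ d := fun d hd => by
    obtain ⟨s, hs⟩ := Finsupp.ne_iff.1 hd
    exact ⟨s, Finsupp.single_le_iff.2 (Nat.one_le_iff_ne_zero.2 hs)⟩
  choose c hc using ch
  let v : σ → MvPowerSeries σ F := fun s d =>
    if ∃ h, c (d + Finsupp.single s 1) h = s then MvPowerSeries.coeff (d + Finsupp.single s 1) u
    else 0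
  have hv : ∀ s d, MvPowerSeries.coeff d (v s) =
      if ∃ h, c (d + Finsupp.single s 1) h = s then MvPowerSeries.coeff (d + Finsupp.single s 1) u
      else 0 := fun _ _ => rfl
  have e : u = ∑ s, MvPowerSeries.monomial (Finsupp.single s 1) 1 * v s := by
    ext d
    rw [map_sum]
    simp only [MvPowerSeries.coeff_monomial_mul, one_mul]
    by_cases hd : d = 0
    · subst hd
      rw [hu 0 (by simp)]
      refine (Finset.sum_eq_zero fun s _ => if_neg ?_).symm
      simp
    · rw [Finset.sum_eq_single (c d hd)]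
      · rw [if_pos (hc d hd), hv, tsub_add_cancel_of_le (hc d hd), if_pos ⟨hd, rfl⟩]
      · intro s _ hs
        split_ifs with h
        · rw [hv, tsub_add_cancel_of_le h, if_neg]
          rintro ⟨_, h'⟩
          exact hs h'.symm
        · rfl
      · simp
  rw [e]
  refine Ideal.sum_mem _ fun s _ => Ideal.mul_mem_mul ?_ fun d hd => ?_
  · rw [mem_maximalIdeal, mem_nonunits_iff, MvPowerSeries.isUnit_iff_constantCoeff,
      ← MvPowerSeries.coeff_zero_eq_constantCoeff_apply, MvPowerSeries.coeff_monomial_ne]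
    · exact not_isUnit_zero
    · exact (Finsupp.single_ne_zero.2 one_ne_zero).symm
  · rw [hv]
    split_ifs
    · refine hu _ ?_
      have := Finset.single_le_sum (f := w) (fun _ _ => Nat.zero_le _) (Finset.mem_univ s)
      rw [map_add, Finsupp.weight_single, one_smul]
      omega
    · rfl

theorem fil_le_pow (n : ℕ) : Fil F w (n * (∑ s, w s + 1)) ≤
    maximalIdeal (MvPowerSeries σ F) ^ n := by
  induction n with
  | zero => simp
  | succ n ih =>
    rw [add_mul, one_mul, pow_succ']
    exact (fil_step _).trans (Ideal.mul_mono_right ih)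

theorem closed {I : Ideal (MvPowerSeries σ F)} {u : MvPowerSeries σ F} (M : ℕ)
    (h : ∀ k, M ≤ k → ∃ q ∈ I, u - q ∈ Fil F w k) : u ∈ I := by
  have k := Ideal.iInf_pow_smul_eq_bot_of_isLocalRing (R := MvPowerSeries σ F)
    (M := MvPowerSeries σ F ⧸ I) (maximalIdeal _) (maximalIdeal.isMaximal _).ne_top
  rw [← Ideal.Quotient.eq_zero_iff_mem, ← Submodule.mem_bot (MvPowerSeries σ F), ← k,
    Submodule.mem_iInf]
  intro n
  obtain ⟨q, hq, e⟩ := h (n * (∑ s, w s + 1) + M) (by omega)
  have e1 : u - q ∈ maximalIdeal (MvPowerSeries σ F) ^ n :=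
    fil_le_pow (w := w) n fun d hd => e d (by omega)
  have e2 : Ideal.Quotient.mk I u = (u - q) • (1 : MvPowerSeries σ F ⧸ I) := by
    show _ = Ideal.Quotient.mk I ((u - q) * 1)
    rw [mul_one, map_sub, Ideal.Quotient.eq_zero_iff_mem.2 hq, sub_zero]
  rw [e2]
  exact Submodule.smul_mem_smul e1 Submodule.mem_top

theorem approx (hw : ∀ s, 0 < w s) {I V : Ideal (MvPowerSeries σ F)} (M : ℕ) (hI : I ≤ V)
    (h : ∀ k, M ≤ k → ∀ p : MvPolynomial σ F, p.IsWeightedHomogeneous w k → p ∈ In w V →
      p ∈ In w I) {u : MvPowerSeries σ F} (hu : u ∈ V) (hM : u ∈ Fil F w M) : u ∈ I := by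
  refine closed (w := w) M fun k hk => ?_
  induction k, hk using Nat.le_induction with
  | base => exact ⟨0, I.zero_mem, by rwa [sub_zero]⟩
  | succ k hk ih =>
    obtain ⟨q, hq, e⟩ := ih
    obtain ⟨p, hp, e'⟩ := ex_cmp hw k _ e
    obtain ⟨q', hq', f⟩ := h k hk p hp (mem_In hp (V.sub_mem hu (hI hq)) e') k
    refine ⟨q + q', I.add_mem hq hq', fun d hd => ?_⟩
    have := e' d hd
    rw [map_sub, sub_eq_zero, MvPolynomial.coeff_coe] at this
    rw [← sub_sub, map_sub, this, f d (by omega)]
    split_ifs with k1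
    · exact sub_self _
    · rw [sub_zero]
      exact hp.coeff_eq_zero d k1

theorem dim_drop {A : Type} [CommRing A] {E J : Ideal A} (hE : E.IsPrime) (h : E ≤ J) {p : A}
    (hp : p ∈ J) (hn : p ∉ E) : ringKrullDim (A ⧸ J) + 1 ≤ ringKrullDim (A ⧸ E) := by
  have h1 := ringKrullDim_quotient_succ_le_of_nonZeroDivisor (r := Ideal.Quotient.mk E p)
    (mem_nonZeroDivisors_of_ne_zero (mt Ideal.Quotient.eq_zero_iff_mem.1 hn))
  refine le_trans (add_le_add_left ?_ 1) h1
  refine ringKrullDim_le_of_surjective (Ideal.Quotient.lift _ (Ideal.Quotient.factor h) ?_) ?_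
  · intro a ha
    obtain ⟨b, rfl⟩ := Ideal.mem_span_singleton'.1 ha
    rw [map_mul, Ideal.Quotient.factor_mk, Ideal.Quotient.eq_zero_iff_mem.2 hp, mul_zero]
  · intro x
    obtain ⟨y, rfl⟩ := Ideal.Quotient.mk_surjective x
    exact ⟨Ideal.Quotient.mk _ (Ideal.Quotient.mk _ y), rfl⟩

theorem dim_le {R : Type} [CommRing R] [IsLocalRing R] [IsNoetherianRing R] {η : Ideal R}
    (hη : η ≠ ⊤) {d M : ℕ} (h : Fin d → R) (hm : ∀ i, h i ∈ maximalIdeal R)
    (k : maximalIdeal R ^ M ≤ η ⊔ Ideal.span (Set.range h)) :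
    ringKrullDim (R ⧸ η) ≤ (d : WithBot ℕ∞) := by
  classical
  haveI : Nontrivial (R ⧸ η) := Ideal.Quotient.nontrivial_iff.2 hη
  haveI : IsLocalRing (R ⧸ η) := IsLocalRing.of_surjective' _ Ideal.Quotient.mk_surjective
  have hmx : (maximalIdeal R).map (Ideal.Quotient.mk η) = maximalIdeal (R ⧸ η) :=
    IsLocalRing.map_maximalIdeal_of_surjective _ Ideal.Quotient.mk_surjective
  rw [← IsLocalRing.maximalIdeal_height_eq_ringKrullDim]
  have h1 := Ideal.height_le_card_of_mem_minimalPrimes_span_finset (p := maximalIdeal (R ⧸ η))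
    (s := Finset.univ.image fun i => Ideal.Quotient.mk η (h i)) ?_
  · refine WithBot.coe_le_coe.2 (h1.trans ?_)
    exact_mod_cast Finset.card_image_le.trans (by simp)
  · refine ⟨⟨inferInstance, Ideal.span_le.2 ?_⟩, fun q hq _ => ?_⟩
    · intro x hx
      obtain ⟨i, -, rfl⟩ := Finset.mem_image.1 hx
      rw [← hmx]
      exact Ideal.mem_map_of_mem _ (hm i)
    · haveI := hq.1
      refine Ideal.IsPrime.le_of_pow_le (n := M) ?_
      rw [← hmx, ← Ideal.map_pow, Ideal.map_le_iff_le_comap]
      refine k.trans (sup_le (fun x hx => ?_) (Ideal.span_le.2 ?_))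
      · rw [Ideal.mem_comap, Ideal.Quotient.eq_zero_iff_mem.2 hx]
        exact q.zero_mem
      · rintro _ ⟨i, rfl⟩
        exact hq.2 (Ideal.subset_span (Finset.mem_image.2 ⟨i, Finset.mem_univ _, rfl⟩))

theorem big {J : Ideal (MvPolynomial σ F)} {N k : ℕ} (h : ∀ s, MvPolynomial.X s ^ N ∈ J)
    (hk : N * ∑ s, w s + 1 ≤ k) {p : MvPolynomial σ F} (hp : p.IsWeightedHomogeneous w k) :
    p ∈ J := by
  classical
  rw [p.as_sum]
  refine Ideal.sum_mem _ fun d hd => ?_
  have e := hp (MvPolynomial.mem_support_iff.1 hd)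
  obtain ⟨s, hs⟩ : ∃ s, N ≤ d s := by
    by_contra a
    push Not at a
    have : weight w d ≤ N * ∑ s, w s := by
      rw [Finsupp.weight_apply, Finsupp.sum_fintype _ _ (by simp), Finset.mul_sum]
      exact Finset.sum_le_sum fun s _ => Nat.mul_le_mul_right _ (a s).le
    omega
  have : MvPolynomial.monomial d (p.coeff d) =
      MvPolynomial.monomial (d - Finsupp.single s N) (p.coeff d) * MvPolynomial.X s ^ N := by
    rw [MvPolynomial.X_pow_eq_monomial, MvPolynomial.monomial_mul, mul_one,
      tsub_add_cancel_of_le (Finsupp.single_le_iff.2 hs)]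
  rw [this]
  exact J.mul_mem_left _ (h s)

theorem gr (H : HSP) : GR := by
  intro σ ι F _ _ _ w hw n e D he hE hD g hg η hη hd
  have ne : η ≠ ⊤ := by
    rintro rfl
    rw [ringKrullDim_eq_bot_of_subsingleton] at hd
    exact WithBot.coe_ne_bot (le_bot_iff.1 hd)
  have h1 : Ideal.span (Set.range e) ≤ In w (Ideal.span (Set.range g)) := Ideal.span_le.2 (by
    rintro _ ⟨j, rfl⟩
    exact mem_In (he j) (Ideal.subset_span ⟨j, rfl⟩) (hg j))
  have h2 := h1.trans (In_mono hη)
  have h3 : In w η ≤ Ideal.span (Set.range e) := by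
    intro p hp
    by_contra hn
    have h4 := (dim_drop hE h2 hp hn).trans hD
    have nt : In w η ≠ ⊤ := fun t => by
      obtain ⟨q, hq, f⟩ := (show (1 : MvPolynomial σ F) ∈ In w η by rw [t]; trivial) 0
      refine ne (η.eq_top_of_isUnit_mem hq ?_)
      rw [MvPowerSeries.isUnit_iff_constantCoeff, ← MvPowerSeries.coeff_zero_eq_constantCoeff_apply,
        f 0 (by simp)]
      simp
    haveI : Nontrivial (MvPolynomial σ F ⧸ In w η) := Ideal.Quotient.nontrivial_iff.2 nt
    have h0 : 0 ≤ ringKrullDim (MvPolynomial σ F ⧸ In w η) := ringKrullDim_nonneg_of_nontrivial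
    obtain ⟨d, rfl, h5⟩ : ∃ d : ℕ, D = d + 1 ∧
        ringKrullDim (MvPolynomial σ F ⧸ In w η) ≤ (d : WithBot ℕ∞) := by
      generalize ringKrullDim (MvPolynomial σ F ⧸ In w η) = x at h4 h0
      induction x using WithBot.recBotCoe with
      | bot => simp at h0
      | coe x =>
        induction x using ENat.recTopCoe with
        | top => exact absurd (WithBot.coe_le_coe.1 h4) (by simp)
        | coe x =>
          have : x + 1 ≤ D := by exact_mod_cast h4
          obtain ⟨y, rfl⟩ : ∃ y, D = y + 1 := ⟨D - 1, by omega⟩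
          exact ⟨y, rfl, WithBot.coe_le_coe.2 (ENat.coe_le_coe.2 (by omega))⟩
    rw [In_hom] at h5
    obtain ⟨h, N, hh, hN⟩ := H σ F w hw d _ (fun p hp => hp.2) h5
    rw [← In_hom] at hN
    have h6 : In w η ⊔ Ideal.span (Set.range h) ≤
        In w (η ⊔ Ideal.span (Set.range fun i => (h i : MvPowerSeries σ F))) := by
      refine sup_le (In_mono le_sup_left) (Ideal.span_le.2 ?_)
      rintro _ ⟨i, rfl⟩
      obtain ⟨m, -, hm⟩ := hh i
      exact mem_In hm (Ideal.mem_sup_right (Ideal.subset_span ⟨i, rfl⟩)) (by simp)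
    have h7 := dim_le ne (M := N * ∑ s, w s + 1) (fun i => (h i : MvPowerSeries σ F))
      (fun i => fil_one_le (w := w) fun d hd => by
        obtain ⟨m, m0, hm⟩ := hh i
        rw [MvPolynomial.coeff_coe]
        exact hm.coeff_eq_zero d (by omega))
      ((pow_le_fil hw _).trans fun u hu => approx hw (V := ⊤) _ le_top
        (fun k hk p hp _ => big (fun s => h6 (hN s)) hk hp) trivial hu)
    have h8 : d + 1 ≤ d := by exact_mod_cast hd.trans h7
    omega
  exact fun u hu => approx hw 0 hη (fun k _ p _ hp => h1 (h3 hp)) hu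
    fun d hd => absurd hd (Nat.not_lt_zero _)

end Vale.Agent.P022R.H46
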