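import Vale.Agent.P022R.Gr0
import Vale.Agent.P022R.Geo

/-!
# P022R, row HSP
-/

set_option linter.all false

noncomputable section

namespace Vale.Agent.P022R

open MvPolynomial

theorem hsp : HSP := by
  classical
  intro σ F _ _ w hw d S hS hd
  letI := weightedGradedAlgebra F w
  have h0 : ∀ x ∈ weightedHomogeneousSubmodule F w 0, x ≠ 0 → IsUnit x := fun x hx hx0 => by
    have e1 : weightedHomogeneousComponent w 0 x = x :=
      IsWeightedHomogeneous.weightedHomogeneousComponent_same hx
    rw [weightedHomogeneousComponent_zero x fun i => (hw i).ne'] at e1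
    have e2 : coeff 0 x ≠ 0 := fun h => hx0 (by rw [← e1, h, C_0])
    rw [← e1]
    exact (IsUnit.mk0 _ e2).map C
  have hI : (Ideal.span S).IsHomogeneous (weightedHomogeneousSubmodule F w) :=
    Ideal.homogeneous_span _ _ fun x hx => hS x hx
  obtain ⟨s, hs1, hs2, hs3⟩ := Gr.hsop (weightedHomogeneousSubmodule F w) h0 d _ hI
    (lt_of_le_of_lt hd (by exact_mod_cast Nat.lt_succ_self d))
  have hX : ∀ i : σ, ∃ n, (X i : MvPolynomial σ F) ^ n ∈
      Ideal.span S ⊔ Ideal.span (s : Set (MvPolynomial σ F)) := fun i =>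
    hs3 (w i) (hw i) (X i) (isWeightedHomogeneous_X F w i)
  choose n hn using hX
  let h : Fin d → MvPolynomial σ F := fun i =>
    if hi : i.1 < s.card then (s.equivFin.symm ⟨i.1, hi⟩ : MvPolynomial σ F) else 0
  refine ⟨h, Finset.univ.sup n, fun i => ?_, fun i => ?_⟩
  · by_cases hi : i.1 < s.card
    · rw [show h i = _ from dif_pos hi]
      exact hs2 _ (s.equivFin.symm ⟨i.1, hi⟩).2
    · rw [show h i = _ from dif_neg hi]
      exact ⟨1, one_pos, isWeightedHomogeneous_zero F w 1⟩
  · have e3 : Ideal.span (s : Set (MvPolynomial σ F)) ≤ Ideal.span (Set.range h) := by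
      refine Ideal.span_mono fun x hx => ?_
      have hlt := (s.equivFin ⟨x, hx⟩).2
      refine ⟨⟨_, lt_of_lt_of_le hlt hs1⟩, ?_⟩
      rw [show h _ = _ from dif_pos hlt]
      exact congrArg Subtype.val (s.equivFin.symm_apply_apply ⟨x, hx⟩)
    exact Ideal.pow_mem_of_pow_mem _ (sup_le_sup_left e3 _ (hn i))
      (Finset.le_sup (f := n) (Finset.mem_univ i))

end Vale.Agent.P022R
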