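import Vale.Agent.P022R.LxH65
import Vale.Agent.P022R.Ari2
import Vale.Agent.P022R.Cnt3
import Vale.Agent.P022R.Fnb
import Vale.Agent.P022R.Gwq
import Vale.Agent.P022R.Agen
import Vale.Agent.P022R.Relp
import Vale.Agent.P022R.Brel
import Vale.Agent.P022R.Bgen

/-!
# P022R: the arithmetic part is closed
-/

namespace Vale.Agent.P022R.LxH65

theorem levC : Top.LEV :=
  lev (Alg.ariOf Cnt.cnt) fnb gwq (agen bgen) (relp bgen (brel bgen))

end Vale.Agent.P022R.LxH65
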