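import Vale.Agent.P022R.Geo

/-!
# P022R, row NZ: the variables which are inverted are not zero divisors
-/

set_option linter.all false

open MvPolynomial

noncomputable section

namespace Vale.Agent.P022R

namespace Nz

/-- the leading monomial for the lexicographic order -/
theorem lead {σ F : Type} [Field F] [LinearOrder σ] [WellFoundedGT σ] (v : σ) (d : σ →₀ ℕ)
    (g : MvPolynomial σ F) (hg : g ∈ supported F {w | v < w}) (h0 : 0 < d v)
    (h1 : ∀ w < v, d w = 0) :
    (MonomialOrder.lex (σ := σ)).degree (monomial d (1 : F) + g) = d ∧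
      monomial d (1 : F) + g ≠ 0 := by
  classical
  have hz : ∀ e ∈ g.support, ∀ w ≤ v, e w = 0 := by
    intro e he w hw
    by_contra hne
    have : w ∈ g.vars := (mem_vars_iff_mem_support w).2 ⟨e, he, Finsupp.mem_support_iff.2 hne⟩
    exact absurd ((mem_supported.1 hg) this) (not_lt.2 hw)
  have hlt : ∀ e : σ →₀ ℕ, (∀ w ≤ v, e w = 0) →
      (MonomialOrder.lex (σ := σ)).toSyn e < (MonomialOrder.lex (σ := σ)).toSyn d := by
    intro e he
    rw [MonomialOrder.lex_lt_iff, Finsupp.Lex.lt_iff]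
    refine ⟨v, fun w hw => ?_, ?_⟩
    · simp only [ofLex_toLex]
      rw [he w hw.le, h1 w hw]
    · simp only [ofLex_toLex]
      rw [he v le_rfl]
      exact h0
  have hm : (MonomialOrder.lex (σ := σ)).degree (monomial d (1 : F)) = d := by
    rw [MonomialOrder.degree_monomial, if_neg one_ne_zero]
  have hd : (MonomialOrder.lex (σ := σ)).toSyn ((MonomialOrder.lex (σ := σ)).degree g) <
      (MonomialOrder.lex (σ := σ)).toSyn d := by
    by_cases h : g = 0
    · rw [h, MonomialOrder.degree_zero]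
      exact hlt 0 fun _ _ => rfl
    · exact hlt _ (hz _ (MonomialOrder.degree_mem_support h))
  have hdeg : (MonomialOrder.lex (σ := σ)).degree (monomial d (1 : F) + g) = d := by
    rw [MonomialOrder.degree_add_of_lt (by rw [hm]; exact hd), hm]
  refine ⟨hdeg, fun h => ?_⟩
  rw [h, MonomialOrder.degree_zero] at hdeg
  rw [← hdeg] at h0
  exact lt_irrefl _ h0

/-- equations with quadratic leading monomials `v k * z k` for a priority `pr` -/
theorem core (hGB : GB) {σ ι F : Type} [Field F] [Fintype σ] [Fintype ι] (pr : σ → ℕ)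
    (f : ι → MvPolynomial σ F) (P : ι → Prop) (hP : ∀ e, ¬ P e → f e = 0) (v z : ι → σ)
    (g : ι → MvPolynomial σ F) (hf : ∀ e, P e → f e = X (v e) * X (z e) + g e)
    (hg : ∀ e, P e → g e ∈ supported F {w | pr (v e) < pr w})
    (hz : ∀ e, P e → z e = v e ∨ pr (v e) < pr (z e))
    (hco : ∀ e e', P e → P e' → e ≠ e' → v e ≠ v e' ∧ v e ≠ z e' ∧ z e ≠ z e')
    (u : σ) (hu : ∀ e, P e → u ≠ v e ∧ u ≠ z e) (p : MvPolynomial σ F)
    (hp : X u * p ∈ Ideal.span (Set.range f)) : p ∈ Ideal.span (Set.range f) := by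
  classical
  let key : σ → ℕ ×ₗ ℕ := fun w => toLex (pr w, (Fintype.equivFin σ w : ℕ))
  have hk : Function.Injective key := by
    intro a b h
    have h2 : ((Fintype.equivFin σ a : ℕ)) = (Fintype.equivFin σ b : ℕ) :=
      congrArg (fun q : ℕ ×ₗ ℕ => (ofLex q).2) h
    exact (Fintype.equivFin σ).injective (Fin.ext h2)
  letI : LinearOrder σ := LinearOrder.lift' key hk
  haveI : WellFoundedGT σ := Finite.to_wellFoundedGT
  have hlt : ∀ a b : σ, pr a < pr b → a < b := fun a b h =>
    show key a < key b from Prod.Lex.toLex_lt_toLex.2 (Or.inl h)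
  let d : ι → σ →₀ ℕ := fun e => Finsupp.single (v e) 1 + Finsupp.single (z e) 1
  have hd0 : ∀ e w, w ≠ v e → w ≠ z e → d e w = 0 := by
    intro e w h1 h2
    simp only [d, Finsupp.add_apply, Finsupp.single_eq_of_ne h1, Finsupp.single_eq_of_ne h2,
      add_zero]
  have hl : ∀ e, P e → (MonomialOrder.lex (σ := σ)).degree (f e) = d e ∧ f e ≠ 0 := by
    intro e he
    have hm : (X (v e) * X (z e) : MvPolynomial σ F) = monomial (d e) 1 := by
      simp only [d, X, monomial_mul, one_mul]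
    rw [hf e he, hm]
    refine lead (v e) (d e) (g e) (supported_mono (fun w hw => hlt _ _ hw) (hg e he)) ?_ ?_
    · simp only [d, Finsupp.add_apply, Finsupp.single_eq_same]
      omega
    · intro w hw
      refine hd0 e w hw.ne ?_
      rcases hz e he with h | h
      · rw [h]; exact hw.ne
      · exact (hw.trans (hlt _ _ h)).ne
  have hs : Ideal.span (Set.range f) = Ideal.span (Set.range fun k : {e // P e} => f k.1) := by
    apply le_antisymm
    · rw [Ideal.span_le]
      rintro _ ⟨e, rfl⟩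
      by_cases he : P e
      · exact Ideal.subset_span ⟨⟨e, he⟩, rfl⟩
      · rw [hP e he]; exact Ideal.zero_mem _
    · apply Ideal.span_mono
      rintro _ ⟨k, rfl⟩
      exact ⟨k.1, rfl⟩
  rw [hs] at hp ⊢
  refine hGB σ {e // P e} F (MonomialOrder.lex (σ := σ)) (fun k => f k.1) u
    (fun k => (hl k.1 k.2).2) ?_ ?_ p hp
  · intro k k' hkk s
    have hne : k.1 ≠ k'.1 := fun h => hkk (Subtype.ext h)
    rw [(hl k.1 k.2).1, (hl k'.1 k'.2).1]
    obtain ⟨a1, a2, a3⟩ := hco _ _ k.2 k'.2 hne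
    obtain ⟨_, b2, _⟩ := hco _ _ k'.2 k.2 hne.symm
    by_cases h1 : s = v k.1
    · right; exact hd0 _ _ (h1 ▸ a1) (h1 ▸ a2)
    · by_cases h2 : s = z k.1
      · right; exact hd0 _ _ (h2 ▸ b2.symm) (h2 ▸ a3)
      · left; exact hd0 _ _ h1 h2
  · intro k
    rw [(hl k.1 k.2).1]
    exact hd0 _ _ (hu k.1 k.2).1 (hu k.1 k.2).2

/-- a path through the rows and the columns -/
theorem path {A B : Type} [DecidableEq A] [DecidableEq B] (S : Finset A) (T : Finset B) (a0 : A)
    (b0 : B) (hc : S.card = T.card) (ha : a0 ∉ S) (hb : b0 ∉ T) :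
    ∃ (φ : A → B) (ψ : B → A) (ra : A → ℕ) (rb : B → ℕ),
      (∀ i ∈ S, φ i ∈ T ∧ rb (φ i) < ra i) ∧ (∀ i ∈ S, ∀ i' ∈ S, φ i = φ i' → i = i') ∧
      (∀ j, (j ∈ T ∨ j = b0) → (ψ j ∈ S ∨ ψ j = a0) ∧ ra (ψ j) < rb j) ∧
      ∀ j j', (j ∈ T ∨ j = b0) → (j' ∈ T ∨ j' = b0) → ψ j = ψ j' → j = j' := by
  let a : A → ℕ := fun i => if h : i ∈ S then (S.equivFin ⟨i, h⟩ : ℕ) + 1 else 0
  let b : B → ℕ := fun j => if h : j ∈ T then (T.equivFin ⟨j, h⟩ : ℕ) else T.card
  let r : ℕ → A := fun t => if h : 0 < t ∧ t - 1 < S.card then (S.equivFin.symm ⟨t - 1, h.2⟩).1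
    else a0
  let k : ℕ → B := fun t => if h : t < T.card then (T.equivFin.symm ⟨t, h⟩).1 else b0
  have har : ∀ t ≤ S.card, a (r t) = t ∧ (r t ∈ S ∨ r t = a0) := by
    intro t ht
    by_cases h : 0 < t ∧ t - 1 < S.card
    · have e : r t = (S.equivFin.symm ⟨t - 1, h.2⟩).1 := dif_pos h
      have m : r t ∈ S := by rw [e]; exact Subtype.property _
      refine ⟨?_, Or.inl m⟩
      have e2 : (⟨r t, m⟩ : S) = S.equivFin.symm ⟨t - 1, h.2⟩ := Subtype.ext e
      have e3 : a (r t) = (S.equivFin ⟨r t, m⟩ : ℕ) + 1 := dif_pos m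
      rw [e3, e2, Equiv.apply_symm_apply]
      show t - 1 + 1 = t
      omega
    · have e : r t = a0 := dif_neg h
      refine ⟨?_, Or.inr e⟩
      have e3 : a a0 = 0 := dif_neg ha
      rw [e, e3]
      omega
  have hbk : ∀ t < T.card, b (k t) = t ∧ k t ∈ T := by
    intro t h
    have e : k t = (T.equivFin.symm ⟨t, h⟩).1 := dif_pos h
    have m : k t ∈ T := by rw [e]; exact Subtype.property _
    refine ⟨?_, m⟩
    have e2 : (⟨k t, m⟩ : T) = T.equivFin.symm ⟨t, h⟩ := Subtype.ext e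
    have e3 : b (k t) = (T.equivFin ⟨k t, m⟩ : ℕ) := dif_pos m
    rw [e3, e2, Equiv.apply_symm_apply]
  have haS : ∀ i ∈ S, 0 < a i ∧ a i ≤ S.card := by
    intro i h
    have e3 : a i = (S.equivFin ⟨i, h⟩ : ℕ) + 1 := dif_pos h
    have := (S.equivFin ⟨i, h⟩).2
    omega
  have hai : ∀ i ∈ S, ∀ i' ∈ S, a i = a i' → i = i' := by
    intro i h i' h' e
    have e3 : a i = (S.equivFin ⟨i, h⟩ : ℕ) + 1 := dif_pos h
    have e4 : a i' = (S.equivFin ⟨i', h'⟩ : ℕ) + 1 := dif_pos h'
    have e5 : S.equivFin ⟨i, h⟩ = S.equivFin ⟨i', h'⟩ := Fin.ext (by omega)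
    exact congrArg Subtype.val (S.equivFin.injective e5)
  have hbT : ∀ j ∈ T, b j < T.card := by
    intro j h
    have e3 : b j = (T.equivFin ⟨j, h⟩ : ℕ) := dif_pos h
    have := (T.equivFin ⟨j, h⟩).2
    omega
  have hb0 : b b0 = T.card := dif_neg hb
  have hble : ∀ j, (j ∈ T ∨ j = b0) → b j ≤ S.card := by
    rintro j (h | h)
    · have := hbT j h; omega
    · rw [h, hb0, hc]
  have hbi : ∀ j j', (j ∈ T ∨ j = b0) → (j' ∈ T ∨ j' = b0) → b j = b j' → j = j' := by
    rintro j j' (h | h) (h' | h') e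
    · have e3 : b j = (T.equivFin ⟨j, h⟩ : ℕ) := dif_pos h
      have e4 : b j' = (T.equivFin ⟨j', h'⟩ : ℕ) := dif_pos h'
      have e5 : T.equivFin ⟨j, h⟩ = T.equivFin ⟨j', h'⟩ := Fin.ext (by omega)
      exact congrArg Subtype.val (T.equivFin.injective e5)
    · have := hbT j h
      rw [h', hb0] at e
      omega
    · have := hbT j' h'
      rw [h, hb0] at e
      omega
    · rw [h, h']
  refine ⟨fun i => k (a i - 1), fun j => r (b j), fun i => 2 * a i, fun j => 2 * b j + 1,
    ?_, ?_, ?_, ?_⟩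
  · intro i h
    obtain ⟨h1, h2⟩ := haS i h
    obtain ⟨h3, h4⟩ := hbk (a i - 1) (by omega)
    refine ⟨h4, ?_⟩
    show 2 * b (k (a i - 1)) + 1 < 2 * a i
    omega
  · intro i h i' h' e
    obtain ⟨h1, h2⟩ := haS i h
    obtain ⟨h1', h2'⟩ := haS i' h'
    obtain ⟨h3, _⟩ := hbk (a i - 1) (by omega)
    obtain ⟨h3', _⟩ := hbk (a i' - 1) (by omega)
    have e' : k (a i - 1) = k (a i' - 1) := e
    rw [e'] at h3
    exact hai i h i' h' (by omega)
  · intro j h
    obtain ⟨h1, h2⟩ := har (b j) (hble j h)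
    refine ⟨h2, ?_⟩
    show 2 * a (r (b j)) < 2 * b j + 1
    omega
  · intro j j' h h' e
    obtain ⟨h1, _⟩ := har (b j) (hble j h)
    obtain ⟨h1', _⟩ := har (b j') (hble j' h')
    have e' : r (b j) = r (b j') := e
    rw [e'] at h1
    exact hbi j j' h h' (by omega)

/-- the framed equations, given the choice of the leading cells -/
theorem main (hGB : GB) {I J K F : Type} [Fintype I] [Fintype J] [DecidableEq I] [DecidableEq J]
    [Fintype K] [Field F] (s : Sh I J) (φ : I → J) (ψ : J → I) (rI : I → ℕ) (rJ : J → ℕ)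
    (h1 : ∀ i ∈ s.I0, rJ (φ i) < rI i) (h2 : ∀ i ∈ s.I0, ∀ i' ∈ s.I0, φ i = φ i' → i = i')
    (h3 : ∀ j ∈ s.J0, rI (ψ j) < rJ j) (h4 : ∀ j ∈ s.J0, ∀ j' ∈ s.J0, ψ j = ψ j' → j = j')
    (c : I ⊕ J) (hc1 : ∀ i ∈ s.I0, c ≠ Sum.inr (φ i)) (hc2 : ∀ j ∈ s.J0, c ≠ Sum.inl (ψ j))
    (p : MvPolynomial (Vf I J K) F)
    (hp : X (Sum.inr (Sum.inr (Sum.inl c))) * p ∈ Ideal.span (Set.range (s.frm K F))) :
    p ∈ Ideal.span (Set.range (s.frm K F)) := by
  let M : ℕ := Finset.univ.sup rI + Finset.univ.sup rJ + 2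
  have hMI : ∀ i, rI i + 1 < M := fun i => by
    have : rI i ≤ Finset.univ.sup rI := Finset.le_sup (Finset.mem_univ i)
    omega
  have hMJ : ∀ j, rJ j + 1 < M := fun j => by
    have : rJ j ≤ Finset.univ.sup rJ := Finset.le_sup (Finset.mem_univ j)
    omega
  let py : I → J → ℕ := fun i j => if i ∈ s.I0 ∧ φ i = j then rI i + 1 else
    if j ∈ s.J0 ∧ ψ j = i then rJ j + 1 else M
  let pr : Vf I J K → ℕ := Sum.elim (fun _ => 0) (Sum.elim (fun q => py q.1 q.2) fun _ => M)
  have p1 : ∀ i ∈ s.I0, py i (φ i) = rI i + 1 := fun i hi => if_pos ⟨hi, rfl⟩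
  have nb : ∀ j ∈ s.J0, ¬ (ψ j ∈ s.I0 ∧ φ (ψ j) = j) := by
    rintro j hj ⟨a, b⟩
    have := h1 _ a
    have := h3 j hj
    rw [b] at *
    omega
  have p2 : ∀ j ∈ s.J0, py (ψ j) j = rJ j + 1 := fun j hj => by
    show (if _ then _ else _) = _
    rw [if_neg (nb j hj), if_pos ⟨hj, rfl⟩]
  have p3 : ∀ i ∈ s.I0, ∀ j, j ≠ φ i → rI i + 1 < py i j := by
    intro i hi j hj
    show _ < (if _ then _ else _)
    rw [if_neg fun h => hj h.2.symm]
    split_ifs with h
    · have := h3 j h.1
      rw [h.2] at this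
      omega
    · exact hMI i
  have p4 : ∀ j ∈ s.J0, ∀ i, i ≠ ψ j → rJ j + 1 < py i j := by
    intro j hj i hi
    show _ < (if _ then _ else _)
    split_ifs with h h'
    · have := h1 i h.1
      rw [h.2] at this
      exact Nat.succ_lt_succ this
    · exact absurd h'.2.symm hi
    · exact hMJ j
  have p5 : ∀ i j, 0 < py i j := by
    intro i j
    show _ < (if _ then _ else _)
    split_ifs
    · exact Nat.succ_pos _
    · exact Nat.succ_pos _
    · exact Nat.succ_pos _
  have p6 : 0 < M := by omega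
  refine core hGB pr (s.frm K F)
    (Sum.elim (fun i => i ∈ s.I0) (Sum.elim (fun j => j ∈ s.J0) fun _ => True)) ?_
    (Sum.elim (fun i => Sum.inr (Sum.inl (i, φ i)))
      (Sum.elim (fun j => Sum.inr (Sum.inl (ψ j, j))) fun _ => Sum.inl ()))
    (Sum.elim (fun i => Sum.inr (Sum.inr (Sum.inl (Sum.inr (φ i)))))
      (Sum.elim (fun j => Sum.inr (Sum.inr (Sum.inl (Sum.inl (ψ j))))) fun _ => Sum.inl ()))
    (Sum.elim (fun i => ∑ j ∈ Finset.univ.erase (φ i), fY K F i j * fβ K F j)
      (Sum.elim (fun j => ∑ i ∈ Finset.univ.erase (ψ j), fY K F i j * fγ K F i)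
        fun _ => fγ K F s.i0 *
          if s.G then fβ K F s.j0 else ∑ j, fY K F s.i0 j * fβ K F j)) ?_ ?_ ?_ ?_ _ ?_ p hp
  · rintro (i | j | e) h
    · exact if_neg h
    · exact if_neg h
    · exact absurd trivial h
  · rintro (i | j | e) h
    · have h' : i ∈ s.I0 := h
      show (if i ∈ s.I0 then ∑ j, fY K F i j * fβ K F j else 0) = _
      rw [if_pos h', ← Finset.add_sum_erase _ _ (Finset.mem_univ (φ i))]
      rfl
    · have h' : j ∈ s.J0 := h
      show (if j ∈ s.J0 then ∑ i, fY K F i j * fγ K F i else 0) = _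
      rw [if_pos h', ← Finset.add_sum_erase _ _ (Finset.mem_univ (ψ j))]
      rfl
    · show fa K F ^ 2 + _ = _
      rw [pow_two]
      rfl
  · rintro (i | j | e) h
    · have h' : i ∈ s.I0 := h
      refine Subalgebra.sum_mem _ fun j hj => Subalgebra.mul_mem _ (X_mem_supported.2 ?_)
        (X_mem_supported.2 ?_)
      · show py i (φ i) < py i j
        rw [p1 i h']
        exact p3 i h' j (Finset.ne_of_mem_erase hj)
      · show py i (φ i) < M
        rw [p1 i h']
        exact hMI i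
    · have h' : j ∈ s.J0 := h
      refine Subalgebra.sum_mem _ fun i hi => Subalgebra.mul_mem _ (X_mem_supported.2 ?_)
        (X_mem_supported.2 ?_)
      · show py (ψ j) j < py i j
        rw [p2 j h']
        exact p4 j h' i (Finset.ne_of_mem_erase hi)
      · show py (ψ j) j < M
        rw [p2 j h']
        exact hMJ j
    · refine Subalgebra.mul_mem _ (X_mem_supported.2 p6) ?_
      split_ifs
      · exact X_mem_supported.2 p6
      · exact Subalgebra.sum_mem _ fun j _ => Subalgebra.mul_mem _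
          (X_mem_supported.2 (p5 s.i0 j)) (X_mem_supported.2 p6)
  · rintro (i | j | e) h
    · right
      show py i (φ i) < M
      rw [p1 i h]
      exact hMI i
    · right
      show py (ψ j) j < M
      rw [p2 j h]
      exact hMJ j
    · left
      rfl
  · rintro (i | j | e) (i' | j' | e') h h' hne
    · have hi : i ≠ i' := fun a => hne (congrArg _ a)
      refine ⟨fun a => hi ?_, fun a => ?_, fun a => hi (h2 i h i' h' ?_)⟩
      · simpa using congrArg (Sum.elim (fun _ => i) (Sum.elim Prod.fst fun _ => i)) a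
      · simp at a
      · simpa using a
    · refine ⟨fun a => nb j' h' ?_, fun a => ?_, fun a => ?_⟩
      · have a' : i = ψ j' ∧ φ i = j' := by simpa using a
        rw [← a'.1]
        exact ⟨h, a'.2⟩
      · simp at a
      · simp at a
    · refine ⟨fun a => ?_, fun a => ?_, fun a => ?_⟩ <;> simp at a
    · refine ⟨fun a => nb j h ?_, fun a => ?_, fun a => ?_⟩
      · have a' : ψ j = i' ∧ j = φ i' := by simpa using a
        rw [a'.1]
        exact ⟨h', a'.2.symm⟩
      · simp at a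
      · simp at a
    · have hj : j ≠ j' := fun a => hne (congrArg (fun x => Sum.inr (Sum.inl x)) a)
      refine ⟨fun a => hj ?_, fun a => ?_, fun a => hj (h4 j h j' h' ?_)⟩
      · simpa using congrArg (Sum.elim (fun _ => j) (Sum.elim Prod.snd fun _ => j)) a
      · simp at a
      · simpa using a
    · refine ⟨fun a => ?_, fun a => ?_, fun a => ?_⟩ <;> simp at a
    · refine ⟨fun a => ?_, fun a => ?_, fun a => ?_⟩ <;> simp at a
    · refine ⟨fun a => ?_, fun a => ?_, fun a => ?_⟩ <;> simp at a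
    · exact absurd rfl hne
  · rintro (i | j | e) h
    · refine ⟨fun a => by simp at a, fun a => hc1 i h ?_⟩
      simpa using a
    · refine ⟨fun a => by simp at a, fun a => hc2 j h ?_⟩
      simpa using a
    · exact ⟨fun a => by simp at a, fun a => by simp at a⟩

end Nz

/-- **row NZ** -/
theorem nz (h : GB) : NZ := by
  intro I J K F _ _ _ _ _ _ s hs
  constructor
  · intro i hi p hp
    by_cases hJ : s.J0 = Finset.univ
    · have c1 : s.I0.card + 2 = Fintype.card I := by
        have a := hs.cI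
        have b := hs.cJ
        rw [hJ, Finset.card_univ] at b
        omega
      obtain ⟨i1, hi1⟩ : ∃ i1, i1 ∉ insert i s.I0 := by
        by_contra hn
        have e : insert i s.I0 = Finset.univ :=
          Finset.eq_univ_of_forall fun x => by_contra fun hx => hn ⟨x, hx⟩
        have e2 := Finset.card_insert_of_notMem hi
        rw [e, Finset.card_univ] at e2
        omega
      rw [Finset.mem_insert, not_or] at hi1
      obtain ⟨φ, ψ, ra, rb, a1, a2, a3, a4⟩ := Nz.path s.I0 (Finset.univ.erase s.j0) i1 s.j0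
        (by rw [Finset.card_erase_of_mem (Finset.mem_univ _), Finset.card_univ, ← hs.cI]; rfl)
        hi1.2 (Finset.notMem_erase _ _)
      have m : ∀ j, j ∈ Finset.univ.erase s.j0 ∨ j = s.j0 := fun j => by
        by_cases e : j = s.j0
        · exact Or.inr e
        · exact Or.inl (Finset.mem_erase.2 ⟨e, Finset.mem_univ _⟩)
      refine Nz.main h s φ ψ ra rb (fun x hx => (a1 x hx).2) a2 (fun j _ => (a3 j (m j)).2)
        (fun j _ j' _ => a4 j j' (m j) (m j')) (Sum.inl i) (fun _ _ => Sum.inl_ne_inr)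
        (fun j _ e => ?_) p hp
      have e' : i = ψ j := Sum.inl_injective e
      rcases (a3 j (m j)).1 with b | b
      · exact hi (e' ▸ b)
      · exact hi1.1 (b.symm.trans e'.symm)
    · obtain ⟨j1, hj1⟩ : ∃ j1, j1 ∉ s.J0 := by
        by_contra hn
        exact hJ (Finset.eq_univ_of_forall fun x => by_contra fun hx => hn ⟨x, hx⟩)
      obtain ⟨ψ, φ, rb, ra, a1, a2, a3, a4⟩ := Nz.path s.J0 (Finset.univ.erase i) j1 i
        (by rw [Finset.card_erase_of_mem (Finset.mem_univ _), Finset.card_univ, ← hs.cJ]; rfl)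
        hj1 (Finset.notMem_erase _ _)
      have m : ∀ x, x ∈ Finset.univ.erase i ∨ x = i := fun x => by
        by_cases e : x = i
        · exact Or.inr e
        · exact Or.inl (Finset.mem_erase.2 ⟨e, Finset.mem_univ _⟩)
      refine Nz.main h s φ ψ ra rb (fun x _ => (a3 x (m x)).2)
        (fun x _ x' _ => a4 x x' (m x) (m x')) (fun j hj => (a1 j hj).2) a2 (Sum.inl i)
        (fun _ _ => Sum.inl_ne_inr) (fun j hj e => ?_) p hp
      exact Finset.ne_of_mem_erase (a1 j hj).1 (Sum.inl_injective e).symm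
  · intro j _ p hp
    obtain ⟨φ, ψ, ra, rb, a1, a2, a3, a4⟩ := Nz.path s.I0 (Finset.univ.erase j) s.i0 j
      (by rw [Finset.card_erase_of_mem (Finset.mem_univ _), Finset.card_univ, ← hs.cI]; rfl)
      hs.hi (Finset.notMem_erase _ _)
    have m : ∀ x, x ∈ Finset.univ.erase j ∨ x = j := fun x => by
      by_cases e : x = j
      · exact Or.inr e
      · exact Or.inl (Finset.mem_erase.2 ⟨e, Finset.mem_univ _⟩)
    refine Nz.main h s φ ψ ra rb (fun x hx => (a1 x hx).2) a2 (fun x _ => (a3 x (m x)).2)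
      (fun x _ x' _ => a4 x x' (m x) (m x')) (Sum.inr j) (fun i hi e => ?_)
      (fun _ _ => Sum.inr_ne_inl) p hp
    exact Finset.ne_of_mem_erase (a1 i hi).1 (Sum.inr_injective e).symm

end Vale.Agent.P022R
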