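import Vale.Agent.P022R.Geo

/-!
# P022R, row PRM: the ideal of the initial forms is prime
-/

set_option linter.all false

noncomputable section

namespace Vale.Agent.P022R

open MvPolynomial

namespace Prm

section lin

variable {I J L : Type} [Fintype I] [Fintype J] [DecidableEq I] [DecidableEq J] [Field L]

theorem step (β : J → L) (Y0 : I → J → L) (c : I → L) (Rw : Finset I) {j1 : J} (hβ : β j1 ≠ 0) :
    ∃ Y : I → J → L, (∀ i j, ¬ (i ∈ Rw ∧ j = j1) → Y i j = Y0 i j) ∧
      ∀ i ∈ Rw, ∑ j, Y i j * β j = c i := by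
  refine ⟨fun i j => Y0 i j + if i ∈ Rw ∧ j = j1 then (c i - ∑ j, Y0 i j * β j) / β j1 else 0,
    fun i j h => by simp only [if_neg h, add_zero], fun i hi => ?_⟩
  simp only [add_mul, Finset.sum_add_distrib, hi, true_and, ite_mul, zero_mul,
    Finset.sum_ite_eq', Finset.mem_univ, if_true]
  rw [div_mul_cancel₀ _ hβ]
  ring

theorem solve (β : J → L) (γ : I → L) (Y0 : I → J → L) (c : I → L) (Rw : Finset I)
    (J0 : Finset J) {i1 : I} {j1 : J} (hβ : β j1 ≠ 0) (hγ : γ i1 ≠ 0) (h : j1 ∉ J0 ∨ i1 ∉ Rw) :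
    ∃ Y : I → J → L, (∀ i j, ¬ (i ∈ Rw ∧ j = j1) → ¬ (j ∈ J0 ∧ i = i1) → Y i j = Y0 i j) ∧
      (∀ i ∈ Rw, ∑ j, Y i j * β j = c i) ∧ ∀ j ∈ J0, ∑ i, Y i j * γ i = 0 := by
  rcases h with h | h
  · obtain ⟨Y1, a1, a2⟩ := step γ (fun j i => Y0 i j) (fun _ => 0) J0 hγ
    obtain ⟨Y2, b1, b2⟩ := step β (fun i j => Y1 j i) c Rw hβ
    refine ⟨Y2, fun i j h1 h2 => (b1 i j h1).trans (a1 j i h2), b2, fun j hj => ?_⟩
    rw [← a2 j hj]
    exact Finset.sum_congr rfl fun i _ => by rw [b1 i j fun e => h (e.2 ▸ hj)]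
  · obtain ⟨Y1, a1, a2⟩ := step β Y0 c Rw hβ
    obtain ⟨Y2, b1, b2⟩ := step γ (fun j i => Y1 i j) (fun _ => 0) J0 hγ
    refine ⟨fun i j => Y2 j i, fun i j h1 h2 => (b1 j i h2).trans (a1 i j h1), fun i hi => ?_, b2⟩
    rw [← a2 i hi]
    exact Finset.sum_congr rfl fun j _ => congrArg (· * β j) (b1 j i fun e => h (e.2 ▸ hi))

end lin

variable {I J : Type} [Fintype I] [Fintype J] [DecidableEq I] [DecidableEq J]

/-- the pivots -/
structure Pv (s : Sh I J) (i1 : I) (j1 : J) : Prop where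
  h1 : i1 ∉ s.I0
  h2 : j1 ∉ s.J0 ∨ s.J0 = Finset.univ
  h3 : s.G = true → j1 = s.j0 ∧ j1 ∉ s.J0
  h4 : j1 ∈ s.J0 → i1 ≠ s.i0

theorem exPv {s : Sh I J} (h : s.Ok) : ∃ i1 j1, Pv s i1 j1 := by
  have a := h.cI
  have b := h.cJ
  rcases h.cH with e | e
  · by_cases hG : s.G = true
    · exact ⟨s.i0, s.j0, h.hi, Or.inl (h.cG hG).1, fun _ => ⟨rfl, (h.cG hG).1⟩,
        fun q => absurd q (h.cG hG).1⟩
    · obtain ⟨j, -, hj⟩ := Finset.exists_mem_notMem_of_card_lt_card
        (s := s.J0) (t := Finset.univ) (by rw [Finset.card_univ]; omega)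
      exact ⟨s.i0, j, h.hi, Or.inl hj, fun q => absurd q hG, fun q => absurd q hj⟩
  · obtain ⟨i, -, hi⟩ := Finset.exists_mem_notMem_of_card_lt_card
      (s := insert s.i0 s.I0) (t := Finset.univ) (by
        rw [Finset.card_univ, Finset.card_insert_of_notMem h.hi]; omega)
    rw [Finset.mem_insert, not_or] at hi
    exact ⟨i, s.j0, hi.2, Or.inr (Finset.eq_univ_of_card _ (by omega)),
      fun q => by have := (h.cG q).2; omega, fun _ => hi.1⟩

/-- the rows which are solved -/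
def Rw (s : Sh I J) : Finset I := if s.G then s.I0 else insert s.i0 s.I0

/-- the solved variables -/
def Sv (s : Sh I J) (i1 : I) (j1 : J) (K : Type) : Vr I J K → Prop :=
  Sum.elim (fun _ => False) (Sum.elim
    (fun p => (p.1 ∈ Rw s ∧ p.2 = j1) ∨ (p.2 ∈ s.J0 ∧ p.1 = i1))
    (Sum.elim (fun p => (p.1 ≠ s.i0 ∧ p.2 ≠ j1) ∨ (s.G = true ∧ p.1 = s.i0 ∧ p.2 = j1))
      fun _ => False))

/-- the ranks -/
def rk (s : Sh I J) (i1 : I) (j1 : J) (K : Type) : Vr I J K → ℕ :=
  Sum.elim (fun _ => 0) (Sum.elim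
    (fun p => if (j1 ∉ s.J0 ∧ p.2 = j1) ∨ (j1 ∈ s.J0 ∧ p.1 = i1) then 2 else 1)
    (Sum.elim (fun p => if p.1 = s.i0 ∨ p.2 = j1 then 0 else 1) fun _ => 0))

variable {s : Sh I J} {i1 : I} {j1 : J}

theorem Pv.dj (h : Pv s i1 j1) : j1 ∉ s.J0 ∨ i1 ∉ Rw s := by
  by_cases e : j1 ∈ s.J0
  · refine Or.inr ?_
    rw [Rw, if_neg fun q => (h.h3 q).2 e, Finset.mem_insert, not_or]
    exact ⟨h.h4 e, h.h1⟩
  · exact Or.inl e

theorem sub_Rw {i : I} (h : i ∈ s.I0) : i ∈ Rw s := by
  rw [Rw]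
  split_ifs
  exacts [h, Finset.mem_insert_of_mem h]

theorem card_le (K : Type) [Fintype K] (hs : s.Ok) (h : Pv s i1 j1) (Z : Finset (Vr I J K))
    (hZ : ∀ z, z ∈ Z ↔ Sv s i1 j1 K z) : Fintype.card I * Fintype.card J ≤ Z.card := by
  have key := Finset.card_le_card_of_injOn
    (s := ((Finset.univ.erase s.i0) ×ˢ (Finset.univ.erase j1)).disjSum
      (s.I0.disjSum (s.J0.disjSum (Finset.univ : Finset Unit)))) (t := Z)
    (Sum.elim (fun p => Sum.inr (Sum.inr (Sum.inl p))) (Sum.elim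
      (fun i => Sum.inr (Sum.inl (i, j1))) (Sum.elim (fun j => Sum.inr (Sum.inl (i1, j)))
        fun _ => if s.G then Sum.inr (Sum.inr (Sum.inl (s.i0, j1)))
          else Sum.inr (Sum.inl (s.i0, j1))))) (by
      rintro (p | i | j | u) hx <;> rw [Finset.mem_coe, hZ]
      · exact Or.inl (by simpa using hx)
      · exact Or.inl ⟨sub_Rw (by simpa using hx), rfl⟩
      · exact Or.inr ⟨by simpa using hx, rfl⟩
      · by_cases e : s.G = true
        · simp only [Sum.elim_inr, if_pos e]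
          exact Or.inr ⟨e, rfl, rfl⟩
        · simp only [Sum.elim_inr, if_neg e]
          exact Or.inl ⟨by rw [Rw, if_neg e]; exact Finset.mem_insert_self _ _, rfl⟩) (by
      have a1 := h.h1
      have a4 := h.h4
      have a5 := hs.hi
      rintro (p | i | j | u) hx (p' | i' | j' | u') hy e <;>
        by_cases hG : s.G = true <;> simp_all <;> grind)
  rw [Finset.card_disjSum, Finset.card_disjSum, Finset.card_disjSum, Finset.card_product,
    Finset.card_erase_of_mem (Finset.mem_univ _), Finset.card_erase_of_mem (Finset.mem_univ _),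
    Finset.card_univ, Finset.card_univ, Finset.card_univ, Fintype.card_unit, ← hs.cI, ← hs.cJ,
    Nat.add_sub_cancel, Nat.add_sub_cancel] at key
  rw [← hs.cI, ← hs.cJ]
  refine le_trans (le_of_eq ?_) key
  ring

/-- the generic point -/
theorem point (K F : Type) [Field F] (hs : s.Ok) (h : Pv s i1 j1) {L : Type} [Field L]
    [Algebra F L] (T : Vr I J K → L) (hT : ∀ z, T z ≠ 0) :
    ∃ Φ : MvPolynomial (Vr I J K) F →ₐ[F] L, (∀ e, Φ (s.eqn K F e) = 0) ∧
      ∀ z, ¬ Sv s i1 j1 K z → Φ (X z) = T z := by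
  let a : L := T (Sum.inl ())
  let β : J → L := fun j =>
    if s.G = true ∧ j = j1 then - a ^ 2 else T (Sum.inr (Sum.inr (Sum.inl (s.i0, j))))
  have hβ : β j1 ≠ 0 := by
    simp only [β]
    split_ifs
    exacts [neg_ne_zero.2 (pow_ne_zero _ (hT _)), hT _]
  let γ : I → L := fun i =>
    if i = s.i0 then 1 else T (Sum.inr (Sum.inr (Sum.inl (i, j1)))) / β j1
  have hγ : γ i1 ≠ 0 := by
    simp only [γ]
    split_ifs
    exacts [one_ne_zero, div_ne_zero (hT _) hβ]
  have g0 : γ s.i0 = 1 := if_pos rfl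
  obtain ⟨Y, y1, y2, y3⟩ := solve β γ (fun i j => T (Sum.inr (Sum.inl (i, j))))
    (fun i => if i = s.i0 then - a ^ 2 else 0) (Rw s) s.J0 hβ hγ h.dj
  let Φ : MvPolynomial (Vr I J K) F →ₐ[F] L := aeval (Sum.elim (fun _ => a)
    (Sum.elim (fun p => Y p.1 p.2) (Sum.elim (fun p => γ p.1 * β p.2)
      fun k => T (Sum.inr (Sum.inr (Sum.inr k))))))
  have ea : Φ (va K F) = a := aeval_X _ _
  have eY : ∀ i j, Φ (vY K F i j) = Y i j := fun i j => aeval_X _ _
  have ex : ∀ i j, Φ (vx K F i j) = γ i * β j := fun i j => aeval_X _ _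
  refine ⟨Φ, ?_, ?_⟩
  · rintro (⟨i, k, j, l⟩ | ⟨i, k⟩ | ⟨j, l⟩ | u)
    · simp only [Sh.eqn, map_sub, map_mul, ex]
      ring
    · simp only [Sh.eqn]
      split_ifs with q
      · have := y2 i (sub_Rw q)
        rw [if_neg fun e : i = s.i0 => hs.hi (e ▸ q)] at this
        simp only [map_sum, map_mul, ex, eY]
        rw [← mul_zero (γ k), ← this, Finset.mul_sum]
        exact Finset.sum_congr rfl fun j _ => by ring
      · exact map_zero _
    · simp only [Sh.eqn]
      split_ifs with q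
      · simp only [map_sum, map_mul, ex, eY]
        rw [← zero_mul (β l), ← y3 j q, Finset.sum_mul]
        exact Finset.sum_congr rfl fun j _ => by ring
      · exact map_zero _
    · simp only [Sh.eqn]
      split_ifs with q
      · rw [map_add, map_pow, ea, ex, g0, one_mul, ← (h.h3 q).1]
        simp only [β, q, true_and, if_true]
        ring
      · have := y2 s.i0 (by rw [Rw, if_neg q]; exact Finset.mem_insert_self _ _)
        rw [if_pos rfl] at this
        simp only [map_add, map_pow, map_sum, map_mul, ex, eY, ea, g0, one_mul]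
        rw [this]
        ring
  · rintro (u | ⟨i, j⟩ | ⟨i, j⟩ | k) hz
    · exact ea
    · exact (eY i j).trans (y1 i j (fun e => hz (Or.inl e)) fun e => hz (Or.inr e))
    · refine (ex i j).trans ?_
      by_cases e : i = s.i0
      · subst e
        rw [g0, one_mul]
        exact if_neg fun q => hz (Or.inr ⟨q.1, rfl, q.2⟩)
      · have e' : j = j1 := by
          by_contra q
          exact hz (Or.inl ⟨e, q⟩)
        subst e'
        simp only [γ, if_neg e]
        exact div_mul_cancel₀ _ hβ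
    · exact aeval_X _ _

end Prm

open Prm in
/-- **PRM** -/
theorem prm (h1 : NZ) (h2 : EMB) (h3 : DOM) : PRM := by
  classical
  intro I J K F _ _ _ _ _ _ _ s hs
  obtain ⟨i1, j1, h⟩ := exPv hs
  obtain ⟨n1, n2⟩ := h1 I J K F s hs
  set E := Ideal.span (Set.range (s.eqn K F)) with hE
  have mE : ∀ e, s.eqn K F e ∈ E := fun e => Ideal.subset_span ⟨e, rfl⟩
  have nz : ∀ i ∉ s.I0, ∀ p, vx K F i j1 * p ∈ E → p ∈ E := fun i hi p hp => by
    rw [hE, ← h2] at hp ⊢
    rw [map_mul, show toF K F (vx K F i j1) = fγ K F i * fβ K F j1 from aeval_X _ _,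
      mul_assoc] at hp
    exact n2 j1 h.h2 _ (n1 i hi _ hp)
  let L := FractionRing (MvPolynomial (Vr I J K) F)
  let ι : MvPolynomial (Vr I J K) F →ₐ[F] L := IsScalarTower.toAlgHom F _ L
  have hι : Function.Injective ι := IsFractionRing.injective _ L
  obtain ⟨Φ, f1, f2⟩ := point K F hs h (fun z => ι (X z))
    fun z => (map_ne_zero_iff _ hι).2 (X_ne_zero z)
  let Z : Finset (Vr I J K) := Finset.univ.filter (Sv s i1 j1 K)
  have hZ : ∀ z, z ∈ Z ↔ Sv s i1 j1 K z := fun z => by simp [Z]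
  have key := h3 (Vr I J K) F L E Z (rk s i1 j1 K) Φ
    (fun p hp => (Ideal.span_le (I := RingHom.ker Φ)).2 (by rintro _ ⟨e, rfl⟩; exact f1 e) hp)
    (by
      have := ((algebraicIndependent_X (Vr I J K) F).map' hι).comp
        (fun z : {z // z ∉ Z} => z.1) Subtype.val_injective
      rwa [show (fun z : {z // z ∉ Z} => Φ (X z.1)) = (ι ∘ X) ∘ fun z : {z // z ∉ Z} => z.1 from
        funext fun z => f2 _ fun q => z.2 ((hZ _).2 q)]) ?_
  · refine ⟨key.1, key.2.trans ?_⟩
    have := card_le K hs h Z hZ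
    exact_mod_cast (by
      simp only [Fintype.card_sum, Fintype.card_prod, Fintype.card_unit]
      omega : Fintype.card (Vr I J K) - Z.card ≤ _)
  intro z hz
  let A := supported F {t : Vr I J K | t ∉ Z ∨ rk s i1 j1 K t < rk s i1 j1 K z}
  suffices ∃ u g : MvPolynomial (Vr I J K) F, u * X z - g ∈ E ∧ (∀ p, u * p ∈ E → p ∈ E) ∧
      u ∈ A ∧ g ∈ A by
    obtain ⟨u, g, a1, a2, a3, a4⟩ := this
    exact ⟨u, g, a1, a2, fun t ht => mem_supported.1 a3 ht, fun t ht => mem_supported.1 a4 ht⟩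
  have ma : va K F ∈ A := X_mem_supported.2 (Or.inl fun q => (hZ _).1 q)
  have mx : 0 < rk s i1 j1 K z → ∀ i j, i = s.i0 ∨ j = j1 → vx K F i j ∈ A := fun q i j e =>
    X_mem_supported.2 (Or.inr (lt_of_eq_of_lt (if_pos e) q))
  rw [hZ] at hz
  rcases z with u | ⟨i, j⟩ | ⟨i, j⟩ | k
  · exact hz.elim
  · have q : 0 < rk s i1 j1 K (Sum.inr (Sum.inl (i, j))) := by
      simp only [rk, Sum.elim_inr, Sum.elim_inl]
      split_ifs <;> norm_num
    rcases hz with ⟨a1, a2⟩ | ⟨a1, a2⟩
    · change i ∈ Rw s at a1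
      change j = j1 at a2
      subst a2
      have mY : ∀ l, l ≠ j → vY K F i l ∈ A := fun l hl => X_mem_supported.2 (by
        by_cases e : j ∈ s.J0
        · refine Or.inl fun t => ?_
          rcases (hZ _).1 t with t | t
          · exact hl t.2
          · exact h.dj.elim (fun w => w e) fun w => w (t.2 ▸ a1)
        · refine Or.inr ?_
          simp [rk, e, hl])
      have ms : ∑ l ∈ Finset.univ.erase j, vY K F i l * vx K F s.i0 l ∈ A :=
        sum_mem fun l hl => mul_mem (mY l (Finset.ne_of_mem_erase hl)) (mx q _ _ (Or.inl rfl))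
      have es := Finset.add_sum_erase Finset.univ (fun l => vY K F i l * vx K F s.i0 l)
        (Finset.mem_univ j)
      by_cases e : i ∈ s.I0
      · refine ⟨vx K F s.i0 j, _, ?_, nz _ hs.hi, mx q _ _ (Or.inl rfl), neg_mem ms⟩
        have := mE (Sum.inr (Sum.inl (i, s.i0)))
        simp only [Sh.eqn, if_pos e] at this
        rwa [← es, mul_comm, ← sub_neg_eq_add] at this
      · have hG : ¬ s.G = true := fun t => e (by rwa [Rw, if_pos t] at a1)
        rw [Rw, if_neg hG, Finset.mem_insert] at a1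
        obtain rfl := a1.resolve_right e
        refine ⟨vx K F s.i0 j, _, ?_, nz _ hs.hi, mx q _ _ (Or.inl rfl),
          neg_mem (add_mem (pow_mem ma 2) ms)⟩
        have := mE (Sum.inr (Sum.inr (Sum.inr ())))
        simp only [Sh.eqn, if_neg hG] at this
        rwa [← es, mul_comm, add_left_comm, ← sub_neg_eq_add] at this
    · change j ∈ s.J0 at a1
      change i = i1 at a2
      subst a2
      have mY : ∀ l, l ≠ i → vY K F l j ∈ A := fun l hl => X_mem_supported.2 (by
        by_cases e : j1 ∈ s.J0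
        · refine Or.inr ?_
          simp [rk, e, hl]
        · refine Or.inl fun t => ?_
          rcases (hZ _).1 t with t | t
          · exact e (t.2 ▸ a1)
          · exact hl t.2)
      have ms : ∑ l ∈ Finset.univ.erase i, vY K F l j * vx K F l j1 ∈ A :=
        sum_mem fun l hl => mul_mem (mY l (Finset.ne_of_mem_erase hl)) (mx q _ _ (Or.inr rfl))
      have es := Finset.add_sum_erase Finset.univ (fun l => vY K F l j * vx K F l j1)
        (Finset.mem_univ i)
      refine ⟨vx K F i j1, _, ?_, nz _ h.h1, mx q _ _ (Or.inr rfl), neg_mem ms⟩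
      have := mE (Sum.inr (Sum.inr (Sum.inl (j, j1))))
      simp only [Sh.eqn, if_pos a1] at this
      rwa [← es, mul_comm, ← sub_neg_eq_add] at this
  · rcases hz with ⟨a1, a2⟩ | ⟨a1, a2, a3⟩
    · change i ≠ s.i0 at a1
      change j ≠ j1 at a2
      have q : 0 < rk s i1 j1 K (Sum.inr (Sum.inr (Sum.inl (i, j)))) := by simp [rk, a1, a2]
      exact ⟨vx K F s.i0 j1, _, mE (Sum.inl (s.i0, i, j1, j)), nz _ hs.hi, mx q _ _ (Or.inl rfl),
        mul_mem (mx q _ _ (Or.inl rfl)) (mx q _ _ (Or.inr rfl))⟩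
    · change i = s.i0 at a2
      change j = j1 at a3
      subst a2 a3
      refine ⟨1, _, ?_, fun p hp => by rwa [one_mul] at hp, one_mem _, neg_mem (pow_mem ma 2)⟩
      have := mE (Sum.inr (Sum.inr (Sum.inr ())))
      simp only [Sh.eqn, if_pos a1] at this
      rwa [← (h.h3 a1).1, add_comm, ← sub_neg_eq_add, ← one_mul (vx K F s.i0 j)] at this
  · exact hz.elim

end Vale.Agent.P022R
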