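import Vale.Agent.P022R.Geo

/-! P022R, row SEC: matrices of rank one. -/

set_option linter.all false

noncomputable section

namespace Vale.Agent.P022R

namespace Sec

open MvPolynomial

variable {I J A : Type} [CommRing A] (x : I → J → A)

/-- the product along the matching given by two lists -/
def P : List I → List J → A
  | [], [] => 1
  | i :: s, j :: t => x i j * P s t
  | [], _ :: _ => 0
  | _ :: _, [] => 0

variable {x}

theorem permL (h : ∀ i k j l, x i j * x k l = x i l * x k j) {s s' : List I} (e : s.Perm s') :
    ∀ t, P x s t = P x s' t := by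
  induction e with
  | nil => exact fun _ => rfl
  | cons i _ ih =>
    intro t
    cases t with
    | nil => rfl
    | cons j t => simp only [P, ih]
  | swap i k s =>
    intro t
    rcases t with _ | ⟨j, _ | ⟨l, t⟩⟩
    · rfl
    · simp only [P, mul_zero]
    · simp only [P, ← mul_assoc]
      rw [h k i j l, mul_comm (x k l)]
  | trans _ _ h1 h2 => exact fun t => (h1 t).trans (h2 t)

theorem permR (h : ∀ i k j l, x i j * x k l = x i l * x k j) {t t' : List J} (e : t.Perm t') :
    ∀ s, P x s t = P x s t' := by
  induction e with
  | nil => exact fun _ => rfl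
  | cons j _ ih =>
    intro s
    cases s with
    | nil => rfl
    | cons i s => simp only [P, ih]
  | swap j l t =>
    intro s
    rcases s with _ | ⟨i, _ | ⟨k, s⟩⟩
    · rfl
    · simp only [P, mul_zero]
    · simp only [P, ← mul_assoc]
      rw [h i k l j]
  | trans _ _ h1 h2 => exact fun s => (h1 s).trans (h2 s)

variable (x) in
/-- the product along any matching -/
def V (a : Multiset I) (b : Multiset J) : A := P x a.toList b.toList

theorem tl {α : Type} (i : α) (a : Multiset α) : (i ::ₘ a).toList.Perm (i :: a.toList) := by
  rw [← Multiset.coe_eq_coe, Multiset.coe_toList, ← Multiset.cons_coe, Multiset.coe_toList]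

theorem V_cons (h : ∀ i k j l, x i j * x k l = x i l * x k j) (i : I) (j : J) (a : Multiset I)
    (b : Multiset J) : V x (i ::ₘ a) (j ::ₘ b) = x i j * V x a b := by
  rw [V, permL h (tl i a), permR h (tl j b)]; rfl

theorem V_l (h : ∀ i k j l, x i j * x k l = x i l * x k j) (i : I) (a : Multiset I) :
    V x (i ::ₘ a) 0 = 0 := by
  rw [V, permL h (tl i a), Multiset.toList_zero]; rfl

theorem V_r (h : ∀ i k j l, x i j * x k l = x i l * x k j) (j : J) (b : Multiset J) :
    V x 0 (j ::ₘ b) = 0 := by
  rw [V, permR h (tl j b), Multiset.toList_zero]; rfl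

variable (x) in
/-- value of a monomial -/
def W (d : I ⊕ J →₀ ℕ) : A :=
  V x ((Finsupp.toMultiset d).filterMap Sum.getLeft?) ((Finsupp.toMultiset d).filterMap Sum.getRight?)

theorem tm {σ : Type} (s : σ) (d : σ →₀ ℕ) :
    Finsupp.toMultiset (Finsupp.single s 1 + d) = s ::ₘ Finsupp.toMultiset d := by
  rw [Finsupp.toMultiset_add, Finsupp.toMultiset_single, one_nsmul, Multiset.singleton_add]

theorem Xm {σ : Type} (s : σ) (d : σ →₀ ℕ) (c : A) :
    (X s : MvPolynomial σ A) * monomial d c = monomial (Finsupp.single s 1 + d) c := by
  rw [X, monomial_mul, one_mul]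

end Sec

open Sec MvPolynomial in
theorem sec : SEC := by
  intro I J A _ x h
  let ev : MvPolynomial (I ⊕ J) A →ₗ[A] A := (basisMonomials (I ⊕ J) A).constr A (W x)
  have hm : ∀ d c, ev (monomial d c) = c * W x d := fun d c => by
    have h1 : ev (monomial d 1) = W x d := by
      have := (basisMonomials (I ⊕ J) A).constr_basis A (W x) d
      rwa [coe_basisMonomials] at this
    rw [← smul_eq_mul, ← h1, ← map_smul, smul_monomial, smul_eq_mul, mul_one]
  refine ⟨ev, ?_, fun i j p => ?_, fun i p => ?_, fun j p => ?_⟩
  · rw [show (1 : MvPolynomial (I ⊕ J) A) = monomial 0 1 from rfl, hm, one_mul, W, map_zero,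
      Multiset.filterMap_zero, Multiset.filterMap_zero, V, Multiset.toList_zero,
      Multiset.toList_zero]
    rfl
  · induction p using MvPolynomial.induction_on' with
    | monomial d c =>
      rw [mul_assoc, Xm, Xm, hm, hm, W, W, tm, tm,
        Multiset.filterMap_cons_some _ _ _ (show Sum.getLeft? (Sum.inl i : I ⊕ J) = some i from rfl),
        Multiset.filterMap_cons_none _ _ (show Sum.getLeft? (Sum.inr j : I ⊕ J) = none from rfl),
        Multiset.filterMap_cons_none _ _ (show Sum.getRight? (Sum.inl i : I ⊕ J) = none from rfl),
        Multiset.filterMap_cons_some _ _ _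
          (show Sum.getRight? (Sum.inr j : I ⊕ J) = some j from rfl),
        V_cons h, mul_left_comm]
    | add p q hp hq => rw [mul_add, map_add, map_add, hp, hq, mul_add]
  · induction p using MvPolynomial.induction_on' with
    | monomial d c =>
      have e : (Finsupp.toMultiset (Finsupp.mapDomain (Sum.inl : I → I ⊕ J) d)).filterMap
          Sum.getRight? = 0 := by
        rw [← Finsupp.toMultiset_map, Multiset.filterMap_map]
        exact Multiset.eq_zero_of_forall_notMem fun b hb => by simp at hb
      rw [rename_monomial, Xm, hm, W, tm,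
        Multiset.filterMap_cons_some _ _ _ (show Sum.getLeft? (Sum.inl i : I ⊕ J) = some i from rfl),
        Multiset.filterMap_cons_none _ _ (show Sum.getRight? (Sum.inl i : I ⊕ J) = none from rfl),
        e, V_l h, mul_zero]
    | add p q hp hq => rw [map_add, mul_add, map_add, hp, hq, add_zero]
  · induction p using MvPolynomial.induction_on' with
    | monomial d c =>
      have e : (Finsupp.toMultiset (Finsupp.mapDomain (Sum.inr : J → I ⊕ J) d)).filterMap
          Sum.getLeft? = 0 := by
        rw [← Finsupp.toMultiset_map, Multiset.filterMap_map]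
        exact Multiset.eq_zero_of_forall_notMem fun b hb => by simp at hb
      rw [rename_monomial, Xm, hm, W, tm,
        Multiset.filterMap_cons_none _ _ (show Sum.getLeft? (Sum.inr j : I ⊕ J) = none from rfl),
        Multiset.filterMap_cons_some _ _ _
          (show Sum.getRight? (Sum.inr j : I ⊕ J) = some j from rfl),
        e, V_r h, mul_zero]
    | add p q hp hq => rw [map_add, mul_add, map_add, hp, hq, add_zero]

end Vale.Agent.P022R
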