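import Vale.Agent.P022R.Lx
import Vale.Agent.P022R.Gwq
import Vale.Agent.P022R.Fnb
import Vale.Agent.P022R.Agen
import Vale.Agent.P022R.Bgen
import Vale.Agent.P022R.Brel
import Vale.Agent.P022R.Relp
import Vale.Agent.P022R.Ari2
import Vale.Agent.P022R.Cnt3
import Vale.Agent.P022R.GenR
import Vale.Agent.P022R.Top.All
import Vale.Agent.P022F.A.L2F

/-!
# P022R: generators and relations at the auxiliary levels, closed
-/

set_option linter.all false

open IsLocalRing NumberField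

noncomputable section

namespace Vale.Agent.P022R.LevH47

open Vale.Agent.P022 Vale.Agent.P022D
open Vale.Agent.P022E.As (Tg cc tt dd yy ev0 mT Gw)
open Vale.Agent.P022E.Loc (Pl)
open Vale.Agent.P027M.S (Inert mx)
open Vale.Agent.P022F (OkF)
open Vale.Agent.P022F.Gm (en2 xx)
open Vale.Agent.P022D.Gma (ent)
open Vale.Agent.P022F.End0 (Ph)
open Vale.Agent.P022D.Core (PS Coef)

open Lx in
theorem lx2 (hG : GWQ) (hA : AGEN) (hR : RELP) (O F I J : Type) [CommRing O] [IsDomain O]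
    [IsDiscreteValuationRing O] [Coef O] [Field F] [Finite F] [CharP F 2] [Fintype I] [Fintype J]
    [DecidableEq I] [DecidableEq J] (ϖ : O) (S : R.Dat O F) (L : Pl O) (χ ψ : GQ →* Fˣ)
    (α β u : O) (s : Sh I J) (b : J → GQ → F) (c : I → GQ → F) (X : Dt O GQ I J)
    (hϖ : Irreducible ϖ) (H : Hx S.red L S.T χ ψ) (hsc : ∀ g, χ g ≠ ψ g → ¬ Sel.Sc S.rb g)
    (ev : Ev S.red L χ ψ X.g0 α β u)
    (hX : ∀ (A : Finset ℕ) (n : ℕ), ∃ (q : Fin (Fintype.card I * Fintype.card J) → ℕ)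
      (τ : Fin (Fintype.card I * Fintype.card J) → GQ)
      (M : I × J → Fin (Fintype.card I * Fintype.card J) → O), Function.Injective q ∧
      (∀ k, Ax A n χ ψ (q k) (τ k)) ∧
      ∀ K, Ak L.W (Finset.univ.image q) K → Fn S.red χ ψ K L.DD L.TT s b c X τ M) :
    ∃ v0 : Vr I J (Fr I J) → Tg O,
      End.LevR ϖ S L (Fintype.card I * Fintype.card J)
        (fun j => ((s.eqn (Fr I J) O j : MvPolynomial (Vr I J (Fr I J)) O) :
          PS O (Vr I J (Fr I J))))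
        (fun j => Er ϖ (s.wt (Fr I J)) (s.dg j)) v0 := by
  classical
  have hm := hϖ.maximalIdeal_eq
  let ι : O →+* Tg O := MvPolynomial.C
  refine ⟨vv ι dd (eA X.g0 β u) (eX X.g0 β u) X (fun _ => 1) fun _ _ => 0, fun A n => ?_⟩
  obtain ⟨q, τ, M, qi, ax, hK⟩ := hX (A ∪ S.T) n
  let v := vv ι dd (eA X.g0 β u) (eX X.g0 β u) X τ M
  have two : (2 : F) = 0 := CharTwo.two_eq_zero
  refine ⟨q, qi, fun k => ⟨(ax k).prime, (ax k).out, (ax k).one, (ax k).two,
    fun φ hφ => hsc φ ((ax k).reg φ hφ)⟩, fun k φ hφ => ?_, v, fun k => ?_, fun k a ha => ?_,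
    fun a ha => ?_⟩
  · by_contra hn
    have h1 := (H.ker _).2 hn
    rw [H.tr, CharTwo.add_eq_zero] at h1
    exact (ax k).reg φ hφ (Units.ext h1)
  · have fn := hK Set.univ ⟨⟨⊤, isOpen_univ, fun _ _ => trivial⟩, fun _ _ _ _ _ _ _ _ _ _ => trivial⟩
    let φ : Tg O →+* F := S.red.comp (ev0 L.r)
    have et : ∀ g, φ (tt g) = (χ g : F) + ψ g := fun g =>
      (congrArg S.red (MvPolynomial.eval₂Hom_X' _ _ _)).trans (H.tr g)
    have ed : ∀ g, φ (dd g) = 1 := fun g =>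
      (congrArg S.red (MvPolynomial.eval₂Hom_X' _ _ _)).trans (H.det g)
    have ec : ∀ o, φ (cc o) = S.red o := fun o => congrArg S.red (MvPolynomial.eval₂Hom_C _ _ _)
    have h1 := congrArg S.red ev.hu
    rw [map_mul, map_sub, ev.ha, ev.hb, map_one] at h1
    have ea : ∀ g, φ (eA X.g0 β u g) = χ g := fun g => by
      simp only [eA, ent, map_mul, map_sub, et, ec, ev.hb, Units.val_mul]
      linear_combination (χ g : F) * h1
    have ex : ∀ g h, φ (eX X.g0 β u g h) = 0 := fun g h => by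
      have e : φ (eX X.g0 β u g h) =
          φ (eA X.g0 β u (g * h)) - φ (eA X.g0 β u g) * φ (eA X.g0 β u h) := by
        rw [← map_mul, ← map_sub]
        rfl
      rw [e, ea, ea, ea, map_mul, Units.val_mul, sub_self]
    have c1 : (χ X.c : F) = 1 := by
      have e : (χ X.c : F) * χ X.c = 1 := by
        rw [← Units.val_mul, ← map_mul, fn.c2, map_one, Units.val_one]
      have e2 : ((χ X.c : F) - 1) ^ 2 = 0 := by linear_combination e - ((χ X.c : F) - 1) * two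
      exact sub_eq_zero.1 (pow_eq_zero_iff two_ne_zero |>.1 e2)
    refine (H.ker _).1 (show φ (v k) = 0 from ?_)
    rw [vv_map]
    have eκ : φ.comp ι X.κ = χ X.s := (ec _).trans fn.hκ
    rcases k with k | k | k | _ | k <;>
      simp only [vv, yv, xv, bt, Sum.elim_inl, Sum.elim_inr, Option.elim, ea, ed, ex, c1, eκ,
        fn.hτ, Units.val_one, sub_self, mul_zero, Finset.sum_const_zero]
  · by_cases ht : a = ⊤
    · rw [ht]
      trivial
    obtain ⟨π, d, -, hd, gq, kr, -⟩ := hG O F S.red L S.T ∅ χ ψ ϖ X.g0 α β u a H hm ev ha ht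
    have kτ := fun k => kr (τ k) fun g => by
      obtain ⟨P, p1, p2, p3⟩ := (ax k).ine
      exact ha.unr (q k) (ax k).prime (fun e => (ax k).out (Finset.mem_union_right _ e))
        (Finset.notMem_empty _) P p1 p2 _ p3 g
    have d1 : ∀ k, Ideal.Quotient.mk a (dd (τ k)) = 1 := fun k => by
      obtain ⟨e1, e2, e3⟩ := kτ k
      have e4 := (e3 (τ k)).1
      beta_reduce at e1 e2 e4
      rw [← hd, ← gq.gm.det, e1, e2, e4, mul_one, sub_zero]
    have a1 : ∀ k, Ideal.Quotient.mk a (eA X.g0 β u (τ k)) = 1 := fun k => (kτ k).1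
    have a2 : Ideal.Quotient.mk a (eA X.g0 β u 1) = 1 := gq.gm.a1
    rw [← Ideal.Quotient.eq, vv_map, vv_map]
    rcases k with k | k | k | _ | k <;>
      simp only [vv, yv, Sum.elim_inl, Sum.elim_inr, Option.elim, d1, a1, a2, sub_self, mul_zero,
        map_zero, zero_mul]
  · by_cases ht : a = ⊤
    · subst ht
      exact ⟨fun _ => ⟨0, trivial⟩, fun _ => ⟨0, trivial⟩,
        fun j => ⟨0, zero_mem _, Subsingleton.elim _ _⟩⟩
    have ha' := gw0 ha
    set a' := a.comap z0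
    obtain ⟨π, d, hπ, hd, gq, kr, cl⟩ := hG O F S.red L S.T _ χ ψ ϖ X.g0 α β u a' H hm ev ha'
      (Ideal.comap_ne_top _ ht)
    have fn := hK _ ⟨ha'.opn.imp fun U h => ⟨h.1, fun u hu => kr u (h.2 u hu)⟩,
      fun l h1 h2 h3 h4 P h5 h6 s h7 => kr s (ha'.unr l h1
        (fun e => ((H.hT l h1).1 e).elim h2 h3) h4 P h5 h6 s h7)⟩
    have hD : ∀ g ∈ L.DD, ∃ o, (d g : Tg O ⧸ a') = ((Ideal.Quotient.mk a').comp ι) o :=
      fun g hg => ⟨_, (hd g).trans (Ideal.Quotient.eq.2 (ha'.cld g hg))⟩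
    have ev' : ∀ k, vv ((Ideal.Quotient.mk a').comp ι) (fun g => (d g : Tg O ⧸ a'))
        (fun g => Ideal.Quotient.mk a' (eA X.g0 β u g))
        (fun g h => Ideal.Quotient.mk a' (eX X.g0 β u g h)) X τ M k =
        Ideal.Quotient.mk a' (v k) := fun k => by
      rw [vv_map]
      simp only [hd]
    obtain ⟨g1, g2⟩ := hA O F _ GQ I J _ S.red _ π χ ψ _ d _ _ _ L.DD L.TT s b c X τ M gq fn hD
      (fun g hg => ⟨_, Ideal.Quotient.eq.2 (ha'.clt g hg)⟩) cl
    rw [funext ev'] at g2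
    replace g1 : ∀ k, π (Ideal.Quotient.mk a' (v k)) = 0 := fun k => by
      rw [← ev']
      exact g1 k
    have zv : ∀ k, z0 (v k) = v k := fun k => by
      rw [vv_map]
      simp only [z0_a, z0_x, z0_d]
      exact congrArg (fun i => vv i dd (eA X.g0 β u) (eX X.g0 β u) X τ M k) z0_C
    have gen : ∀ p, z0 p = p → ∃ f : MvPolynomial _ O, p - MvPolynomial.aeval v f ∈ a :=
      fun p hp => by
        obtain ⟨f, hf⟩ := g2 (Ideal.Quotient.mk a' p)
        rw [← MvPolynomial.map_eval₂Hom, Ideal.Quotient.eq, Ideal.mem_comap, map_sub, hp,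
          MvPolynomial.map_eval₂Hom] at hf
        simp only [zv] at hf
        exact ⟨f, (congrArg (fun i => p - MvPolynomial.eval₂Hom i v f ∈ a) z0_C).mp hf⟩
    refine ⟨fun γ => gen _ (z0_t γ), fun γ => gen _ (z0_d γ), fun j => ?_⟩
    obtain ⟨N, hN⟩ := gq.nil
    have van := R.van_of_pow ((Ideal.Quotient.mk a').comp ι) (fun k => Ideal.Quotient.mk a' (v k))
      _ hN g1
    obtain ⟨h, h1, h2⟩ := hR O F _ GQ I J _ S.red _ π χ ψ _ d _ _ _ L.DD L.TT s b c X τ M ϖ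
      (Ph ι v a') gq fn hD (Ideal.ext fun o => (H.ker o).trans (by rw [hm]))
      (fun o => R.evl_C van o) (fun k => (R.evl_X van k).trans (ev' k).symm)
      (fun p => (g2 p).elim fun f hf => ⟨f, (R.evl_coe van f).trans hf.symm⟩)
      (fun w => by
        refine (R.map_evl van π w).trans ?_
        simp only [g1]
        rw [R.evl_zero]
        exact gq.alg _) j
    refine ⟨h, h1, ?_⟩
    have h3 : ∀ w, Ideal.quotientMap a z0 le_rfl (Ph ι v a' w) = Ph ι v a w := fun w => by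
      refine (R.map_evl van (Ideal.quotientMap a z0 le_rfl) w).trans ?_
      refine congrArg₂ (fun i y => R.evl i y w) (RingHom.ext fun o => ?_) (funext fun k => ?_)
      · exact congrArg (Ideal.Quotient.mk a) (z0_c o)
      · exact congrArg (Ideal.Quotient.mk a) (zv k)
    rw [← h3, h2, map_zero]

section
variable {O F : Type} [CommRing O] [IsLocalRing O] [Field F] [CharP F 2] {S : R.Dat O F} {L : Pl O}
  {χ ψ : GQ →* Fˣ}

theorem hx (hL : OkF L S) (h0 : ∀ g, (χ g : F) = mx S.rb g 0 0)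
    (h1 : ∀ g, (ψ g : F) = mx S.rb g 1 1)
    (unr : ∀ l : ℕ, l.Prime → l ∉ S.T → ∀ P : Ideal (𝓞 Qb), P.IsPrime → (l : 𝓞 Qb) ∈ P →
      ∀ s, Inert P s → L.r s = 1)
    (d2 : ∃ g ∈ W.dec (L.P 2), mx S.rb g 0 0 ≠ mx S.rb g 1 1) : Hx S.red L S.T χ ψ := by
  have H := GenR.hy hL h0 h1
  have mW : ∀ {l}, l ∈ L.W → l ∈ L.W ∪ L.C := Finset.mem_union_left _
  have one : ∀ g, mx S.rb g = 1 → χ g = 1 ∧ ψ g = 1 := fun g k =>
    ⟨Units.ext (by rw [h0, k, Matrix.one_apply_eq, Units.val_one]),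
      Units.ext (by rw [h1, k, Matrix.one_apply_eq, Units.val_one])⟩
  have e1 : ∀ g, (χ g : F) * ψ g = 1 := fun g => by
    have := hL.det g
    rwa [Matrix.det_fin_two, hL.lo, mul_zero, sub_zero, ← h0, ← h1] at this
  have hT : ∀ l : ℕ, l.Prime → (l ∈ S.T ↔ l = 2 ∨ l ∈ L.W) := fun l hl =>
    ⟨H.hT l hl, fun e => by
      rw [hL.hT, Finset.mem_insert, Finset.mem_insert]
      exact Or.inr (e.imp id mW)⟩
  refine ⟨⟨e1, ⟨S.rb.ker, hL.dh.opn, fun g k => one g (congrArg Units.val k)⟩,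
    fun l a1 a2 a3 P a4 a5 s a6 => one s ?_, fun l hl => hL.pr l (mW hl),
    fun l hl => ⟨L.P l, (H.hP l hl).1, (H.hP l hl).2, L.g0 l, (hL.reg l hl).1, H.reg l hl⟩, ?_⟩,
    H.surj, H.ker, H.tr, fun g => (H.det g).trans (e1 g), hT, H.hP, H.h2, H.cj, H.tm, H.reg⟩
  · rw [← hL.lift, unr l a1 (fun e => ((hT l a1).1 e).elim a2 a3) P a4 a5 s a6]
    exact Matrix.map_one _ (map_zero _) (map_one _)
  · obtain ⟨g, hg, k⟩ := d2
    exact ⟨g, hL.h2 ▸ hg, fun e => k (by rw [← h0, ← h1, e])⟩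

theorem evs {red : O →+* F} {g0 : GQ} {α β u : O} (h : Ev red L χ ψ g0 α β u) :
    Ev red L ψ χ g0 β α (-u) :=
  ⟨(add_comm _ _).trans h.hs, (mul_comm _ _).trans h.hp, by linear_combination h.hu, h.hb, h.ha,
    h.ht, h.hd⟩

end

theorem lev (h1 : Alg.ARI2) (hF : FNB) (hG : GWQ) (hA : AGEN) (hR : RELP) : Top.LEV := by
  intro O F _ _ _ _ _ _ _ ϖ S L hϖ ok unr d2 hW
  have e0 := P022F.diagCh_val ok.lo 0
  have e1 := P022F.diagCh_val ok.lo 1
  obtain ⟨χ, ψ, I, J, _, _, _, _, s, b, c, l0, ho, hl, fx, lv⟩ :=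
    h1 O F S L _ _ ok e0 e1 unr d2 hW
  obtain ⟨al, be, u, G⟩ := GenR.exG0 ok e0 e1 hl
  have H0 := hx ok e0 e1 unr d2
  have E0 : Ev S.red L _ _ (L.g0 l0) al be u := ⟨G.hs, G.hp, G.hu, G.ra, G.rb, G.mt, G.md⟩
  have s0 : ∀ g, P022F.diagCh ok.lo 0 g ≠ P022F.diagCh ok.lo 1 g → ¬ Sel.Sc S.rb g :=
    fun g k sc => k (Units.ext (by rw [e0, e1, sc.2.2]))
  obtain ⟨H, hs, α, β, w, E⟩ : Hx S.red L S.T χ ψ ∧ (∀ g, χ g ≠ ψ g → ¬ Sel.Sc S.rb g) ∧
      ∃ α β w, Ev S.red L χ ψ (L.g0 l0) α β w := by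
    rcases ho with ⟨rfl, rfl⟩ | ⟨rfl, rfl⟩
    exacts [⟨H0, s0, _, _, _, E0⟩, ⟨H0.swap, fun g k => s0 g k.symm, _, _, _, evs E0⟩]
  obtain ⟨X, eX, hX⟩ := hF O F I J S.red L S.T χ ψ _ s b c H fx
  obtain ⟨v0, hv⟩ := lx2 hG hA hR O F I J ϖ S L χ ψ α β w s b c X hϖ H hs (eX ▸ E) fun A n => by
    obtain ⟨q, τ, y, a1, a2, a3, a4⟩ := lv A n
    obtain ⟨M, hM⟩ := hX _ q τ y (fun k => ⟨(a2 k).prime, fun e =>
      (a2 k).out (Finset.mem_union_right _ e)⟩) a4
    exact ⟨q, τ, M, a1, fun k => ⟨(a2 k).prime, fun e => (a2 k).out (Finset.mem_union_left _ e),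
      (a2 k).one, (a2 k).two, a3 k, a4.ine k⟩, hM⟩
  refine ⟨I, J, Fr I J, _, _, _, _, inferInstance, s, _, v0, fx.ok, ?_, hv⟩
  rw [Fintype.card_option, Fintype.card_fin]
  ring

/-- **the arithmetic part, closed** -/
theorem levC : Top.LEV :=
  lev (Alg.ariOf Cnt.cnt) fnb gwq (agen bgen) (relp bgen (brel bgen))

end Vale.Agent.P022R.LevH47
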