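import Vale.Agent.P022R.Ari

/-!
# P022R, block LX: generators and relations at the auxiliary levels
-/

set_option linter.all false

open IsLocalRing NumberField

noncomputable section

namespace Vale.Agent.P022R

open Vale.Agent.P022 Vale.Agent.P022D
open Vale.Agent.P022E.As (Tg cc tt dd yy ev0 mT Gw)
open Vale.Agent.P022E.Loc (Pl)
open Vale.Agent.P027M.S (Inert)
open Vale.Agent.P022F.Gm (en2 xx)
open Vale.Agent.P022D.Gma (ent)
open Vale.Agent.P022F.End0 (Ph)

namespace Lx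

theorem vv_map {O T T' G I J R : Type} [CommRing O] [CommRing T] [CommRing T'] [Group G]
    [Fintype I] [Fintype J] [Fintype R] [DecidableEq I] [DecidableEq J] (φ : T →+* T')
    (ι : O →+* T) (d a : G → T) (x : G → G → T) (X : Dt O G I J) (τ : R → G)
    (M : I × J → R → O) (k : Vr I J (Option R)) : φ (vv ι d a x X τ M k) =
      vv (φ.comp ι) (fun g => φ (d g)) (fun g => φ (a g)) (fun g h => φ (x g h)) X τ M k := by
  rcases k with k | k | k | _ | k <;>
    simp [vv, yv, xv, bt, map_sum, map_mul, map_sub]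

variable {O : Type} [CommRing O]

/-- the symbols `y` are killed -/
def z0 : Tg O →+* Tg O :=
  MvPolynomial.eval₂Hom MvPolynomial.C (Sum.elim tt (Sum.elim dd fun _ => 0))

theorem z0_t (g : GQ) : z0 (tt g : Tg O) = tt g := MvPolynomial.eval₂Hom_X' _ _ _
theorem z0_d (g : GQ) : z0 (dd g : Tg O) = dd g := MvPolynomial.eval₂Hom_X' _ _ _
theorem z0_y (i : ℕ) : z0 (yy i : Tg O) = 0 := MvPolynomial.eval₂Hom_X' _ _ _
theorem z0_c (c : O) : z0 (cc c : Tg O) = cc c := MvPolynomial.eval₂Hom_C _ _ _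
theorem z0_C : (z0 : Tg O →+* Tg O).comp MvPolynomial.C = MvPolynomial.C :=
  RingHom.ext fun c => z0_c c

theorem z0_a (g0 : GQ) (β u : O) (g : GQ) : z0 (eA g0 β u g) = eA g0 β u g := by
  simp only [eA, ent, map_mul, map_sub, z0_t, z0_c]

theorem z0_x (g0 : GQ) (β u : O) (g h : GQ) : z0 (eX g0 β u g h) = eX g0 β u g h := by
  simp only [eX, xx, ent, map_mul, map_sub, z0_t, z0_c]

theorem gw0 {ϖ : O} {L : Pl O} {T Q : Finset ℕ} {r : ℕ} {a : Ideal (Tg O)}
    (h : Gw ϖ L T Q r a) : Gw ϖ L T Q 0 (a.comap z0) := by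
  have := h.fin
  refine ⟨Finite.of_injective _ (Ideal.quotientMap_injective (I := a) (f := z0)), ?_, fun g => ?_,
    fun g => ?_, fun i => ⟨1, ?_⟩, ?_, fun g k => ?_, fun g k => ?_, ?_, fun g k => ?_, ?_,
    fun l h1 h2 h3 P h4 h5 s h6 g => ?_, fun g hg => ?_, fun g hg => ?_, fun i _ => ?_⟩ <;>
  simp only [Ideal.mem_comap, map_pow, map_sub, map_mul, map_add, map_one, map_ofNat, z0_t, z0_d,
    z0_y, z0_c, pow_one, zero_mem]
  exacts [h.nil0, h.nilt g, h.nild g, h.t1, h.tc g k, h.tm g k, h.d1, h.dm g k, h.opn,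
    h.unr l h1 h2 h3 P h4 h5 s h6 g, h.clt g hg, h.cld g hg]

end Lx

open Lx in
theorem lx (hF : FNA) (hG : GWQ) (hA : AGEN) (hR : RELP) : LX := by
  intro O F I J _ _ _ _ _ _ _ _ _ _ _ ϖ S L χ ψ g0 α β u s b c hϖ H hsc ev hs hb
  classical
  obtain ⟨X, rfl, hX⟩ := hF O F I J S.red L S.T χ ψ g0 s b c H (fun e => by
    have h1 := congrArg S.red ev.hu
    rw [map_mul, map_sub, ev.ha, ev.hb, e, sub_self, zero_mul, map_one] at h1
    exact zero_ne_one h1) hs hb
  have hm := hϖ.maximalIdeal_eq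
  let ι : O →+* Tg O := MvPolynomial.C
  refine ⟨vv ι dd (eA X.g0 β u) (eX X.g0 β u) X (fun _ => 1) fun _ _ => 0, fun A n => ?_⟩
  obtain ⟨q, τ, M, qi, ax, hK⟩ := hX (A ∪ S.T) n
  let v := vv ι dd (eA X.g0 β u) (eX X.g0 β u) X τ M
  have two : (2 : F) = 0 := CharTwo.two_eq_zero
  refine ⟨q, qi, fun k => ⟨(ax k).prime, (ax k).out, (ax k).one, (ax k).two,
    fun φ hφ => hsc φ ((ax k).reg φ hφ)⟩, fun k φ hφ => ?_, v, fun k => ?_, fun k a ha => ?_,
    fun a ha => ?_⟩
  · by_contra hn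
    have h1 := (H.ker _).2 hn
    rw [H.tr, CharTwo.add_eq_zero] at h1
    exact (ax k).reg φ hφ (Units.ext h1)
  · have fn := hK Set.univ ⟨⟨⊤, isOpen_univ, fun _ _ => trivial⟩, fun _ _ _ _ _ _ _ _ _ _ => trivial⟩
    let φ : Tg O →+* F := S.red.comp (ev0 L.r)
    have et : ∀ g, φ (tt g) = (χ g : F) + ψ g := fun g =>
      (congrArg S.red (MvPolynomial.eval₂Hom_X' _ _ _)).trans (H.tr g)
    have ed : ∀ g, φ (dd g) = 1 := fun g =>
      (congrArg S.red (MvPolynomial.eval₂Hom_X' _ _ _)).trans (H.det g)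
    have ec : ∀ o, φ (cc o) = S.red o := fun o => congrArg S.red (MvPolynomial.eval₂Hom_C _ _ _)
    have h1 := congrArg S.red ev.hu
    rw [map_mul, map_sub, ev.ha, ev.hb, map_one] at h1
    have ea : ∀ g, φ (eA X.g0 β u g) = χ g := fun g => by
      simp only [eA, ent, map_mul, map_sub, et, ec, ev.hb, Units.val_mul]
      linear_combination (χ g : F) * h1
    have ex : ∀ g h, φ (eX X.g0 β u g h) = 0 := fun g h => by
      have e : φ (eX X.g0 β u g h) =
          φ (eA X.g0 β u (g * h)) - φ (eA X.g0 β u g) * φ (eA X.g0 β u h) := by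
        rw [← map_mul, ← map_sub]
        rfl
      rw [e, ea, ea, ea, map_mul, Units.val_mul, sub_self]
    have c1 : (χ X.c : F) = 1 := by
      have e : (χ X.c : F) * χ X.c = 1 := by
        rw [← Units.val_mul, ← map_mul, fn.c2, map_one, Units.val_one]
      have e2 : ((χ X.c : F) - 1) ^ 2 = 0 := by linear_combination e - ((χ X.c : F) - 1) * two
      exact sub_eq_zero.1 (pow_eq_zero_iff two_ne_zero |>.1 e2)
    refine (H.ker _).1 (show φ (v k) = 0 from ?_)
    rw [vv_map]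
    have eκ : φ.comp ι X.κ = χ X.s := (ec _).trans fn.hκ
    rcases k with k | k | k | _ | k <;>
      simp only [vv, yv, xv, bt, Sum.elim_inl, Sum.elim_inr, Option.elim, ea, ed, ex, c1, eκ,
        fn.hτ, Units.val_one, sub_self, mul_zero, Finset.sum_const_zero]
  · by_cases ht : a = ⊤
    · rw [ht]
      trivial
    obtain ⟨π, d, -, hd, gq, kr, -⟩ := hG O F S.red L S.T ∅ χ ψ ϖ X.g0 α β u a H hm ev ha ht
    have kτ := fun k => kr (τ k) fun g => by
      obtain ⟨P, p1, p2, p3⟩ := (ax k).ine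
      exact ha.unr (q k) (ax k).prime (fun e => (ax k).out (Finset.mem_union_right _ e))
        (Finset.notMem_empty _) P p1 p2 _ p3 g
    have d1 : ∀ k, Ideal.Quotient.mk a (dd (τ k)) = 1 := fun k => by
      obtain ⟨e1, e2, e3⟩ := kτ k
      have e4 := (e3 (τ k)).1
      beta_reduce at e1 e2 e4
      rw [← hd, ← gq.gm.det, e1, e2, e4, mul_one, sub_zero]
    have a1 : ∀ k, Ideal.Quotient.mk a (eA X.g0 β u (τ k)) = 1 := fun k => (kτ k).1
    have a2 : Ideal.Quotient.mk a (eA X.g0 β u 1) = 1 := gq.gm.a1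
    rw [← Ideal.Quotient.eq, vv_map, vv_map]
    rcases k with k | k | k | _ | k <;>
      simp only [vv, yv, Sum.elim_inl, Sum.elim_inr, Option.elim, d1, a1, a2, sub_self, mul_zero,
        map_zero, zero_mul]
  · by_cases ht : a = ⊤
    · subst ht
      exact ⟨fun _ => ⟨0, trivial⟩, fun _ => ⟨0, trivial⟩,
        fun j => ⟨0, zero_mem _, Subsingleton.elim _ _⟩⟩
    have ha' := gw0 ha
    set a' := a.comap z0
    obtain ⟨π, d, hπ, hd, gq, kr, cl⟩ := hG O F S.red L S.T _ χ ψ ϖ X.g0 α β u a' H hm ev ha'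
      (Ideal.comap_ne_top _ ht)
    have fn := hK _ ⟨ha'.opn.imp fun U h => ⟨h.1, fun u hu => kr u (h.2 u hu)⟩,
      fun l h1 h2 h3 h4 P h5 h6 s h7 => kr s (ha'.unr l h1
        (fun e => ((H.hT l h1).1 e).elim h2 h3) h4 P h5 h6 s h7)⟩
    have hD : ∀ g ∈ L.DD, ∃ o, (d g : Tg O ⧸ a') = ((Ideal.Quotient.mk a').comp ι) o :=
      fun g hg => ⟨_, (hd g).trans (Ideal.Quotient.eq.2 (ha'.cld g hg))⟩
    have ev' : ∀ k, vv ((Ideal.Quotient.mk a').comp ι) (fun g => (d g : Tg O ⧸ a'))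
        (fun g => Ideal.Quotient.mk a' (eA X.g0 β u g))
        (fun g h => Ideal.Quotient.mk a' (eX X.g0 β u g h)) X τ M k =
        Ideal.Quotient.mk a' (v k) := fun k => by
      rw [vv_map]
      simp only [hd]
    obtain ⟨g1, g2⟩ := hA O F _ GQ I J _ S.red _ π χ ψ _ d _ _ _ L.DD L.TT s b c X τ M gq fn hD
      (fun g hg => ⟨_, Ideal.Quotient.eq.2 (ha'.clt g hg)⟩) cl
    rw [funext ev'] at g2
    replace g1 : ∀ k, π (Ideal.Quotient.mk a' (v k)) = 0 := fun k => by
      rw [← ev']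
      exact g1 k
    have zv : ∀ k, z0 (v k) = v k := fun k => by
      rw [vv_map]
      simp only [z0_a, z0_x, z0_d]
      exact congrArg (fun i => vv i dd (eA X.g0 β u) (eX X.g0 β u) X τ M k) z0_C
    have gen : ∀ p, z0 p = p → ∃ f : MvPolynomial _ O, p - MvPolynomial.aeval v f ∈ a :=
      fun p hp => by
        obtain ⟨f, hf⟩ := g2 (Ideal.Quotient.mk a' p)
        rw [← MvPolynomial.map_eval₂Hom, Ideal.Quotient.eq, Ideal.mem_comap, map_sub, hp,
          MvPolynomial.map_eval₂Hom] at hf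
        simp only [zv] at hf
        exact ⟨f, (congrArg (fun i => p - MvPolynomial.eval₂Hom i v f ∈ a) z0_C).mp hf⟩
    refine ⟨fun γ => gen _ (z0_t γ), fun γ => gen _ (z0_d γ), fun j => ?_⟩
    obtain ⟨N, hN⟩ := gq.nil
    have van := R.van_of_pow ((Ideal.Quotient.mk a').comp ι) (fun k => Ideal.Quotient.mk a' (v k))
      _ hN g1
    obtain ⟨h, h1, h2⟩ := hR O F _ GQ I J _ S.red _ π χ ψ _ d _ _ _ L.DD L.TT s b c X τ M ϖ
      (Ph ι v a') gq fn hD (Ideal.ext fun o => (H.ker o).trans (by rw [hm]))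
      (fun o => R.evl_C van o) (fun k => (R.evl_X van k).trans (ev' k).symm)
      (fun p => (g2 p).elim fun f hf => ⟨f, (R.evl_coe van f).trans hf.symm⟩)
      (fun w => by
        refine (R.map_evl van π w).trans ?_
        simp only [g1]
        rw [R.evl_zero]
        exact gq.alg _) j
    refine ⟨h, h1, ?_⟩
    have h3 : ∀ w, Ideal.quotientMap a z0 le_rfl (Ph ι v a' w) = Ph ι v a w := fun w => by
      refine (R.map_evl van (Ideal.quotientMap a z0 le_rfl) w).trans ?_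
      refine congrArg₂ (fun i y => R.evl i y w) (RingHom.ext fun o => ?_) (funext fun k => ?_)
      · exact congrArg (Ideal.Quotient.mk a) (z0_c o)
      · exact congrArg (Ideal.Quotient.mk a) (zv k)
    rw [← h3, h2, map_zero]

end Vale.Agent.P022R
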