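import Vale.Agent.P022R.AriB
import Vale.Agent.P022R.Ari1
import Vale.Agent.P022R.Top.Lev
import Vale.Agent.P022R.GenR

/-!
# P022R: generators and relations at the auxiliary levels
-/

set_option linter.all false

open IsLocalRing NumberField

noncomputable section

namespace Vale.Agent.P022R.LxH65

open Vale.Agent.P022 Vale.Agent.P022D
open Vale.Agent.P022E.As (Tg cc tt dd yy ev0 mT Gw)
open Vale.Agent.P022E.Loc (Pl Tm)
open Vale.Agent.P027M.S (Inert mx)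
open Vale.Agent.P022F (Cc OkF)
open Vale.Agent.P022F.End0 (Ph)
open Vale.Agent.P022D.Core (PS Coef)
open Vale.Agent.P022R.GenR

section
variable {O F : Type} [CommRing O] [Field F]

theorem mxm {ρ : GQ →* GL (Fin 2) F} (g h : GQ) : mx ρ (g * h) = mx ρ g * mx ρ h :=
  congrArg Units.val (map_mul ρ g h)

theorem mx1 {ρ : GQ →* GL (Fin 2) F} : mx ρ 1 = 1 := congrArg Units.val (map_one ρ)

theorem exCh {ρ : GQ →* GL (Fin 2) F} (lo : ∀ g, mx ρ g 1 0 = 0) (i : Fin 2) :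
    ∃ χ : GQ →* Fˣ, ∀ g, (χ g : F) = mx ρ g i i :=
  ⟨MonoidHom.toHomUnits
    { toFun := fun g => mx ρ g i i
      map_one' := by rw [mx1, Matrix.one_apply_eq]
      map_mul' := fun g h => by
        rw [mxm, Matrix.mul_apply, Fin.sum_univ_two]
        fin_cases i
        · exact (congrArg _ ((congrArg _ (lo h)).trans (mul_zero _))).trans (add_zero _)
        · exact (congrArg (· + _) ((congrArg (· * _) (lo g)).trans (zero_mul _))).trans
            (zero_add _) }, fun _ => rfl⟩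

theorem map_vv {T T' G I J R : Type} [CommRing T] [CommRing T'] [Group G] [Fintype I] [Fintype J]
    [Fintype R] [DecidableEq I] [DecidableEq J] (φ : T →+* T') (ι : O →+* T) (d a : G → T)
    (x : G → G → T) (X : Dt O G I J) (τ : R → G) (M : I × J → R → O) (k : Vr I J (Option R)) :
    φ (vv ι d a x X τ M k) = vv (φ.comp ι) (fun g => φ (d g)) (fun g => φ (a g))
      (fun g h => φ (x g h)) X τ M k := by
  rcases k with k | k | k | _ | k <;>
    simp [vv, yv, xv, bt, map_sum]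

variable [IsLocalRing O] [CharP F 2] {S : R.Dat O F} {L : Pl O} {χ ψ : GQ →* Fˣ}

theorem hx (hL : OkF L S) (h0 : ∀ g, (χ g : F) = mx S.rb g 0 0)
    (h1 : ∀ g, (ψ g : F) = mx S.rb g 1 1)
    (unr : ∀ l : ℕ, l.Prime → l ∉ S.T → ∀ P : Ideal (𝓞 Qb), P.IsPrime → (l : 𝓞 Qb) ∈ P →
      ∀ s, Inert P s → L.r s = 1)
    (d2 : ∃ g ∈ W.dec (L.P 2), mx S.rb g 0 0 ≠ mx S.rb g 1 1) : Hx S.red L S.T χ ψ := by
  have H := hy hL h0 h1
  have mW : ∀ {l}, l ∈ L.W → l ∈ L.W ∪ L.C := Finset.mem_union_left _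
  have one : ∀ g, (χ g : F) * ψ g = 1 := fun g => by
    have := hL.det g
    rwa [Matrix.det_fin_two, hL.lo, mul_zero, sub_zero, ← h0, ← h1] at this
  have tr : ∀ g, mx S.rb g = 1 → χ g = 1 ∧ ψ g = 1 := fun g e =>
    ⟨Units.ext (by rw [h0, e, Matrix.one_apply_eq, Units.val_one]),
      Units.ext (by rw [h1, e, Matrix.one_apply_eq, Units.val_one])⟩
  have hT : ∀ l : ℕ, l.Prime → (l ∈ S.T ↔ l = 2 ∨ l ∈ L.W) := fun l hl =>
    ⟨H.hT l hl, fun e => by
      rw [hL.hT, Finset.mem_insert, Finset.mem_insert]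
      exact Or.inr (e.imp id mW)⟩
  refine ⟨⟨one, ⟨S.rb.ker, hL.dh.opn, fun u hu => tr u (congrArg Units.val hu)⟩,
    fun l hl l2 lW P a1 a2 s hs => tr s ?_, fun l hl => hL.pr l (mW hl),
    fun l hl => ⟨L.P l, (H.hP l hl).1, (H.hP l hl).2, L.g0 l, (hL.reg l hl).1, H.reg l hl⟩, ?_⟩,
    H.surj, H.ker, H.tr, fun g => (H.det g).trans (one g), hT, H.hP, H.h2, H.cj, H.tm, H.reg⟩
  · rw [← hL.lift, unr l hl (fun e => ((hT l hl).1 e).elim l2 lW) P a1 a2 s hs]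
    exact Matrix.map_one _ (map_zero _) (map_one _)
  · obtain ⟨g, hg, k⟩ := d2
    exact ⟨g, hL.h2 ▸ hg, fun e => k (by rw [← h0, ← h1, e])⟩

end

theorem lev (hA : Alg.ARI2) (hF : FNB) (hG : GWQ) (h1 : AGEN) (h2 : RELP) : Top.LEV := by
  intro O F _ _ _ _ _ _ _ ϖ S L hϖ ok unr d2 hW
  classical
  obtain ⟨χ₀, e0⟩ := exCh ok.lo 0
  obtain ⟨ψ₀, e1⟩ := exCh ok.lo 1
  obtain ⟨χ, ψ, I, J, i1, i2, i3, i4, s, b, c, l0, ho, hl0, fix, hlev⟩ :=
    hA O F S L χ₀ ψ₀ ok e0 e1 unr d2 hW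
  have hm := hϖ.maximalIdeal_eq
  obtain ⟨H, α, β, u, E⟩ : Hx S.red L S.T χ ψ ∧ ∃ α β u, Ev S.red L χ ψ (L.g0 l0) α β u := by
    obtain ⟨α, β, u, G⟩ := exG0 ok e0 e1 hl0
    obtain ⟨rfl, rfl⟩ | ⟨rfl, rfl⟩ := ho
    · exact ⟨hx ok e0 e1 unr d2, α, β, u, G.hs, G.hp, G.hu, G.ra, G.rb, G.mt, G.md⟩
    · exact ⟨(hx ok e0 e1 unr d2).swap, β, α, -u, (add_comm _ _).trans G.hs,
        (mul_comm _ _).trans G.hp, by linear_combination G.hu, G.rb, G.ra, G.mt, G.md⟩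
  obtain ⟨X, hX, hFn⟩ := hF O F I J S.red L S.T χ ψ (L.g0 l0) s b c H fix
  rw [← hX] at E
  let ι : O →+* Tg O := MvPolynomial.C
  let A := eA X.g0 β u
  let x := eX X.g0 β u
  refine ⟨I, J, Fr I J, i1, i2, i3, i4, inferInstance, s, Fintype.card I * Fintype.card J,
    Sum.elim (fun _ => A X.c - 1) (Sum.elim 0 (Sum.elim (fun p => xv ι x X p.1 p.2)
      fun k => k.elim (A X.s - ι X.κ) 0)), fix.ok, ?_, fun B n => ?_⟩
  · rw [Fintype.card_option, Fintype.card_fin]; ring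
  obtain ⟨q, τ, y, inj, hq, ne, lv⟩ := hlev B n
  have qT : ∀ k, (q k).Prime ∧ q k ∉ S.T := fun k =>
    ⟨(hq k).prime, fun e => (hq k).out (Finset.mem_union_right _ e)⟩
  obtain ⟨M, hM⟩ := hFn _ q τ y qT lv
  obtain ⟨v, hv⟩ : ∃ v, v = vv ι dd A x X τ M := ⟨_, rfl⟩
  have vz : ∀ k, z0 (v k) = v k := fun k => by
    rw [hv]
    refine (map_vv (z0 : Tg O →ₐ[O] Tg O).toRingHom ι dd A x X τ M k).trans ?_
    congr 1
    · exact RingHom.ext fun o => z0_cc o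
    · exact funext fun g => z0_dd g
    · exact funext fun g => z0_ent _ _ _ g
    · exact funext₂ fun g h => z0_xx _ _ _ g h
  have key : ∀ a : Ideal (Tg O), Gw ϖ L S.T (Finset.univ.image q) 0 a → a ≠ ⊤ →
      (∀ k, v k ∈ mT L.r) ∧ (∀ p, ∃ f : MvPolynomial _ O, p - MvPolynomial.aeval v f ∈ a) ∧
      (∃ N, R.Van ((Ideal.Quotient.mk a).comp ι) (fun k => Ideal.Quotient.mk a (v k)) N) ∧
      ∀ j, ∃ h ∈ Er ϖ (s.wt (Fr I J)) (s.dg j), Ph ι v a
        (((s.eqn (Fr I J) O j : MvPolynomial (Vr I J (Fr I J)) O) : PS O (Vr I J (Fr I J))) + h) =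
          0 := fun a ha hne => by
    obtain ⟨π, d, p1, p2, G, p3, p4⟩ := hG O F S.red L S.T _ χ ψ ϖ X.g0 α β u a H hm E ha hne
    have fn := hM _ ⟨ha.opn.imp fun U e => ⟨e.1, fun w hw => p3 w (e.2 w hw)⟩,
      fun l a1 a2 a3 a4 P a5 a6 t ht => p3 t
        (ha.unr l a1 (fun e => ((H.hT l a1).1 e).elim a2 a3) a4 P a5 a6 t ht)⟩
    have hD : ∀ g ∈ L.DD, ∃ o, (d g : Tg O ⧸ a) = ((Ideal.Quotient.mk a).comp ι) o :=
      fun g hg => ⟨_, (p2 g).trans (Ideal.Quotient.eq.2 (ha.cld g hg))⟩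
    have ev : ∀ k, vv ((Ideal.Quotient.mk a).comp ι) (fun g => (d g : Tg O ⧸ a))
        (fun g => Ideal.Quotient.mk a (A g)) (fun g h => Ideal.Quotient.mk a (x g h)) X τ M k =
        Ideal.Quotient.mk a (v k) := fun k => by
      rw [hv, map_vv, funext p2]
    obtain ⟨g1, g2⟩ := h1 O F _ GQ I J _ S.red _ π χ ψ _ d _ _ _ L.DD L.TT s b c X τ M G fn hD
      (fun g hg => ⟨_, Ideal.Quotient.eq.2 (ha.clt g hg)⟩) p4
    have g3 : ∀ k, π (Ideal.Quotient.mk a (v k)) = 0 := fun k => by rw [← ev]; exact g1 k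
    obtain ⟨N, hN⟩ := G.nil
    have van := R.van_of_pow ((Ideal.Quotient.mk a).comp ι) (fun k => Ideal.Quotient.mk a (v k)) _
      hN g3
    have sur : Function.Surjective (Ph ι v a) := fun p => by
      obtain ⟨f, e⟩ := g2 p
      exact ⟨f, (R.evl_coe van f).trans (by rw [e, ← funext ev])⟩
    refine ⟨fun k => (H.ker _).1 ((p1 _).symm.trans (g3 k)), fun p => ?_, ⟨N, van⟩,
      h2 O F _ GQ I J _ S.red _ π χ ψ _ d _ _ _ L.DD L.TT s b c X τ M ϖ (Ph ι v a) G fn hD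
        (hm ▸ Ideal.ext H.ker) (R.evl_C van) (fun k => (R.evl_X van k).trans (ev k).symm) sur
        fun w => ?_⟩
    · obtain ⟨f, e⟩ := g2 (Ideal.Quotient.mk a p)
      refine ⟨f, Ideal.Quotient.eq.1 (e.trans ?_)⟩
      rw [show MvPolynomial.aeval v f = MvPolynomial.eval₂Hom ι v f from rfl,
        MvPolynomial.map_eval₂Hom, ← funext ev]
    · refine (R.map_evl van π w).trans ?_
      rw [funext g3, R.evl_zero]
      exact G.alg _
  have pk := End.gw_mono (Q := Finset.univ.image q) (r := 0) (P022F.End0.gw_pk hϖ ok.cont unr 0)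
  refine ⟨q, inj, hq, fun k φ hφ => ?_, v, (key _ pk ?_).1, fun k a ha => ?_, fun a ha => ?_⟩
  · by_contra hn
    have := (H.ker _).2 hn
    rw [H.tr, CharTwo.add_eq_zero] at this
    exact ne k φ hφ (Units.ext this)
  · intro e
    have : (1 : Tg O) ∈ (Ideal.span {ϖ ^ (0 + 1)}).comap (ev0 L.r) := by
      rw [show (Ideal.span {ϖ ^ (0 + 1)}).comap (ev0 L.r) = ⊤ from e]; trivial
    rw [Ideal.mem_comap, map_one, zero_add, pow_one, Ideal.mem_span_singleton] at this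
    exact hϖ.not_isUnit (isUnit_of_dvd_one this)
  · by_cases hne : a = ⊤
    · rw [hne]; trivial
    obtain ⟨π, d, p1, p2, G, p3, p4⟩ := hG O F S.red L S.T _ χ ψ ϖ X.g0 α β u a H hm E ha hne
    have kr : ∀ k, A (τ k) - 1 ∈ a ∧ dd (τ k) - 1 ∈ a := fun k => by
      obtain ⟨P, a1, a2, a3⟩ := lv.ine k
      obtain ⟨k1, k2, k3⟩ := p3 _
        (ha.unr _ (qT k).1 (qT k).2 (Finset.notMem_empty _) P a1 a2 _ a3)
      have k4 := G.gm.det (τ k)
      beta_reduce at k1 k2 k3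
      rw [k1, k2, (k3 _).1, p2] at k4
      exact ⟨Ideal.Quotient.eq.1 k1, Ideal.Quotient.eq.1 (k4.symm.trans (by simp))⟩
    have zs : ∀ p : Tg O, p - p ∈ a := fun p => by rw [sub_self]; exact zero_mem _
    rw [hv]
    rcases k with k | k | k | _ | k
    · exact zs _
    · show yv ι dd τ (M k) - 0 ∈ a
      rw [sub_zero]
      exact Ideal.sum_mem _ fun i _ => a.mul_mem_left _ (kr i).2
    · exact zs _
    · exact zs _
    · show A (τ k) - 1 - 0 ∈ a
      rw [sub_zero]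
      exact (kr k).1
  · by_cases hne : a = ⊤
    · subst hne
      exact ⟨fun _ => ⟨0, trivial⟩, fun _ => ⟨0, trivial⟩,
        fun j => ⟨0, zero_mem _, Subsingleton.elim _ _⟩⟩
    obtain ⟨-, k2, ⟨N, van⟩, k4⟩ := key _ (gw0 ha) (Ideal.comap_ne_top _ hne)
    have k5 : ∀ p, ∃ f : MvPolynomial _ O, z0 p - MvPolynomial.aeval v f ∈ a := fun p =>
      (k2 p).imp fun f e => by
        rw [Ideal.mem_comap, map_sub, ← AlgHom.comp_apply, MvPolynomial.comp_aeval] at e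
        simpa only [vz] using e
    refine ⟨fun γ => z0_tt (O := O) γ ▸ k5 (tt γ), fun γ => z0_dd (O := O) γ ▸ k5 (dd γ),
      fun j => (k4 j).imp fun h e => ⟨e.1, ?_⟩⟩
    let m : Tg O ⧸ a.comap z0 →+* Tg O ⧸ a :=
      Ideal.quotientMap a (z0 : Tg O →ₐ[O] Tg O).toRingHom le_rfl
    have e2 := congrArg m e.2
    rw [map_zero] at e2
    rw [← e2]
    refine Eq.trans ?_ (R.map_evl van m _).symm
    refine congrFun (congrArg DFunLike.coe (congrArg₂ R.evl (RingHom.ext fun o => ?_)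
      (funext fun k => ?_))) _
    · exact congrArg (Ideal.Quotient.mk a) (z0_cc o).symm
    · exact congrArg (Ideal.Quotient.mk a) (vz k).symm

end Vale.Agent.P022R.LxH65
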