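import Vale.Agent.P022R.Lz0
import Vale.Agent.P022R.Ari1
import Vale.Agent.P022R.Top.Lev

/-!
# P022R, generators and relations at all levels
-/

set_option linter.all false

open IsLocalRing NumberField

noncomputable section

namespace Vale.Agent.P022R.Lz

open Vale.Agent.P022 Vale.Agent.P022D
open Vale.Agent.P022E.As (Tg cc tt dd yy ev0 mT Gw)
open Vale.Agent.P022E.Loc (Pl)
open Vale.Agent.P027M.S (Inert mx)
open Vale.Agent.P022F (OkF)

variable {O F : Type} [CommRing O] [Field F]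

theorem mx1 (ρ : GQ →* GL (Fin 2) F) : mx ρ 1 = 1 := congrArg Units.val (map_one ρ)

/-- the diagonal characters -/
def dch {ρ : GQ →* GL (Fin 2) F} (lo : ∀ g, mx ρ g 1 0 = 0) (i : Fin 2) : GQ →* Fˣ :=
  MonoidHom.toHomUnits
    { toFun := fun g => mx ρ g i i
      map_one' := by rw [mx1, Matrix.one_apply_eq]
      map_mul' := fun g h => by
        rw [show mx ρ (g * h) = mx ρ g * mx ρ h from congrArg Units.val (map_mul ρ g h),
          Matrix.mul_apply, Fin.sum_univ_two]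
        fin_cases i
        · exact (congrArg _ ((congrArg _ (lo h)).trans (mul_zero _))).trans (add_zero _)
        · exact (congrArg (· + _) ((congrArg (· * _) (lo g)).trans (zero_mul _))).trans
            (zero_add _) }

variable [IsLocalRing O] {S : R.Dat O F} {L : Pl O} {χ ψ : GQ →* Fˣ}

theorem hx (ok : OkF L S) (h0 : ∀ g, (χ g : F) = mx S.rb g 0 0)
    (h1 : ∀ g, (ψ g : F) = mx S.rb g 1 1)
    (unr : ∀ l : ℕ, l.Prime → l ∉ S.T → ∀ P : Ideal (𝓞 Qb), P.IsPrime → (l : 𝓞 Qb) ∈ P →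
      ∀ s, Inert P s → L.r s = 1)
    (h2 : ∃ g ∈ W.dec (L.P 2), mx S.rb g 0 0 ≠ mx S.rb g 1 1) : Hx S.red L S.T χ ψ := by
  have one : ∀ g, mx S.rb g = 1 → χ g = 1 ∧ ψ g = 1 := fun g e =>
    ⟨Units.ext (by rw [h0, e]; rfl), Units.ext (by rw [h1, e]; rfl)⟩
  have ne : ∀ g, mx S.rb g 0 0 ≠ mx S.rb g 1 1 → χ g ≠ ψ g := fun g e k =>
    e (by rw [← h0, ← h1, k])
  have hT : ∀ l : ℕ, l.Prime → (l ∈ S.T ↔ l = 2 ∨ l ∈ L.W) := fun l hl => by
    rw [ok.hT, ok.hC, Finset.union_empty, Finset.mem_insert, Finset.mem_insert]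
    exact or_iff_right hl.ne_zero
  have reg : ∀ l ∈ L.W, χ (L.g0 l) ≠ ψ (L.g0 l) := fun l hl =>
    ne _ (by rw [← ok.d0 l, ← ok.d1 l]; exact (ok.reg l hl).2.2)
  have hP := fun l hl => ok.hP l (Finset.mem_union_left _ hl)
  refine ⟨⟨fun g => ?_, ⟨S.rb.ker, ok.dh.opn, fun g hg => one g (congrArg Units.val hg)⟩,
    fun l a1 a2 a3 P a4 a5 s a6 => one s ?_, fun l hl => ok.pr l (Finset.mem_union_left _ hl),
    fun l hl => ⟨L.P l, (hP l hl).1, (hP l hl).2, L.g0 l, (ok.reg l hl).1, reg l hl⟩, ?_⟩,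
    S.surj, ok.ker, fun g => ?_, fun g => ?_, hT, hP, ok.h2, ok.cj,
    fun l hl => ok.tm l (Finset.mem_union_left _ hl), reg⟩
  · rw [h0, h1, ← ok.det g, Matrix.det_fin_two, ok.lo, mul_zero, sub_zero]
  · rw [← ok.lift, unr l a1 (fun e => ((hT l a1).1 e).elim a2 a3) P a4 a5 s a6,
      Matrix.map_one _ (map_zero _) (map_one _)]
  · obtain ⟨g, a1, a2⟩ := h2
    exact ⟨g, ok.h2 ▸ a1, ne g a2⟩
  · rw [h0, h1, ← Matrix.trace_fin_two, ← ok.lift g]
    exact AddMonoidHom.map_trace S.red (L.r g)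
  · rw [S.red.map_det, RingHom.mapMatrix_apply, ok.lift g, ok.det]

theorem unit {red : O →+* F} (hk : ∀ c, red c = 0 ↔ c ∈ maximalIdeal O) {a : O}
    (h : red a ≠ 0) : IsUnit a := by
  by_contra hn
  exact h ((hk a).2 hn)

theorem ev (ok : OkF L S) {T : Finset ℕ} (H : Hx S.red L T χ ψ)
    (h1 : ∀ g, (ψ g : F) = mx S.rb g 1 1) {l : ℕ} (hl : l ∈ L.W) :
    ∃ α β u, Ev S.red L χ ψ (L.g0 l) α β u := by
  obtain ⟨y, a1, a2, -⟩ := ok.ty l hl
  rw [ok.d1, ← h1] at a2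
  have a3 : S.red ((L.r (L.g0 l)).trace - y) = χ (L.g0 l) := by
    rw [map_sub, H.tr, a2, add_sub_cancel_right]
  obtain ⟨u, hu⟩ := (unit ok.ker (a := (L.r (L.g0 l)).trace - y - y) (by
    rw [map_sub, a3, a2]
    exact sub_ne_zero.2 fun e => H.reg l hl (Units.ext e))).exists_right_inv
  refine ⟨_, y, u, sub_add_cancel _ _, ?_, hu, a3, a2, ⟨l, hl, Or.inr (Or.inr rfl)⟩,
    Or.inr (Or.inr (Or.inr ⟨l, hl, rfl⟩))⟩
  have : y ^ 2 - (L.r (L.g0 l)).trace * y + (L.r (L.g0 l)).det = 0 := a1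
  linear_combination -this

theorem ev_swap {red : O →+* F} {g0 : GQ} {α β u : O} (h : Ev red L χ ψ g0 α β u) :
    Ev red L ψ χ g0 β α (-u) :=
  ⟨(add_comm _ _).trans h.hs, (mul_comm _ _).trans h.hp, by linear_combination h.hu, h.hb, h.ha,
    h.ht, h.hd⟩

/-- **generators and relations** -/
theorem lev (h0 : Alg.ARI2) (hB : FNB) (h1 : GWQ) (h2 : AGEN) (h3 : RELP) : Top.LEV := by
  intro O F _ _ _ _ _ _ _ ϖ S L hϖ ok unr d2 hW
  obtain ⟨χ, ψ, I, J, _, _, _, _, s, b, c, l0, hor, hl, fx, hq⟩ :=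
    h0 O F S L (dch ok.lo 0) (dch ok.lo 1) ok (fun _ => rfl) (fun _ => rfl) unr d2 hW
  have H0 : Hx S.red L S.T (dch ok.lo 0) (dch ok.lo 1) :=
    hx ok (fun _ => rfl) (fun _ => rfl) unr d2
  obtain ⟨H, α, β, u, E⟩ : Hx S.red L S.T χ ψ ∧ ∃ α β u, Ev S.red L χ ψ (L.g0 l0) α β u := by
    obtain ⟨α, β, u, E⟩ := ev ok H0 (fun _ => rfl) hl
    rcases hor with ⟨rfl, rfl⟩ | ⟨rfl, rfl⟩
    exacts [⟨H0, _, _, _, E⟩, ⟨H0.swap, _, _, _, ev_swap E⟩]
  obtain ⟨X, hX, hM⟩ := hB O F I J S.red L S.T χ ψ _ s b c H fx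
  rw [← hX] at E
  have hm := hϖ.maximalIdeal_eq
  refine ⟨I, J, Option (Fin (Fintype.card I * Fintype.card J)), inferInstance, inferInstance,
    inferInstance, inferInstance, inferInstance, s,
    Fintype.card I * Fintype.card J, vB _ β u X, fx.ok, by rw [Fintype.card_option, Fintype.card_fin]; ring, fun A n => ?_⟩
  obtain ⟨q, τ, y, a1, a2, a3, a4⟩ := hq A n
  have a5 : ∀ k, (q k).Prime ∧ q k ∉ S.T := fun k =>
    ⟨(a2 k).prime, fun e => (a2 k).out (Finset.mem_union_right _ e)⟩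
  obtain ⟨M, hF⟩ := hM _ q τ y a5 a4
  refine ⟨q, a1, a2, fun i φ hφ => unit ok.ker ?_, vT β u X τ M, ?_,
    fun k a ha => base h1 H hm E ha (fun k => ⟨q k, (a5 k).1, (a5 k).2, a4.ine k⟩) k,
    fun a ha => lvl h1 h2 h3 H hm E hF ha⟩
  · rw [H.tr]
    exact fun e => a3 i φ hφ (Units.ext (CharTwo.add_eq_zero.1 e))
  · refine (lvl0 h1 h2 h3 H hm E hF
      (End.gw_mono (P022F.End0.gw_pk hϖ ok.cont unr 0)) (Ideal.comap_ne_top _ ?_)).1
    rw [zero_add, pow_one, ← hm]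
    exact (maximalIdeal.isMaximal O).ne_top

end Vale.Agent.P022R.Lz
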