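import Vale.Agent.P022R.AriB

/-!
# P022R, generators and relations at one level
-/

set_option linter.all false

open IsLocalRing NumberField

noncomputable section

namespace Vale.Agent.P022R.Lz

open Vale.Agent.P022 Vale.Agent.P022D
open Vale.Agent.P022E.As (Tg cc tt dd yy ev0 mT Gw)
open Vale.Agent.P022E.Loc (Pl)
open Vale.Agent.P027M.S (Inert mx)
open Vale.Agent.P022F.Gm (en2 xx)
open Vale.Agent.P022F.End0 (Ph)
open Vale.Agent.P022D.Gma (ent)
open Vale.Agent.P022D.Core (PS Coef)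

theorem vv_map {O T T' G I J R : Type} [CommRing O] [CommRing T] [CommRing T'] [Group G]
    [Fintype I] [Fintype J] [Fintype R] [DecidableEq I] [DecidableEq J] (f : T →+* T')
    (ι : O →+* T) (d a : G → T) (x : G → G → T) (X : Dt O G I J) (τ : R → G)
    (M : I × J → R → O) (k : Vr I J (Option R)) :
    f (vv ι d a x X τ M k) = vv (f.comp ι) (fun g => f (d g)) (fun g => f (a g))
      (fun g h => f (x g h)) X τ M k := by
  rcases k with _ | p | p | _ | k <;> simp [vv, yv, xv, bt]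

variable {O F : Type} [CommRing O] [Field F]

/-- forget the symbols `y` -/
def z0 : Tg O →+* Tg O :=
  MvPolynomial.eval₂Hom MvPolynomial.C (Sum.elim tt (Sum.elim dd fun _ => 0))

theorem z0_C (c : O) : z0 (MvPolynomial.C c : Tg O) = MvPolynomial.C c :=
  MvPolynomial.eval₂Hom_C _ _ _
theorem z0_cc (c : O) : z0 (cc c) = cc c := z0_C c
theorem z0_tt (g : GQ) : z0 (tt g : Tg O) = tt g := MvPolynomial.eval₂Hom_X' _ _ _
theorem z0_dd (g : GQ) : z0 (dd g : Tg O) = dd g := MvPolynomial.eval₂Hom_X' _ _ _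
theorem z0_yy (i : ℕ) : z0 (yy i : Tg O) = 0 := MvPolynomial.eval₂Hom_X' _ _ _

theorem z0_eA (g0 : GQ) (β u : O) (g : GQ) : z0 (eA g0 β u g) = eA g0 β u g := by
  simp only [eA, ent, map_mul, map_sub, z0_cc, z0_tt]

theorem z0_eX (g0 : GQ) (β u : O) (g h : GQ) : z0 (eX g0 β u g h) = eX g0 β u g h := by
  simp only [eX, xx, ent, map_mul, map_sub, z0_cc, z0_tt]

theorem gw0 {ϖ : O} {L : Pl O} {T Q : Finset ℕ} {r : ℕ} {a : Ideal (Tg O)}
    (h : Gw ϖ L T Q r a) : Gw ϖ L T Q 0 (a.comap z0) := by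
  have := h.fin
  refine ⟨Finite.of_injective _ (Ideal.quotientMap_injective (I := a) (f := z0)), ?_, fun g => ?_,
    fun g => ?_, fun i => ⟨1, ?_⟩, ?_, fun g k => ?_, fun g k => ?_, ?_, fun g k => ?_, ?_,
    fun l h1 h2 h3 P h4 h5 s h6 g => ?_, fun g hg => ?_, fun g hg => ?_, fun i _ => ?_⟩
  all_goals simp only [Ideal.mem_comap, map_pow, map_sub, map_mul, map_add, map_one, map_ofNat,
    z0_cc, z0_tt, z0_dd, z0_yy, pow_one, zero_mem]
  exacts [h.nil0, h.nilt g, h.nild g, h.t1, h.tc g k, h.tm g k, h.d1, h.dm g k, h.opn,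
    h.unr l h1 h2 h3 P h4 h5 s h6 g, h.clt g hg, h.cld g hg]

variable {I J R : Type} [Fintype I] [Fintype J] [Fintype R] [DecidableEq I] [DecidableEq J]

/-- the variables as symbols -/
def vT (β u : O) (X : Dt O GQ I J) (τ : R → GQ) (M : I × J → R → O) :
    Vr I J (Option R) → Tg O :=
  vv MvPolynomial.C dd (eA X.g0 β u) (eX X.g0 β u) X τ M

theorem z0_vT (β u : O) (X : Dt O GQ I J) (τ : R → GQ) (M : I × J → R → O) (k) :
    z0 (vT β u X τ M k) = vT β u X τ M k := by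
  rw [vT, vv_map]
  simp only [z0_dd, z0_eA, z0_eX]
  rw [show (z0 : Tg O →+* Tg O).comp MvPolynomial.C = MvPolynomial.C from RingHom.ext z0_C]

variable [IsLocalRing O] [CharP F 2] {red : O →+* F} {L : Pl O} {T Q : Finset ℕ} {χ ψ : GQ →* Fˣ}
  {ϖ α β u : O} {s : Sh I J} {b : J → GQ → F} {c : I → GQ → F} {X : Dt O GQ I J} {τ : R → GQ}
  {M : I × J → R → O} {a : Ideal (Tg O)}

theorem lvl0 (h1 : GWQ) (h2 : AGEN) (h3 : RELP) (H : Hx red L T χ ψ)
    (hm : maximalIdeal O = Ideal.span {ϖ}) (E : Ev red L χ ψ X.g0 α β u)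
    (hF : ∀ K, Ak L.W Q K → Fn red χ ψ K L.DD L.TT s b c X τ M) (h : Gw ϖ L T Q 0 a)
    (ha : a ≠ ⊤) : (∀ k, vT β u X τ M k ∈ mT L.r) ∧
      (∃ n, P022D.R.Van ((Ideal.Quotient.mk a).comp MvPolynomial.C)
        (fun k => Ideal.Quotient.mk a (vT β u X τ M k)) n) ∧
      (∀ p, ∃ f : MvPolynomial (Vr I J (Option R)) O,
        p - MvPolynomial.aeval (vT β u X τ M) f ∈ a) ∧
      ∀ j, ∃ z ∈ Er ϖ (s.wt (Option R)) (s.dg j), Ph (MvPolynomial.C : O →+* Tg O) (vT β u X τ M) a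
        (((s.eqn (Option R) O j : MvPolynomial (Vr I J (Option R)) O) :
          PS O (Vr I J (Option R))) + z) = 0 := by
  obtain ⟨π, d, p1, p2, G, hK, hc⟩ := h1 O F red L T Q χ ψ ϖ X.g0 α β u a H hm E h ha
  have fn := hF _ ⟨h.opn.imp fun U hU => ⟨hU.1, fun n hn => hK n (hU.2 n hn)⟩,
    fun l a1 a2 a3 a4 P a5 a6 n a7 => hK n (h.unr l a1
      (fun e => ((H.hT l a1).1 e).elim a2 a3) a4 P a5 a6 n a7)⟩
  have hD : ∀ g ∈ L.DD, ∃ o, (d g : Tg O ⧸ a) =
      ((Ideal.Quotient.mk a).comp MvPolynomial.C) o := fun g hg =>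
    ⟨_, (p2 g).trans (Ideal.Quotient.eq.2 (h.cld g hg))⟩
  obtain ⟨g1, g2⟩ := h2 O F _ GQ I J R red _ π χ ψ _ d _ _ _ L.DD L.TT s b c X τ M G fn hD
    (fun g hg => ⟨_, Ideal.Quotient.eq.2 (h.clt g hg)⟩) hc
  have ev : vv ((Ideal.Quotient.mk a).comp MvPolynomial.C) (fun g => (d g : Tg O ⧸ a))
      (fun g => Ideal.Quotient.mk a (eA X.g0 β u g))
      (fun g k => Ideal.Quotient.mk a (eX X.g0 β u g k)) X τ M =
      fun k => Ideal.Quotient.mk a (vT β u X τ M k) := funext fun k => by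
    rw [vT, vv_map]
    simp only [p2]
  rw [ev] at g1 g2
  obtain ⟨N, hN⟩ := G.nil
  have hv := P022D.R.van_of_pow ((Ideal.Quotient.mk a).comp MvPolynomial.C) _ _ hN g1
  refine ⟨fun k => (H.ker _).1 ((p1 _).symm.trans (g1 k)), ⟨N, hv⟩, fun p => ?_, ?_⟩
  · obtain ⟨f, hf⟩ := g2 (Ideal.Quotient.mk a p)
    refine ⟨f, Ideal.Quotient.eq.1 (hf.trans ?_)⟩
    rw [MvPolynomial.aeval_def, ← MvPolynomial.coe_eval₂Hom, MvPolynomial.map_eval₂Hom]
    rfl
  · refine h3 O F _ GQ I J R red _ π χ ψ _ d _ _ _ L.DD L.TT s b c X τ M ϖ _ G fn hD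
      ((Ideal.ext fun o => H.ker o).trans hm) (fun o => P022D.R.evl_C hv o)
      (fun k => (P022D.R.evl_X hv k).trans (congrFun ev k).symm) (fun p => ?_) fun w => ?_
    · obtain ⟨f, hf⟩ := g2 p
      exact ⟨f, (P022D.R.evl_coe hv f).trans hf.symm⟩
    · refine (P022D.R.map_evl hv π w).trans ?_
      rw [show (fun k => π (Ideal.Quotient.mk a (vT β u X τ M k))) = fun _ => 0 from funext g1,
        P022D.R.evl_zero]
      exact G.alg _

theorem lvl (h1 : GWQ) (h2 : AGEN) (h3 : RELP) (H : Hx red L T χ ψ)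
    (hm : maximalIdeal O = Ideal.span {ϖ}) (E : Ev red L χ ψ X.g0 α β u)
    (hF : ∀ K, Ak L.W Q K → Fn red χ ψ K L.DD L.TT s b c X τ M) {r : ℕ} (h : Gw ϖ L T Q r a) :
      (∀ g, ∃ f : MvPolynomial (Vr I J (Option R)) O,
        tt g - MvPolynomial.aeval (vT β u X τ M) f ∈ a) ∧
      (∀ g, ∃ f : MvPolynomial (Vr I J (Option R)) O,
        dd g - MvPolynomial.aeval (vT β u X τ M) f ∈ a) ∧
      ∀ j, ∃ z ∈ Er ϖ (s.wt (Option R)) (s.dg j), Ph (MvPolynomial.C : O →+* Tg O) (vT β u X τ M) a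
        (((s.eqn (Option R) O j : MvPolynomial (Vr I J (Option R)) O) :
          PS O (Vr I J (Option R))) + z) = 0 := by
  by_cases ha : a = ⊤
  · subst ha
    exact ⟨fun _ => ⟨0, trivial⟩, fun _ => ⟨0, trivial⟩,
      fun _ => ⟨0, zero_mem _, Subsingleton.elim _ _⟩⟩
  obtain ⟨-, ⟨N, hv⟩, g1, g2⟩ := lvl0 h1 h2 h3 H hm E hF (gw0 h) (Ideal.comap_ne_top _ ha)
  have e : ∀ f : MvPolynomial (Vr I J (Option R)) O,
      z0 (MvPolynomial.aeval (vT β u X τ M) f) = MvPolynomial.aeval (vT β u X τ M) f := fun f => by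
    rw [MvPolynomial.aeval_def, ← MvPolynomial.coe_eval₂Hom, MvPolynomial.map_eval₂Hom]
    simp only [z0_vT]
    rw [show (z0 : Tg O →+* Tg O).comp (algebraMap O (Tg O)) = algebraMap O (Tg O) from
      RingHom.ext z0_C]
  refine ⟨fun g => (g1 (tt g)).imp fun f hf => ?_, fun g => (g1 (dd g)).imp fun f hf => ?_,
    fun j => (g2 j).imp fun z hz => ⟨hz.1, ?_⟩⟩
  · rwa [Ideal.mem_comap, map_sub, z0_tt, e] at hf
  · rwa [Ideal.mem_comap, map_sub, z0_dd, e] at hf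
  · have k := P022D.R.map_evl hv (Ideal.quotientMap a z0 le_rfl)
      (((s.eqn (Option R) O j : MvPolynomial (Vr I J (Option R)) O) :
          PS O (Vr I J (Option R))) + z)
    rw [show P022D.R.evl _ _ _ = _ from hz.2, map_zero] at k
    refine Eq.trans ?_ k.symm
    refine congrFun (congrArg DFunLike.coe (congrArg₂ P022D.R.evl (RingHom.ext fun o => ?_)
      (funext fun k => ?_))) _
    · exact (congrArg (Ideal.Quotient.mk a) (z0_C o)).symm
    · exact (congrArg (Ideal.Quotient.mk a) (z0_vT β u X τ M k)).symm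

/-- the variables at the base level -/
def vB (R : Type) (β u : O) (X : Dt O GQ I J) : Vr I J (Option R) → Tg O :=
  Sum.elim (fun _ => eA X.g0 β u X.c - 1) (Sum.elim (fun _ => 0)
    (Sum.elim (fun p => xv MvPolynomial.C (eX X.g0 β u) X p.1 p.2)
      fun k => k.elim (eA X.g0 β u X.s - MvPolynomial.C X.κ) fun _ => 0))

theorem base (h1 : GWQ) (H : Hx red L T χ ψ) (hm : maximalIdeal O = Ideal.span {ϖ})
    (E : Ev red L χ ψ X.g0 α β u) (h : Gw ϖ L T ∅ 0 a)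
    (hτ : ∀ k, ∃ l : ℕ, l.Prime ∧ l ∉ T ∧ ∃ P : Ideal (𝓞 Qb), P.IsPrime ∧ (l : 𝓞 Qb) ∈ P ∧
      Inert P (τ k)) (k : Vr I J (Option R)) : vT β u X τ M k - vB R β u X k ∈ a := by
  by_cases ha : a = ⊤
  · rw [ha]; trivial
  obtain ⟨π, d, p1, p2, G, hK, hc⟩ := h1 O F red L T ∅ χ ψ ϖ X.g0 α β u a H hm E h ha
  have kr := fun k => hK (τ k) (by
    obtain ⟨l, a1, a2, P, a3, a4, a5⟩ := hτ k
    exact h.unr l a1 a2 (Finset.notMem_empty l) P a3 a4 _ a5)
  have z : ∀ y : Tg O, y - y ∈ a := fun y => by rw [sub_self]; exact a.zero_mem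
  rcases k with _ | p | p | _ | k
  · exact z _
  · refine a.sub_mem (a.sum_mem fun k _ => a.mul_mem_left _ (Ideal.Quotient.eq.1 ?_)) a.zero_mem
    have e := (congrArg₂ (· - ·) (congrArg₂ (· * ·) (kr k).1 (kr k).2.1)
      ((kr k).2.2 _).1).symm.trans (G.gm.det (τ k))
    rw [mul_one, sub_zero, p2] at e
    exact e.symm
  · exact z _
  · exact z _
  · exact a.sub_mem (Ideal.Quotient.eq.1 (kr k).1) a.zero_mem

end Vale.Agent.P022R.Lz
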