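import Vale.Agent.P022R.Geo

/-! # P022R: the ideal of the initial forms is prime -/

set_option linter.all false

noncomputable section

namespace Vale.Agent.P022R.H46P

open MvPolynomial

variable {I J : Type} [Fintype I] [Fintype J] [DecidableEq I] [DecidableEq J]

/-- a pivot -/
structure Pv (s : Sh I J) (p : I) (q : J) : Prop where
  hi : s.i0 ∉ s.I0
  a : p ∉ s.I0
  b : (p = s.i0 ∧ q ∉ s.J0) ∨ (p ≠ s.i0 ∧ s.J0 = Finset.univ ∧ s.G = false)
  c : ∀ i, i ≠ p → i ≠ s.i0 → i ∈ s.I0
  d : ∀ j, j ≠ q → j ∈ s.J0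
  e : s.G = true → q = s.j0

theorem all_of {α : Type} [Fintype α] [DecidableEq α] {S : Finset α} {x : α} (hx : x ∉ S)
    (h : S.card + 1 = Fintype.card α) (y : α) (hy : y ≠ x) : y ∈ S := by
  have : insert x S = Finset.univ :=
    Finset.eq_univ_of_card _ (by rw [Finset.card_insert_of_notMem hx, h])
  exact (Finset.mem_insert.1 (this ▸ Finset.mem_univ y)).resolve_left hy

theorem ex_out {α : Type} [Fintype α] {S : Finset α} (h : S.card + 1 = Fintype.card α) :
    ∃ x, x ∉ S := by
  by_contra k
  push Not at k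
  rw [Finset.eq_univ_of_forall k, Finset.card_univ] at h
  omega

theorem ex_pv (s : Sh I J) (h : s.Ok) : ∃ p q, Pv s p q := by
  have cI := h.cI
  have cJ := h.cJ
  rcases h.cH with k | k
  · obtain ⟨q, hq, e⟩ : ∃ q, q ∉ s.J0 ∧ (s.G = true → q = s.j0) := by
      by_cases g : s.G = true
      · exact ⟨s.j0, (h.cG g).1, fun _ => rfl⟩
      · obtain ⟨q, hq⟩ := ex_out (S := s.J0) (by omega)
        exact ⟨q, hq, fun a => (g a).elim⟩
    exact ⟨s.i0, q, h.hi, h.hi, Or.inl ⟨rfl, hq⟩, fun i a _ => all_of h.hi (by omega) i a,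
      all_of hq (by omega), e⟩
  · have c : (insert s.i0 s.I0).card + 1 = Fintype.card I := by
      rw [Finset.card_insert_of_notMem h.hi]; omega
    obtain ⟨p, hp⟩ := ex_out c
    have u : s.J0 = Finset.univ := Finset.eq_univ_of_card _ (by omega)
    have g : s.G = false := by
      by_contra a
      have := (h.cG (by simpa using a)).2
      omega
    refine ⟨p, s.j0, h.hi, fun a => hp (Finset.mem_insert_of_mem a), Or.inr ⟨fun a => hp ?_, u, g⟩,
      fun i a b => (Finset.mem_insert.1 (all_of hp c i a)).resolve_left b,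
      fun j _ => u ▸ Finset.mem_univ j, fun _ => rfl⟩
    rw [a]
    exact Finset.mem_insert_self _ _

/-- `x i j` is solved -/
def Px (s : Sh I J) (p : I) (q : J) (z : I × J) : Prop :=
  (z.1 ≠ p ∧ z.2 ≠ q) ∨ (s.G = true ∧ z.1 = p ∧ z.2 = q)

theorem point {L : Type} [Field L] {s : Sh I J} {p : I} {q : J} (h : Pv s p q) (a : L)
    (TY Tx : I → J → L) (ha : a ≠ 0) (hx : ∀ i j, Tx i j ≠ 0) :
    ∃ (y : I → J → L) (γ : I → L) (β : J → L), (∀ i j, Px s p q (i, j) → y i j = TY i j) ∧
      (∀ i j, ¬ Px s p q (i, j) → γ i * β j = Tx i j) ∧ (∀ i ∈ s.I0, ∑ j, y i j * β j = 0) ∧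
      (∀ j ∈ s.J0, ∑ i, y i j * γ i = 0) ∧
      a ^ 2 + γ s.i0 * (if s.G then β s.j0 else ∑ j, y s.i0 j * β j) = 0 := by
  obtain ⟨β, hβ⟩ : ∃ β : J → L, ∀ j, β j = if s.G = true ∧ j = q then -a ^ 2 else Tx p j :=
    ⟨_, fun _ => rfl⟩
  have β0 : β q ≠ 0 := by
    rw [hβ]
    split_ifs
    · exact neg_ne_zero.2 (pow_ne_zero _ ha)
    · exact hx _ _
  obtain ⟨γ, hγ⟩ : ∃ γ : I → L, ∀ i, γ i = if i = p then 1 else Tx i q / β q := ⟨_, fun _ => rfl⟩
  have γp : γ p = 1 := by rw [hγ, if_pos rfl]
  have γ0 : ∀ i, γ i ≠ 0 := fun i => by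
    rw [hγ]
    split_ifs
    · exact one_ne_zero
    · exact div_ne_zero (hx _ _) β0
  obtain ⟨y, hy⟩ : ∃ y : I → J → L, ∀ i j, y i j =
      if i = p then -∑ k ∈ Finset.univ.erase p, TY k j * γ k else TY i j := ⟨_, fun _ _ => rfl⟩
  obtain ⟨z, hz⟩ : ∃ z : I → L, ∀ i, z i = if i = s.i0 then (if s.G = true then TY i q else
      -(a ^ 2 / γ i + ∑ j ∈ Finset.univ.erase q, y i j * β j) / β q) else
      -(∑ j ∈ Finset.univ.erase q, y i j * β j) / β q := ⟨_, fun _ => rfl⟩
  obtain ⟨t, ht⟩ : ∃ t : I → L, ∀ i, t i = if i = p ∧ p ≠ s.i0 then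
      -∑ k ∈ Finset.univ.erase p, z k * γ k else z i := ⟨_, fun _ => rfl⟩
  have row : ∀ i, ∑ j, (if j = q then t i else y i j) * β j =
      t i * β q + ∑ j ∈ Finset.univ.erase q, y i j * β j := fun i => by
    rw [← Finset.add_sum_erase _ _ (Finset.mem_univ q), if_pos rfl]
    congr 1
    exact Finset.sum_congr rfl fun j hj => by rw [if_neg (Finset.mem_erase.1 hj).1]
  refine ⟨fun i j => if j = q then t i else y i j, γ, β, fun i j k => ?_, fun i j k => ?_,
    fun i hi => ?_, fun j hj => ?_, ?_⟩
  · rcases k with ⟨k1, k2⟩ | ⟨g, k1, k2⟩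
    · simp only at k1 k2 ⊢
      rw [if_neg k2, hy, if_neg k1]
    · simp only at k1 k2 ⊢
      subst k1 k2
      have : i = s.i0 := by
        rcases h.b with b | b
        · exact b.1
        · rw [b.2.2] at g; exact absurd g (by simp)
      rw [if_pos rfl, ht, if_neg (fun c => c.2 this), hz, if_pos this, if_pos g]
  · by_cases k1 : i = p
    · subst k1
      rw [γp, one_mul, hβ, if_neg fun c => k (Or.inr ⟨c.1, rfl, c.2⟩)]
    · have k2 : j = q := by
        by_contra k2
        exact k (Or.inl ⟨k1, k2⟩)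
      subst k2
      rw [hγ, if_neg k1, div_mul_cancel₀ _ β0]
  · have k1 : i ≠ p := fun c => h.a (c ▸ hi)
    have k2 : i ≠ s.i0 := fun c => h.hi (c ▸ hi)
    rw [row, ht, if_neg (fun c => k1 c.1), hz, if_neg k2, div_mul_cancel₀ _ β0, neg_add_cancel]
  · rw [← Finset.add_sum_erase _ _ (Finset.mem_univ p), γp, mul_one]
    by_cases k : j = q
    · subst k
      have b : p ≠ s.i0 := by
        rcases h.b with b | b
        · exact (b.2 hj).elim
        · exact b.1
      simp only [if_true]
      rw [ht, if_pos ⟨rfl, b⟩, neg_add_eq_zero]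
      exact Finset.sum_congr rfl fun i hi => by
        rw [ht, if_neg fun c => (Finset.mem_erase.1 hi).1 c.1]
    · simp only [if_neg k]
      rw [hy, if_pos rfl, neg_add_eq_zero]
      exact Finset.sum_congr rfl fun i hi => by rw [hy, if_neg (Finset.mem_erase.1 hi).1]
  · by_cases g : s.G = true
    · have : p = s.i0 := by
        rcases h.b with b | b
        · exact b.1
        · rw [b.2.2] at g; exact absurd g (by simp)
      rw [if_pos g, ← this, γp, ← h.e g, hβ, if_pos ⟨g, rfl⟩]
      ring
    · rw [if_neg g, row, ht, if_neg (fun c => c.2 c.1.symm), hz, if_pos rfl, if_neg g,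
        div_mul_cancel₀ _ β0]
      have := γ0 s.i0
      field_simp
      ring

variable (K : Type)

/-- the solved variables -/
def Pz (s : Sh I J) (p : I) (q : J) : Vr I J K → Prop :=
  Sum.elim (fun _ => False) (Sum.elim (fun z => ¬ Px s p q z) (Sum.elim (Px s p q) fun _ => False))

/-- the order in which the variables are solved -/
def rk (s : Sh I J) (p : I) (q : J) : Vr I J K → ℕ :=
  Sum.elim (fun _ => 0) (Sum.elim (fun z => if z.2 = q then (if z.1 = p then 6 else
    if z.1 = s.i0 then 5 else 4) else if z.1 = p then 3 else 0)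
    (Sum.elim (fun z => if z.1 ≠ p ∧ z.2 ≠ q then 2 else 1) fun _ => 0))

variable {K} {F : Type} [Field F] {s : Sh I J} {p : I} {q : J}

theorem sx {n : ℕ} (i : I) (j : J) (h : (if i ≠ p ∧ j ≠ q then 2 else 1) < n) :
    vx K F i j ∈ supported F {v | rk K s p q v < n} := X_mem_supported.2 h

theorem sx3 {n : ℕ} (i : I) (j : J) (h : 2 < n) :
    vx K F i j ∈ supported F {v | rk K s p q v < n} := sx i j (by split_ifs <;> omega)

theorem sY {n : ℕ} (i : I) (j : J) (h : (if j = q then (if i = p then 6 else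
    if i = s.i0 then 5 else 4) else if i = p then 3 else 0) < n) :
    vY K F i j ∈ supported F {v | rk K s p q v < n} := X_mem_supported.2 h

theorem sa {n : ℕ} (h : 0 < n) : va K F ∈ supported F {v | rk K s p q v < n} :=
  X_mem_supported.2 h

theorem solve (h : Pv s p q) (E : Ideal (MvPolynomial (Vr I J K) F))
    (hE : ∀ e, s.eqn K F e ∈ E) (nz : ∀ i ∉ s.I0, ∀ f, vx K F i q * f ∈ E → f ∈ E)
    (z : Vr I J K) (hz : Pz K s p q z) : ∃ u g : MvPolynomial (Vr I J K) F,
      u * X z - g ∈ E ∧ (∀ f, u * f ∈ E → f ∈ E) ∧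
      u ∈ supported F {v | rk K s p q v < rk K s p q z} ∧
      g ∈ supported F {v | rk K s p q v < rk K s p q z} := by
  have col : ∀ j ∈ s.J0, vx K F p q * vY K F p j -
      -∑ i ∈ Finset.univ.erase p, vY K F i j * vx K F i q ∈ E := fun j hj => by
    have := hE (Sum.inr (Sum.inr (Sum.inl (j, q))))
    simp only [Sh.eqn, if_pos hj] at this
    rwa [← Finset.add_sum_erase _ _ (Finset.mem_univ p), mul_comm, ← sub_neg_eq_add] at this
  rcases z with z | ⟨i, j⟩ | ⟨i, j⟩ | z
  · exact hz.elim
  · have hz' : ¬ Px s p q (i, j) := hz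
    by_cases k : j = q
    · subst k
      by_cases k0 : i = s.i0
      · have g : ¬ s.G = true := fun g => by
          rcases h.b with b | b
          · exact hz' (Or.inr ⟨g, k0.trans b.1.symm, rfl⟩)
          · rw [b.2.2] at g; exact absurd g (by simp)
        have r : 4 < rk K s p j (Sum.inr (Sum.inl (i, j))) := by
          simp only [rk, Sum.elim_inr, Sum.elim_inl, if_true, if_pos k0]
          split_ifs <;> omega
        subst k0
        refine ⟨vx K F s.i0 j, -(va K F ^ 2 + ∑ l ∈ Finset.univ.erase j,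
          vY K F s.i0 l * vx K F s.i0 l), ?_, nz _ h.hi, sx3 _ _ (by omega),
          neg_mem (add_mem (pow_mem (sa (by omega)) _) (sum_mem fun l hl => mul_mem (sY _ _ ?_)
            (sx3 _ _ (by omega))))⟩
        · have := hE (Sum.inr (Sum.inr (Sum.inr ())))
          simp only [Sh.eqn, if_neg g] at this
          rw [← Finset.add_sum_erase _ _ (Finset.mem_univ j)] at this
          refine (congrArg (· ∈ E) ?_).mp this
          show _ = vx K F s.i0 j * vY K F s.i0 j - _
          ring
        · rw [if_neg (Finset.mem_erase.1 hl).1]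
          split_ifs <;> omega
      · by_cases k1 : i = p
        · subst k1
          have hj : j ∈ s.J0 := by
            rcases h.b with b | b
            · exact (k0 b.1).elim
            · exact b.2.1 ▸ Finset.mem_univ j
          have r : rk K s i j (Sum.inr (Sum.inl (i, j))) = 6 := by simp [rk]
          rw [r]
          refine ⟨_, _, col j hj, nz _ h.a, sx3 _ _ (by omega),
            neg_mem (sum_mem fun l hl => mul_mem (sY _ _ ?_) (sx3 _ _ (by omega)))⟩
          rw [if_pos rfl, if_neg (Finset.mem_erase.1 hl).1]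
          split_ifs <;> omega
        · have r : rk K s p j (Sum.inr (Sum.inl (i, j))) = 4 := by simp [rk, k0, k1]
          rw [r]
          refine ⟨vx K F p j, -∑ l ∈ Finset.univ.erase j, vY K F i l * vx K F p l, ?_, nz _ h.a,
            sx3 _ _ (by omega),
            neg_mem (sum_mem fun l hl => mul_mem (sY _ _ ?_) (sx3 _ _ (by omega)))⟩
          · have := hE (Sum.inr (Sum.inl (i, p)))
            simp only [Sh.eqn, if_pos (h.c i k1 k0)] at this
            rwa [← Finset.add_sum_erase _ _ (Finset.mem_univ j), mul_comm, ← sub_neg_eq_add] at this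
          · rw [if_neg (Finset.mem_erase.1 hl).1]
            split_ifs <;> omega
    · have k1 : i = p := by
        by_contra k1
        exact hz' (Or.inl ⟨k1, k⟩)
      subst k1
      have r : rk K s i q (Sum.inr (Sum.inl (i, j))) = 3 := by simp [rk, k]
      rw [r]
      refine ⟨_, _, col j (h.d j k), nz _ h.a, sx3 _ _ (by omega),
        neg_mem (sum_mem fun l hl => mul_mem (sY _ _ ?_) (sx3 _ _ (by omega)))⟩
      rw [if_neg k, if_neg (Finset.mem_erase.1 hl).1]
      omega
  · rcases (hz : Px s p q (i, j)) with ⟨k1, k2⟩ | ⟨g, k1, k2⟩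
    · simp only at k1 k2
      have r : rk K s p q (Sum.inr (Sum.inr (Sum.inl (i, j)))) = 2 := by simp [rk, k1, k2]
      rw [r]
      exact ⟨vx K F p q, vx K F p j * vx K F i q, hE (Sum.inl (p, i, q, j)), nz _ h.a,
        sx _ _ (by simp), mul_mem (sx _ _ (by simp)) (sx _ _ (by simp))⟩
    · simp only at k1 k2
      subst k1 k2
      have r : rk K s i j (Sum.inr (Sum.inr (Sum.inl (i, j)))) = 1 := by simp [rk]
      have e : i = s.i0 := by
        rcases h.b with b | b
        · exact b.1
        · rw [b.2.2] at g; exact absurd g (by simp)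
      rw [r]
      refine ⟨1, -va K F ^ 2, ?_, fun f hf => by rwa [one_mul] at hf, one_mem _,
        neg_mem (pow_mem (sa one_pos) _)⟩
      have := hE (Sum.inr (Sum.inr (Sum.inr ())))
      simp only [Sh.eqn, if_pos g] at this
      rw [← e, ← h.e g] at this
      rwa [one_mul, sub_neg_eq_add, add_comm]
  · exact hz.elim

theorem prm (h1 : NZ) (h2 : EMB) (h3 : DOM) : PRM := by
  classical
  intro I J K F _ _ _ _ _ _ _ s hs
  obtain ⟨p, q, h⟩ := ex_pv s hs
  let L := FractionRing (MvPolynomial (Vr I J K) F)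
  let T : Vr I J K → L := fun v => algebraMap (MvPolynomial (Vr I J K) F) L (X v)
  have inj : Function.Injective (algebraMap (MvPolynomial (Vr I J K) F) L) :=
    IsFractionRing.injective _ _
  have T0 : ∀ v, T v ≠ 0 := fun v => (map_ne_zero_iff _ inj).2 (X_ne_zero v)
  have Ti : AlgebraicIndependent F T :=
    (MvPolynomial.algebraicIndependent_X (Vr I J K) F).map'
      (f := IsScalarTower.toAlgHom F (MvPolynomial (Vr I J K) F) L) inj
  obtain ⟨y, γ, β, e1, e2, e3, e4, e5⟩ := point h (T (Sum.inl ()))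
    (fun i j => T (Sum.inr (Sum.inl (i, j)))) (fun i j => T (Sum.inr (Sum.inr (Sum.inl (i, j)))))
    (T0 _) fun _ _ => T0 _
  let v : Vr I J K → L := Sum.elim (fun _ => T (Sum.inl ())) (Sum.elim (fun z => y z.1 z.2)
    (Sum.elim (fun z => γ z.1 * β z.2) fun k => T (Sum.inr (Sum.inr (Sum.inr k)))))
  have pa : aeval v (va K F : MvPolynomial (Vr I J K) F) = T (Sum.inl ()) := aeval_X _ _
  have pY : ∀ i j, aeval v (vY K F i j) = y i j := fun i j => aeval_X _ _
  have px : ∀ i j, aeval v (vx K F i j) = γ i * β j := fun i j => aeval_X _ _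
  have H := h3 (Vr I J K) F L (Ideal.span (Set.range (s.eqn K F)))
    (Finset.univ.filter (Pz K s p q)) (rk K s p q) (aeval v) ?_ ?_ ?_
  · refine ⟨H.1, H.2.trans ?_⟩
    have c : Fintype.card (I × J) ≤ (Finset.univ.filter (Pz K s p q)).card := by
      refine Finset.card_le_card_of_injOn (fun z => if Px s p q z then Sum.inr (Sum.inr (Sum.inl z))
        else Sum.inr (Sum.inl z)) (fun z _ => ?_) fun z _ z' _ e => ?_
      · simp only [Finset.coe_filter, Finset.mem_univ, true_and, Set.mem_setOf_eq]
        split_ifs with k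
        · exact k
        · exact k
      · simp only at e
        split_ifs at e <;> simpa using e
    have : Fintype.card (Vr I J K) - (Finset.univ.filter (Pz K s p q)).card ≤
        Fintype.card I * Fintype.card J + Fintype.card K + 1 := by
      simp only [Fintype.card_sum, Fintype.card_prod, Fintype.card_unit] at c ⊢
      omega
    exact_mod_cast this
  · intro f hf
    refine (Ideal.span_le (I := RingHom.ker (aeval v : _ →ₐ[F] L))).2 ?_ hf
    rintro _ ⟨e, rfl⟩
    show aeval v (s.eqn K F e) = 0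
    rcases e with ⟨i, k, j, l⟩ | ⟨i, k⟩ | ⟨j, l⟩ | e
    · simp only [Sh.eqn, map_sub, map_mul, px]
      ring
    · simp only [Sh.eqn]
      split_ifs with a
      · simp only [map_sum, map_mul, px, pY]
        rw [← mul_zero (γ k), ← e3 i a, Finset.mul_sum]
        exact Finset.sum_congr rfl fun j _ => by ring
      · exact map_zero _
    · simp only [Sh.eqn]
      split_ifs with a
      · simp only [map_sum, map_mul, px, pY]
        rw [← mul_zero (β l), ← e4 j a, Finset.mul_sum]
        exact Finset.sum_congr rfl fun j _ => by ring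
      · exact map_zero _
    · simp only [Sh.eqn]
      rw [← e5]
      split_ifs with a
      · simp only [map_add, map_pow, px, pa]
      · simp only [map_add, map_pow, map_sum, map_mul, px, pa, pY]
        rw [Finset.mul_sum]
        congr 1
        exact Finset.sum_congr rfl fun j _ => by ring
  · have : (fun z : {z // z ∉ Finset.univ.filter (Pz K s p q)} => aeval v (X z.1 : MvPolynomial _ F))
        = T ∘ Subtype.val := by
      funext ⟨z, hz⟩
      have hz' : ¬ Pz K s p q z := fun a => hz (Finset.mem_filter.2 ⟨Finset.mem_univ _, a⟩)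
      rw [aeval_X]
      rcases z with z | ⟨i, j⟩ | ⟨i, j⟩ | z
      · rfl
      · exact e1 i j (not_not.1 hz')
      · exact e2 i j hz'
      · rfl
    rw [this]
    exact Ti.comp _ Subtype.val_injective
  · intro z hz
    obtain ⟨u, g, a, b, c, d⟩ := solve (F := F) h (Ideal.span (Set.range (s.eqn K F)))
      (fun e => Ideal.subset_span ⟨e, rfl⟩) (fun i hi f hf => by
        obtain ⟨n1, n2⟩ := h1 I J K F s hs
        rw [← h2, map_mul, show toF K F (vx K F i q) = fγ K F i * fβ K F q from aeval_X _ _,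
          mul_assoc] at hf
        exact (h2 I J K F s f).1 (n2 q (h.b.imp (fun a => a.2) fun a => a.2.1) _ (n1 i hi _ hf)))
      z (Finset.mem_filter.1 hz).2
    exact ⟨u, g, a, b, fun t ht => Or.inr (mem_supported.1 c ht),
      fun t ht => Or.inr (mem_supported.1 d ht)⟩

end Vale.Agent.P022R.H46P
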