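import Vale.Agent.P022R.Geo

/-!
# P022R, row PRM: the ideal of the initial forms is prime
-/

set_option linter.all false

noncomputable section

namespace Vale.Agent.P022R

open MvPolynomial

namespace H74

/-- solve linear equations in one column -/
theorem rowfix {I J L : Type} [Fintype J] [DecidableEq J] [Field L] (y : I → J → L) (β : J → L)
    (j1 : J) (hβ : β j1 ≠ 0) (t : I → L) (R : I → Prop) :
    ∃ y' : I → J → L, (∀ i j, ¬ (R i ∧ j = j1) → y' i j = y i j) ∧
      ∀ i, R i → ∑ j, y' i j * β j = t i := by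
  classical
  refine ⟨fun i j => if R i ∧ j = j1 then (t i - ∑ j' ∈ Finset.univ.erase j1, y i j' * β j') / β j1
    else y i j, fun i j h => if_neg h, fun i hi => ?_⟩
  rw [← Finset.add_sum_erase _ _ (Finset.mem_univ j1)]
  have h1 : ∑ j ∈ Finset.univ.erase j1, (if R i ∧ j = j1 then
      (t i - ∑ j' ∈ Finset.univ.erase j1, y i j' * β j') / β j1 else y i j) * β j =
      ∑ j ∈ Finset.univ.erase j1, y i j * β j :=
    Finset.sum_congr rfl fun j hj => by rw [if_neg fun h => (Finset.mem_erase.mp hj).1 h.2]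
  beta_reduce
  rw [h1, if_pos ⟨hi, rfl⟩, div_mul_cancel₀ _ hβ, sub_add_cancel]

variable {I J K F : Type} [Fintype I] [Fintype J] [DecidableEq I] [DecidableEq J] [Field F]

/-- the choice of a pivot -/
structure Pv (s : Sh I J) (i1 : I) (j1 : J) : Prop where
  h0 : s.i0 ∉ s.I0
  h1 : i1 ∉ s.I0
  h2 : ∀ i ∉ s.I0, i = s.i0 ∨ i = i1
  h3 : ∀ j, j ≠ j1 → j ∈ s.J0
  h4 : s.G = true → i1 = s.i0 ∧ j1 = s.j0
  h5 : (i1 = s.i0 ∧ j1 ∉ s.J0) ∨ (i1 ≠ s.i0 ∧ s.J0 = Finset.univ)

theorem exists_pv (s : Sh I J) (h : s.Ok) : ∃ i1 j1, Pv s i1 j1 := by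
  have hI := Finset.card_compl s.I0
  have hJ := Finset.card_compl s.J0
  have c1 := h.cI
  have c2 := h.cJ
  rcases h.cH with e | e
  · obtain ⟨i, hi⟩ := Finset.card_eq_one.mp (show s.I0ᶜ.card = 1 by omega)
    obtain ⟨j, hj⟩ := Finset.card_eq_one.mp (show s.J0ᶜ.card = 1 by omega)
    have mi : ∀ i', i' ∉ s.I0 → i' = i := fun i' h' =>
      Finset.mem_singleton.mp (hi ▸ Finset.mem_compl.mpr h')
    have mj : ∀ j', j' ∉ s.J0 ↔ j' = j := fun j' => by
      rw [← Finset.mem_compl, hj, Finset.mem_singleton]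
    refine ⟨s.i0, j, h.hi, h.hi, fun i' h' => Or.inl ((mi _ h').trans (mi _ h.hi).symm),
      fun j' h' => by_contra fun h'' => h' ((mj _).mp h''),
      fun g => ⟨rfl, ((mj _).mp (h.cG g).1).symm⟩, Or.inl ⟨rfl, (mj _).mpr rfl⟩⟩
  · have hu : s.J0 = Finset.univ := Finset.eq_univ_of_card _ (by omega)
    have hc : (s.I0ᶜ.erase s.i0).card = 1 := by
      rw [Finset.card_erase_of_mem (Finset.mem_compl.mpr h.hi)]; omega
    obtain ⟨i, hi⟩ := Finset.card_eq_one.mp hc
    have mi : ∀ i', (i' ≠ s.i0 ∧ i' ∉ s.I0) ↔ i' = i := fun i' => by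
      rw [← Finset.mem_compl, ← Finset.mem_erase, hi, Finset.mem_singleton]
    refine ⟨i, s.j0, h.hi, ((mi _).mpr rfl).2, fun i' h' => ?_, fun j _ => hu ▸ Finset.mem_univ _,
      fun g => absurd (h.cG g).2 (by omega), Or.inr ⟨((mi _).mpr rfl).1, hu⟩⟩
    by_cases e' : i' = s.i0
    · exact Or.inl e'
    · exact Or.inr ((mi _).mp ⟨e', h'⟩)

/-- the places where `x` is solved; elsewhere `Y` is solved -/
def cx (s : Sh I J) (i1 : I) (j1 : J) (i : I) (j : J) : Prop :=
  (i ≠ i1 ∧ j ≠ j1) ∨ (s.G = true ∧ i = i1 ∧ j = j1)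

/-- the solved variables -/
def zp (K : Type) (s : Sh I J) (i1 : I) (j1 : J) : Vr I J K → Prop :=
  Sum.elim (fun _ => False) (Sum.elim (fun p => ¬ cx s i1 j1 p.1 p.2)
    (Sum.elim (fun p => cx s i1 j1 p.1 p.2) fun _ => False))

/-- the order of solving -/
def rk (K : Type) (i1 : I) (j1 : J) : Vr I J K → ℕ :=
  Sum.elim (fun _ => 0) (Sum.elim (fun p => if p.1 = i1 ∧ p.2 = j1 then 3 else 2)
    (Sum.elim (fun p => if p.1 = i1 ∧ p.2 = j1 then 0 else 1) fun _ => 0))

/-- a point of the equations -/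
theorem point {L : Type} [Field L] [Algebra F L] (s : Sh I J) (a : L) (γ : I → L) (β : J → L)
    (y : I → J → L) (κ : K → L) (hr : ∀ i ∈ s.I0, ∑ j, y i j * β j = 0)
    (hc : ∀ j ∈ s.J0, ∑ i, y i j * γ i = 0)
    (hl : a ^ 2 + γ s.i0 * (if s.G then β s.j0 else ∑ j, y s.i0 j * β j) = 0) :
    ∀ p ∈ Ideal.span (Set.range (s.eqn K F)),
      aeval (Sum.elim (fun _ => a) (Sum.elim (fun p => y p.1 p.2)
        (Sum.elim (fun p => γ p.1 * β p.2) κ)) : Vr I J K → L) p = 0 := by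
  intro p hp
  refine (Ideal.span_le (I := RingHom.ker (aeval (R := F) (Sum.elim (fun _ => a)
    (Sum.elim (fun p => y p.1 p.2) (Sum.elim (fun p => γ p.1 * β p.2) κ)) :
      Vr I J K → L)).toRingHom)).mpr ?_ hp
  rintro _ ⟨e, rfl⟩
  show aeval _ (s.eqn K F e) = 0
  rcases e with ⟨i, k, j, l⟩ | ⟨i, k⟩ | ⟨j, l⟩ | u
  · simp only [Sh.eqn, vx, map_sub, map_mul, aeval_X, Sum.elim_inr, Sum.elim_inl]
    ring
  · simp only [Sh.eqn]
    split_ifs with h
    · simp only [vx, vY, map_sum, map_mul, aeval_X, Sum.elim_inr, Sum.elim_inl]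
      have : ∑ j, y i j * (γ k * β j) = γ k * ∑ j, y i j * β j := by
        rw [Finset.mul_sum]; exact Finset.sum_congr rfl fun j _ => by ring
      rw [this, hr i h, mul_zero]
    · exact map_zero _
  · simp only [Sh.eqn]
    split_ifs with h
    · simp only [vx, vY, map_sum, map_mul, aeval_X, Sum.elim_inr, Sum.elim_inl]
      have : ∑ i, y i j * (γ i * β l) = β l * ∑ i, y i j * γ i := by
        rw [Finset.mul_sum]; exact Finset.sum_congr rfl fun j _ => by ring
      rw [this, hc j h, mul_zero]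
    · exact map_zero _
  · simp only [Sh.eqn]
    split_ifs at hl ⊢ with h
    · simpa only [va, vx, map_add, map_pow, aeval_X, Sum.elim_inr, Sum.elim_inl] using hl
    · simp only [va, vx, vY, map_add, map_pow, map_sum, map_mul, aeval_X, Sum.elim_inr,
        Sum.elim_inl]
      rw [← hl, Finset.mul_sum]
      congr 1
      exact Finset.sum_congr rfl fun j _ => by ring

/-- the generic point -/
theorem generic {L : Type} [Field L] [Algebra F L] {s : Sh I J} {i1 : I} {j1 : J}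
    (h : Pv s i1 j1) (T : Vr I J K → L) (hT : ∀ v, T v ≠ 0) :
    ∃ Φ : MvPolynomial (Vr I J K) F →ₐ[F] L,
      (∀ p ∈ Ideal.span (Set.range (s.eqn K F)), Φ p = 0) ∧
      ∀ v, ¬ zp K s i1 j1 v → Φ (X v) = T v := by
  classical
  obtain ⟨a, ha⟩ : ∃ a, a = T (Sum.inl ()) := ⟨_, rfl⟩
  obtain ⟨P, hP⟩ : ∃ P, P = if s.G then -a ^ 2 else T (Sum.inr (Sum.inr (Sum.inl (i1, j1)))) :=
    ⟨_, rfl⟩
  have hP0 : P ≠ 0 := by
    rw [hP]
    split_ifs
    · exact neg_ne_zero.mpr (pow_ne_zero _ (ha ▸ hT _))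
    · exact hT _
  obtain ⟨γ, hγ⟩ : ∃ γ : I → L, γ = fun i =>
    if i = i1 then P else T (Sum.inr (Sum.inr (Sum.inl (i, j1)))) := ⟨_, rfl⟩
  obtain ⟨β, hβ⟩ : ∃ β : J → L, β = fun j =>
    if j = j1 then 1 else T (Sum.inr (Sum.inr (Sum.inl (i1, j)))) / P := ⟨_, rfl⟩
  have hγ0 : ∀ i, γ i ≠ 0 := fun i => by
    rw [hγ]
    beta_reduce
    split_ifs
    · exact hP0
    · exact hT _
  have hγ1 : γ i1 = P := by rw [hγ]; exact if_pos rfl
  have hβ1 : β j1 = 1 := by rw [hβ]; exact if_pos rfl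
  have hβ0 : β j1 ≠ 0 := hβ1 ▸ one_ne_zero
  obtain ⟨y, hy, hr, hc, hl⟩ : ∃ y : I → J → L,
      (∀ i j, cx s i1 j1 i j → y i j = T (Sum.inr (Sum.inl (i, j)))) ∧
      (∀ i ∈ s.I0, ∑ j, y i j * β j = 0) ∧ (∀ j ∈ s.J0, ∑ i, y i j * γ i = 0) ∧
      (s.G = false → ∑ j, y s.i0 j * β j = -a ^ 2 / γ s.i0) := by
    rcases h.h5 with ⟨e, hj⟩ | ⟨e, hj⟩
    · obtain ⟨y1, a1, b1⟩ := rowfix (fun j i => T (Sum.inr (Sum.inl (i, j)))) γ i1 (hγ0 _)
        (fun _ => 0) (fun j => j ≠ j1)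
      obtain ⟨y2, a2, b2⟩ := rowfix (fun i j => y1 j i) β j1 hβ0
        (fun i => if i = s.i0 then -a ^ 2 / γ s.i0 else 0) (fun i => ¬ (s.G = true ∧ i = i1))
      refine ⟨y2, fun i j hij => ?_, fun i hi => ?_, fun j hj' => ?_, fun g => ?_⟩
      · rcases hij with ⟨u, v⟩ | ⟨g, u, v⟩
        · rw [a2 _ _ fun t => v t.2, a1 _ _ fun t => u t.2]
        · rw [a2 _ _ fun t => t.1 ⟨g, u⟩, a1 _ _ fun t => t.1 v]
      · rw [b2 i fun t => h.h1 (t.2 ▸ hi), if_neg fun t : i = s.i0 => h.h0 (t ▸ hi)]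
      · have hne : j ≠ j1 := fun t => hj (t ▸ hj')
        rw [← b1 j hne]
        exact Finset.sum_congr rfl fun i _ => by rw [a2 _ _ fun t => hne t.2]
      · rw [b2 _ fun t => by simp [g] at t, if_pos rfl]
    · obtain ⟨y1, a1, b1⟩ := rowfix (fun i j => T (Sum.inr (Sum.inl (i, j)))) β j1 hβ0
        (fun i => if i = s.i0 then -a ^ 2 / γ s.i0 else 0) (fun _ => True)
      obtain ⟨y2, a2, b2⟩ := rowfix (fun j i => y1 i j) γ i1 (hγ0 _) (fun _ => 0) (fun _ => True)
      have hrow : ∀ i, i ≠ i1 → ∑ j, y2 j i * β j = if i = s.i0 then -a ^ 2 / γ s.i0 else 0 :=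
        fun i hi => by
          rw [← b1 i trivial]
          exact Finset.sum_congr rfl fun j _ => by rw [a2 _ _ fun t => hi t.2]
      refine ⟨fun i j => y2 j i, fun i j hij => ?_, fun i hi => ?_, fun j _ => b2 j trivial,
        fun _ => ?_⟩
      · rcases hij with ⟨u, v⟩ | ⟨g, u, v⟩
        · beta_reduce
          rw [a2 _ _ fun t => u t.2, a1 _ _ fun t => v t.2]
        · exact absurd (h.h4 g).1 e
      · rw [hrow i fun t => h.h1 (t ▸ hi), if_neg fun t : i = s.i0 => h.h0 (t ▸ hi)]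
      · rw [hrow _ e.symm, if_pos rfl]
  refine ⟨_, point s a γ β y (fun k => T (Sum.inr (Sum.inr (Sum.inr k)))) hr hc ?_, ?_⟩
  · cases g : s.G
    · rw [if_neg (by simp), hl g, mul_div_cancel₀ _ (hγ0 _), add_neg_cancel]
    · obtain ⟨e1, e2⟩ := h.h4 g
      rw [if_pos rfl, ← e1, ← e2, hγ1, hβ1, hP, if_pos g]
      ring
  · rintro (u | ⟨i, j⟩ | ⟨i, j⟩ | k) hv
    · rw [aeval_X]; exact ha
    · rw [aeval_X]; exact hy i j (not_not.mp hv)
    · rw [aeval_X]
      show γ i * β j = _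
      have hv' : ¬ cx s i1 j1 i j := hv
      by_cases u : i = i1 <;> by_cases v : j = j1
      · subst u v
        rw [hγ1, hβ1, mul_one, hP, if_neg fun g => hv' (Or.inr ⟨g, rfl, rfl⟩)]
      · subst u
        rw [hγ1, hβ]
        beta_reduce
        rw [if_neg v, mul_div_cancel₀ _ hP0]
      · subst v
        rw [hβ1, mul_one, hγ]
        exact if_neg u
      · exact absurd (Or.inl ⟨u, v⟩) hv'
    · rw [aeval_X]; rfl

theorem nzx (h1 : NZ) (h2 : EMB) [Fintype K] {s : Sh I J} (hs : s.Ok) {i : I} {j : J}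
    (hi : i ∉ s.I0) (hj : j ∉ s.J0 ∨ s.J0 = Finset.univ) (p : MvPolynomial (Vr I J K) F)
    (hp : vx K F i j * p ∈ Ideal.span (Set.range (s.eqn K F))) :
    p ∈ Ideal.span (Set.range (s.eqn K F)) := by
  rw [← h2] at hp ⊢
  obtain ⟨a, b⟩ := h1 I J K F s hs
  have e : toF K F (vx K F i j) = fγ K F i * fβ K F j := by simp [toF, vx]
  rw [map_mul, e, mul_assoc] at hp
  exact b j hj _ (a i hi _ hp)

/-- the triangular system -/
theorem solve (h1 : NZ) (h2 : EMB) [Fintype K] [DecidableEq K] {s : Sh I J} (hs : s.Ok) {i1 : I}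
    {j1 : J} (h : Pv s i1 j1) (z : Vr I J K) (hz : zp K s i1 j1 z) :
    ∃ u g : MvPolynomial (Vr I J K) F, u * X z - g ∈ Ideal.span (Set.range (s.eqn K F)) ∧
      (∀ p, u * p ∈ Ideal.span (Set.range (s.eqn K F)) → p ∈ Ideal.span (Set.range (s.eqn K F))) ∧
      u ∈ supported F {v | ¬ zp K s i1 j1 v ∨ rk K i1 j1 v < rk K i1 j1 z} ∧
      g ∈ supported F {v | ¬ zp K s i1 j1 v ∨ rk K i1 j1 v < rk K i1 j1 z} := by
  have hj1 : j1 ∉ s.J0 ∨ s.J0 = Finset.univ := h.h5.imp And.right And.right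
  have hE : ∀ e, s.eqn K F e ∈ Ideal.span (Set.range (s.eqn K F)) := fun e =>
    Ideal.subset_span ⟨e, rfl⟩
  have ha : va K F ∈ supported F {v | ¬ zp K s i1 j1 v ∨ rk K i1 j1 v < rk K i1 j1 z} :=
    X_mem_supported.mpr (Or.inl id)
  rcases z with u | ⟨i, j⟩ | ⟨i, j⟩ | k
  · exact hz.elim
  · have hz' : ¬ cx s i1 j1 i j := hz
    have hx : ∀ i' j', vx K F i' j' ∈ supported F {v | ¬ zp K s i1 j1 v ∨
        rk K i1 j1 v < rk K i1 j1 (Sum.inr (Sum.inl (i, j)))} := fun i' j' =>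
      X_mem_supported.mpr (Or.inr (by
        show (if i' = i1 ∧ j' = j1 then 0 else 1) < if i = i1 ∧ j = j1 then 3 else 2
        split_ifs <;> omega))
    have hY : ∀ i' j', ((i' ≠ i1 ∧ j' ≠ j1) ∨ ((i = i1 ∧ j = j1) ∧ ¬ (i' = i1 ∧ j' = j1))) →
        vY K F i' j' ∈ supported F {v | ¬ zp K s i1 j1 v ∨
        rk K i1 j1 v < rk K i1 j1 (Sum.inr (Sum.inl (i, j)))} := fun i' j' t =>
      X_mem_supported.mpr (t.imp (fun t => not_not.mpr (Or.inl t)) fun t => by
        show (if i' = i1 ∧ j' = j1 then 3 else 2) < if i = i1 ∧ j = j1 then 3 else 2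
        rw [if_neg t.2, if_pos t.1]
        omega)
    have col : i = i1 → j ∈ s.J0 → ∃ u g : MvPolynomial (Vr I J K) F,
        u * X (Sum.inr (Sum.inl (i, j))) - g ∈ Ideal.span (Set.range (s.eqn K F)) ∧
        (∀ p, u * p ∈ Ideal.span (Set.range (s.eqn K F)) →
          p ∈ Ideal.span (Set.range (s.eqn K F))) ∧
        u ∈ supported F {v | ¬ zp K s i1 j1 v ∨
          rk K i1 j1 v < rk K i1 j1 (Sum.inr (Sum.inl (i, j)))} ∧
        g ∈ supported F {v | ¬ zp K s i1 j1 v ∨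
          rk K i1 j1 v < rk K i1 j1 (Sum.inr (Sum.inl (i, j)))} := fun e hj => by
      refine ⟨vx K F i1 j1, -∑ i' ∈ Finset.univ.erase i1, vY K F i' j * vx K F i' j1, ?_,
        nzx h1 h2 hs h.h1 hj1, hx _ _, neg_mem (sum_mem fun i' hi' => mul_mem (hY _ _ ?_) (hx _ _))⟩
      · have := hE (Sum.inr (Sum.inr (Sum.inl (j, j1))))
        simp only [Sh.eqn, if_pos hj] at this
        rw [← Finset.add_sum_erase _ _ (Finset.mem_univ i1)] at this
        rw [sub_neg_eq_add, mul_comm, e]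
        exact this
      · have hne := (Finset.mem_erase.mp hi').1
        by_cases v : j = j1
        · exact Or.inr ⟨⟨e, v⟩, fun t => hne t.1⟩
        · exact Or.inl ⟨hne, v⟩
    by_cases v : j = j1
    · by_cases hi : i ∈ s.I0
      · refine ⟨vx K F i1 j1, -∑ j' ∈ Finset.univ.erase j1, vY K F i j' * vx K F i1 j', ?_,
          nzx h1 h2 hs h.h1 hj1, hx _ _, neg_mem (sum_mem fun j' hj' => mul_mem (hY _ _
            (Or.inl ⟨fun t => h.h1 (t ▸ hi), (Finset.mem_erase.mp hj').1⟩)) (hx _ _))⟩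
        have := hE (Sum.inr (Sum.inl (i, i1)))
        simp only [Sh.eqn, if_pos hi] at this
        rw [← Finset.add_sum_erase _ _ (Finset.mem_univ j1)] at this
        rw [sub_neg_eq_add, mul_comm, v]
        exact this
      · by_cases e : i = s.i0
        · have g : ¬ s.G = true := fun g => hz' (Or.inr ⟨g, e.trans (h.h4 g).1.symm, v⟩)
          refine ⟨vx K F i j1, -(va K F ^ 2 +
            ∑ j' ∈ Finset.univ.erase j1, vY K F i j' * vx K F i j'), ?_, nzx h1 h2 hs hi hj1,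
            hx _ _, neg_mem (add_mem (pow_mem ha _)
              (sum_mem fun j' hj' => mul_mem (hY _ _ ?_) (hx _ _)))⟩
          · have := hE (Sum.inr (Sum.inr (Sum.inr ())))
            simp only [Sh.eqn, if_neg g] at this
            rw [← Finset.add_sum_erase _ _ (Finset.mem_univ j1), ← e] at this
            rw [sub_neg_eq_add, mul_comm, v, add_left_comm]
            exact this
          · have hne := (Finset.mem_erase.mp hj').1
            by_cases u : i = i1
            · exact Or.inr ⟨⟨u, v⟩, fun t => hne t.2⟩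
            · exact Or.inl ⟨u, hne⟩
        · have u : i = i1 := (h.h2 i hi).resolve_left e
          rcases h.h5 with ⟨e', -⟩ | ⟨-, hu⟩
          · exact absurd (u.trans e') e
          · exact col u (hu ▸ Finset.mem_univ _)
    · exact col (by_contra fun u => hz' (Or.inl ⟨u, v⟩)) (h.h3 j v)
  · rcases hz with ⟨u, v⟩ | ⟨g, u, v⟩
    · have u : i ≠ i1 := u
      have v : j ≠ j1 := v
      refine ⟨vx K F i1 j1, vx K F i1 j * vx K F i j1, hE (Sum.inl (i1, i, j1, j)),
        nzx h1 h2 hs h.h1 hj1, X_mem_supported.mpr (Or.inr ?_),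
        mul_mem (X_mem_supported.mpr (Or.inl ?_)) (X_mem_supported.mpr (Or.inl ?_))⟩
      · show (if i1 = i1 ∧ j1 = j1 then 0 else 1) < if i = i1 ∧ j = j1 then 0 else 1
        rw [if_pos ⟨rfl, rfl⟩, if_neg fun t => u t.1]
        omega
      · rintro (t | t)
        · exact t.1 rfl
        · exact v t.2.2
      · rintro (t | t)
        · exact t.2 rfl
        · exact u t.2.1
    · have u : i = i1 := u
      have v : j = j1 := v
      refine ⟨1, -va K F ^ 2, ?_, fun p hp => by rwa [one_mul] at hp, one_mem _,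
        neg_mem (pow_mem ha _)⟩
      have := hE (Sum.inr (Sum.inr (Sum.inr ())))
      simp only [Sh.eqn, if_pos g] at this
      rw [one_mul, sub_neg_eq_add, add_comm, u, v, (h.h4 g).1, (h.h4 g).2]
      exact this
  · exact hz.elim

/-- **row PRM** -/
theorem prm (h1 : NZ) (h2 : EMB) (h3 : DOM) : PRM := by
  intro I J K F _ _ _ _ _ _ _ s hs
  classical
  obtain ⟨i1, j1, h⟩ := exists_pv s hs
  let A := MvPolynomial (Vr I J K) F
  let L := FractionRing A
  obtain ⟨Φ, hΦ, hX⟩ := generic (F := F) (K := K) h (fun v => algebraMap A L (X v)) fun v =>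
    (map_ne_zero_iff _ (IsFractionRing.injective A L)).mpr (X_ne_zero v)
  let Z : Finset (Vr I J K) := Finset.univ.filter (zp K s i1 j1)
  have hZ : ∀ v, v ∈ Z ↔ zp K s i1 j1 v := fun v => by simp [Z]
  have hind : AlgebraicIndependent F (fun v : {v // v ∉ Z} => Φ (X v.1)) := by
    have e : (fun v : {v // v ∉ Z} => Φ (X v.1)) =
        (IsScalarTower.toAlgHom F A L) ∘ (X ∘ Subtype.val) :=
      funext fun v => hX v.1 fun t => v.2 ((hZ _).mpr t)
    rw [e]
    exact ((MvPolynomial.algebraicIndependent_X (Vr I J K) F).comp _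
      Subtype.val_injective).map' (IsFractionRing.injective A L)
  obtain ⟨hp, hd⟩ := h3 (Vr I J K) F L _ Z (rk K i1 j1) Φ hΦ hind fun z hz => by
    obtain ⟨u, g, a, b, c, d⟩ := solve (F := F) h1 h2 hs h z ((hZ z).mp hz)
    refine ⟨u, g, a, b, fun v hv => ?_, fun v hv => ?_⟩
    · rw [hZ]; exact mem_supported.mp c hv
    · rw [hZ]; exact mem_supported.mp d hv
  refine ⟨hp, hd.trans ?_⟩
  have hc : Fintype.card I * Fintype.card J ≤ Z.card := by
    rw [← Fintype.card_prod, ← Finset.card_univ]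
    refine Finset.card_le_card_of_injOn (fun p : I × J => if cx s i1 j1 p.1 p.2 then
      (Sum.inr (Sum.inr (Sum.inl p)) : Vr I J K) else Sum.inr (Sum.inl p)) (fun p _ => ?_)
      fun p _ q _ e => ?_
    · rw [Finset.mem_coe, hZ]
      beta_reduce
      split_ifs with t
      · exact t
      · exact t
    · beta_reduce at e
      split_ifs at e <;> simp_all
  have hs' : Fintype.card (Vr I J K) = 1 + (Fintype.card I * Fintype.card J +
      (Fintype.card I * Fintype.card J + Fintype.card K)) := by simp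
  exact_mod_cast (by omega : Fintype.card (Vr I J K) - Z.card ≤
    Fintype.card I * Fintype.card J + Fintype.card K + 1)

end H74

end Vale.Agent.P022R
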