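import Vale.Agent.P022R.Rel0

/-!
# P022R: the second order reciprocity law
-/

set_option linter.all false

noncomputable section

namespace Vale.Agent.P022R.Rel

open NumberField
open Vale.Agent.P022 Vale.Agent.P022.H443 Vale.Agent.P022E.GW
open Vale.Agent.P027M.S (Inert)
open Vale.Agent.P022D.Sel (IsDec)
open Vale.Agent.P022D.L2c (Hm Cob IsZ2 cup up)
open Vale.Agent.P022D.W (dec dec_gen phi_mem inP_le_dec exists_phi)
open Vale.Agent.P022E.GW.Kc
open scoped Pointwise

variable {F : Type} [Field F]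

/-- the residual characters -/
structure Bs (χ ψ : GQ →* Fˣ) (S : Finset ℕ) : Prop where
  inv : ∀ g, (χ g : F) * ψ g = 1
  lc : IsLocallyConstant fun g => (χ g : F)
  unr : ∀ p ∉ S, p ≠ 2 → ∀ P, Ov p P → ∀ i, Inert P i → (χ i : F) = 1

/-- `b` is a coboundary on `D` -/
def Tr (χ ψ : GQ →* Fˣ) (D : Subgroup GQ) (b : GQ → F) : Prop :=
  ∃ m : F, ∀ g ∈ D, b g = m * (χ g + ψ g)

/-- cocycles, unramified outside `S` and two, trivial at `S` -/
structure Co (χ ψ : GQ →* Fˣ) (S : Finset ℕ) (b : GQ → F) : Prop where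
  coc : ∀ g h, b (g * h) = (χ g : F) * b h + b g * ψ h
  lc : IsLocallyConstant b
  unr : ∀ p ∉ S, p ≠ 2 → ∀ P, Ov p P → ∀ i, Inert P i → b i = 0
  loc : ∀ l ∈ S, l ≠ 2 → ∀ P, Ov l P → Tr χ ψ (dec P) b

/-- a primitive of the cup product with unramified eigenvalue characters -/
structure Ee (χ ψ : GQ →* Fˣ) (b c e : GQ → F) : Prop where
  coc : ∀ g h, e (g * h) = e g + e h + (ψ g : F) * ψ h * (b g * c h)
  lc : IsLocallyConstant e
  unr : ∀ p ≠ 2, ∀ P, Ov p P → ∀ i, Inert P i → (χ i : F) = 1 → e i = 0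

/-- the symbol -/
def sy (χ ψ : GQ →* Fˣ) (b c e : GQ → F) (g : GQ) : F :=
  e g + b g * c g / (χ g * (χ g + ψ g))

variable {χ ψ : GQ →* Fˣ} {S : Finset ℕ} {b c e : GQ → F}

theorem um (χ : GQ →* Fˣ) (g h : GQ) : (χ (g * h) : F) = χ g * χ h := by
  rw [map_mul, Units.val_mul]

theorem u1 (χ : GQ →* Fˣ) : (χ 1 : F) = 1 := by rw [map_one, Units.val_one]

theorem Bs.one (B : Bs χ ψ S) {g : GQ} (h : (χ g : F) = 1) : (ψ g : F) = 1 := by
  have := B.inv g
  rwa [h, one_mul] at this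

theorem Bs.symm (B : Bs χ ψ S) : Bs ψ χ S :=
  ⟨fun g => by rw [mul_comm, B.inv], by
    have e : (fun g => (ψ g : F)) = fun g => (χ g : F)⁻¹ :=
      funext fun g => eq_inv_of_mul_eq_one_right (B.inv g)
    rw [e]
    exact B.lc.comp (·⁻¹), fun p hp h2 P h i hi => B.one (B.unr p hp h2 P h i hi)⟩

theorem coc1 (h : ∀ g k, b (g * k) = (χ g : F) * b k + b g * ψ k) : b 1 = 0 := by
  have := h 1 1
  rw [mul_one, u1, u1] at this
  linear_combination -this

theorem Co.zero [CharP F 2] (B : Bs χ ψ S) (h : Co χ ψ S b) {p : ℕ} {P : Ideal (𝓞 Qb)}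
    (h2 : p ≠ 2) (o : Ov p P) {i : GQ} (hi : Inert P i) (h1 : (χ i : F) = 1) : b i = 0 := by
  by_cases hp : p ∈ S
  · obtain ⟨m, hm⟩ := h.loc p hp h2 P o
    rw [hm i (inP_le_dec hi), h1, B.one h1, CharTwo.add_self_eq_zero, mul_zero]
  · exact h.unr p hp h2 P o i hi

theorem Ee.swap [CharP F 2] (B : Bs χ ψ S) (hb : Co χ ψ S b) (hc : Co ψ χ S c)
    (he : Ee χ ψ b c e) : Ee ψ χ c b fun g => e g + b g * c g := by
  have two : (2 : F) = 0 := CharTwo.two_eq_zero
  refine ⟨fun g h => ?_, he.lc.add (hb.lc.mul hc.lc), fun p h2 P o i hi h1 => ?_⟩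
  · rw [he.coc, hb.coc, hc.coc]
    linear_combination (b h * c h) * B.inv g + (b g * c g) * B.inv h +
      ((ψ g : F) * ψ h * (b g * c h)) * two
  · have h1' := B.symm.one h1
    rw [he.unr p h2 P o i hi h1', hb.zero B h2 o hi h1', zero_mul, add_zero]

theorem sy_swap [CharP F 2] (B : Bs χ ψ S) {g : GQ} (ne : (χ g : F) ≠ ψ g) :
    sy ψ χ c b (fun g => e g + b g * c g) g = sy χ ψ b c e g := by
  have two : (2 : F) = 0 := CharTwo.two_eq_zero
  have h0 : (χ g : F) + ψ g ≠ 0 := fun h => ne (by linear_combination h - (ψ g : F) * two)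
  have h1 : (ψ g : F) + χ g ≠ 0 := by rwa [add_comm]
  have h2 := (χ g).ne_zero
  have h3 := (ψ g).ne_zero
  simp only [sy]
  field_simp
  linear_combination (b g * c g * ((χ g : F) + ψ g) ^ 2) * B.inv g +
    (b g * c g * ((χ g : F) + ψ g) * χ g) * two

theorem ex_odd [Finite F] [CharP F 2] : ∃ n, Odd n ∧ ∀ x : Fˣ, x ^ n = 1 := by
  have := Fintype.ofFinite F
  classical
  refine ⟨Fintype.card Fˣ, ?_, fun x => pow_card_eq_one⟩
  obtain ⟨n, -, hn⟩ := FiniteField.card F 2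
  rw [Fintype.card_units, hn]
  exact Nat.Even.sub_odd Nat.one_le_two_pow (Nat.even_pow.2 ⟨even_two, n.ne_zero⟩) odd_one

theorem odd_cast [CharP F 2] {n : ℕ} (h : Odd n) : (n : F) = 1 := by
  obtain ⟨k, rfl⟩ := h
  push_cast
  rw [show (2 : F) = 0 from CharTwo.two_eq_zero, zero_mul, zero_add]

/-- the eigenvalue character on a group where `c` is a coboundary -/
theorem eps_add [CharP F 2] (B : Bs χ ψ S) (hb : ∀ g k, b (g * k) = (χ g : F) * b k + b g * ψ k)
    (he : ∀ g h, e (g * h) = e g + e h + (ψ g : F) * ψ h * (b g * c h)) {m : F} (g : GQ) {h : GQ}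
    (hm : c h = m * (ψ h + χ h)) :
    e (g * h) + m * ψ (g * h) * b (g * h) = e g + m * ψ g * b g + (e h + m * ψ h * b h) := by
  have two : (2 : F) = 0 := CharTwo.two_eq_zero
  rw [he, hb, um, hm]
  linear_combination (m * ψ h * b h) * B.inv g + (m * ψ g * b g) * B.inv h +
    (m * ψ g * ψ h ^ 2 * b g) * two

/-- the cup product of two cocycles -/
def zc (ψ : GQ →* Fˣ) (b c : GQ → F) (g h : GQ) : F := (ψ g : F) * ψ h * (b g * c h)

theorem zc_z2 (B : Bs χ ψ S) (hb : Co χ ψ S b) (hc : Co ψ χ S c) : IsZ2 (zc ψ b c) := by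
  have l := B.symm.lc
  refine ⟨((l.comp_continuous continuous_fst).mul (l.comp_continuous continuous_snd)).mul
    ((hb.lc.comp_continuous continuous_fst).mul (hc.lc.comp_continuous continuous_snd)),
    fun g h k => ?_⟩
  simp only [zc, hb.coc, hc.coc, um]
  linear_combination (-(ψ h : F) * ψ k * b h * c k) * B.inv g +
    ((ψ g : F) * ψ h * b g * c h) * B.inv k

theorem zc_cb [CharP F 2] (B : Bs χ ψ S) (hb : Co χ ψ S b) (hc : Co ψ χ S c) {D : Subgroup GQ}
    (h : Tr χ ψ D b ∨ Tr ψ χ D c) : Cb D (zc ψ b c) := by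
  have two : (2 : F) = 0 := CharTwo.two_eq_zero
  rcases h with ⟨m, hm⟩ | ⟨m, hm⟩
  · refine ⟨fun g => m * ψ g * c g,
      ((B.symm.lc.comp (m * ·)).mul hc.lc).comp_continuous continuous_subtype_val, fun g h => ?_⟩
    simp only [rs, zc, Subgroup.coe_mul, hc.coc, um, hm g g.2]
    linear_combination (m * ψ g * c g) * B.inv h - (m * ψ h * c h) * B.inv g -
      (m * ψ h * c h) * two
  · refine ⟨fun g => m * ψ g * b g,
      ((B.symm.lc.comp (m * ·)).mul hb.lc).comp_continuous continuous_subtype_val, fun g h => ?_⟩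
    simp only [rs, zc, Subgroup.coe_mul, hb.coc, um, hm h h.2]
    linear_combination (m * ψ h * b h) * B.inv g - (m * ψ g * b g) * B.inv h -
      (m * ψ g * b g) * two

theorem near {a : GQ → F} (h : IsLocallyConstant a) (h1 : a 1 = 0) :
    ∃ U : Subgroup GQ, IsOpen (U : Set GQ) ∧ ∀ g ∈ U, a g = 0 := by
  obtain ⟨U, hU, -, k⟩ := Rc.near (D := ⊤) (h.comp_continuous continuous_subtype_val)
  exact ⟨U, hU, fun g hg => (k ⟨g, trivial⟩ hg).trans h1⟩

/-- **existence of the primitives** -/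
theorem ee [Finite F] [CharP F 2] (B : Bs χ ψ S) (hb : Co χ ψ S b) (hc : Co ψ χ S c)
    {P2 : Ideal (𝓞 Qb)} (o2 : Ov 2 P2) (h2 : Tr χ ψ (dec P2) b ∨ Tr ψ χ (dec P2) c) {c0 : GQ}
    (cj0 : IsConj c0) (h0 : b c0 * c c0 = 0) : ∃ e, Ee χ ψ b c e := by
  classical
  have two : (2 : F) = 0 := CharTwo.two_eq_zero
  have hz := zc_z2 B hb hc
  have b1 := coc1 hb.coc
  have c1 := coc1 hc.coc
  have z1 : zc ψ b c 1 1 = 0 := by rw [zc, b1, zero_mul, mul_zero]
  obtain ⟨w, lw, hw⟩ : zc ψ b c ∈ Cob F GQ := by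
    obtain ⟨w, lw, hw⟩ := hasseCC F ⊤ (zc ψ b c) isOpen_univ (RecP.z2_le hz ⊤) (by
      intro l D hD
      by_cases l0 : l = 0
      · subst l0
        exact cb_inf hz z1 cj0 (by rw [zc, h0, mul_zero]) D hD
      obtain ⟨e, -⟩ | ⟨lp, P, p1, p2, e⟩ := hD
      · exact absurd e l0
      have o : Ov l P := ⟨lp, p1, p2⟩
      rw [show D = dec P from SetLike.coe_injective e, top_inf_eq]
      by_cases l2 : l = 2
      · subst l2
        exact cb_all hz o2 o (zc_cb B hb hc h2)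
      by_cases hl : l ∈ S
      · exact zc_cb B hb hc (Or.inl (hb.loc l hl l2 P o))
      have := unrC F ⊤ l P _ isOpen_univ o (RecP.z2_le hz _) fun g _ h _ i _ hi => by
        have i1 := B.unr l hl l2 P o i hi
        simp only [zc, um, hb.coc, hc.coc, hb.unr l hl l2 P o i hi, hc.unr l hl l2 P o i hi, i1,
          B.one i1, mul_one, mul_zero, zero_add, and_self]
      rwa [top_inf_eq] at this)
    exact ⟨fun g => w ⟨g, trivial⟩, lw.comp_continuous (by fun_prop),
      fun g h => hw ⟨g, trivial⟩ ⟨h, trivial⟩⟩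
  have w1 : w 1 = 0 := by
    have := hw 1 1
    rw [mul_one, z1] at this
    linear_combination -this
  obtain ⟨n, on, hn⟩ := ex_odd (F := F)
  have key : ∀ p : ℕ, p.Prime → p ≠ 2 → ∃ κ : F, ∀ P, Ov p P → ∀ i, Inert P i → (χ i : F) = 1 →
      w i = up F (kq (p : Qb) i) * κ := by
    intro p pp p2
    obtain ⟨P, o⟩ := ex_ov pp
    obtain ⟨τ, hτ⟩ := Tg.ex_gn o p2
    obtain ⟨m, hm⟩ : ∃ m : F, ∀ i, Inert P i → c i = m * (ψ i + χ i) := by
      by_cases hp : p ∈ S
      · exact (hc.loc p hp p2 P o).imp fun m hm i hi => hm i (inP_le_dec hi)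
      · exact ⟨0, fun i hi => by rw [hc.unr p hp p2 P o i hi, zero_mul]⟩
    have k0 := fun s (hs : Inert P s) => Tg.mult o p2 hτ (a := fun g => w g + m * ψ g * b g)
      (fun s _ t ht => eps_add B hb.coc hw s (hm t ht))
      ((near (lw.add ((B.symm.lc.comp (m * ·)).mul hb.lc)) (by
        show w 1 + m * ψ 1 * b 1 = 0
        rw [w1, b1, mul_zero, add_zero])).imp fun U hU => ⟨hU.1, fun σ k _ => hU.2 σ k⟩) hs
    refine ⟨w τ + m * ψ τ * b τ, fun P' o' i hi h1 => ?_⟩
    obtain ⟨t, rfl⟩ := Tg.trans o o'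
    have hj := Tg.inert_conj hi
    obtain ⟨j, rfl⟩ : ∃ j, i = t * j * t⁻¹ := ⟨t⁻¹ * i * t, by group⟩
    rw [show t⁻¹ * (t * j * t⁻¹) * t = j by group] at hj
    have j1 : (χ j : F) = 1 := by
      rwa [map_mul, map_mul, map_inv, mul_inv_cancel_comm] at h1
    have bj := hb.zero B p2 o hj j1
    have cj := hc.zero B.symm p2 o hj (B.one j1)
    have e1 := k0 j hj
    have e2 := kq_conj (p : Qb) t j
    rw [map_natCast] at e2
    have e3 := hw t t⁻¹
    have e4 := hw (t * j) t⁻¹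
    have e5 := hw t j
    simp only [zc, mul_inv_cancel, w1, um, hb.coc t j, bj, cj, B.one j1, mul_zero, mul_one,
      zero_add, add_zero] at e1 e3 e4 e5
    rw [e2, ← e1, e4, e5]
    linear_combination -e3
  choose! κ hκ using key
  obtain ⟨U, hU, hu⟩ := near lw w1
  obtain ⟨N, N0, hN⟩ := Fx2.fin_ram U hU
  let R := N.primeFactors.erase 2
  have hR : ∀ p ∈ R, p.Prime := fun p hp => Nat.prime_of_mem_primeFactors (Finset.mem_of_mem_erase hp)
  refine ⟨fun g => w g + ∑ p ∈ R, κ p * up F (kq (p : Qb) g), fun g h => ?_, ?_,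
    fun p p2 P o i hi h1 => ?_⟩
  · have : ∀ p : ℕ, kq (p : Qb) (g * h) = kq (p : Qb) g + kq (p : Qb) h := fun p =>
      kq_add (map_natCast g p) (map_natCast h p)
    simp only [hw, this, map_add, mul_add, Finset.sum_add_distrib, zc]
    ring
  · refine lw.add ?_
    induction R using Finset.induction_on with
    | empty =>
      simp only [Finset.sum_empty]
      exact IsLocallyConstant.const (0 : F)
    | insert p s hp ih =>
      simp only [Finset.sum_insert hp]
      exact ((kq_lc (p : Qb)).comp fun a => κ p * up F a).add ih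
  · show w i + _ = 0
    rw [Finset.sum_eq_single p]
    · rw [hκ p o.1 p2 P o i hi h1]
      linear_combination (κ p * up F (kq (p : Qb) i)) * two
    · intro l hl ne
      rw [kq_nat o p2 (hR l hl) ne.symm hi, map_zero, mul_zero]
    · intro hp
      have nd : ¬ p ∣ N := fun d =>
        hp (Finset.mem_erase.2 ⟨p2, Nat.mem_primeFactors.2 ⟨o.1, d, N0⟩⟩)
      have w0 : ∀ j, Inert P j → w j = 0 := fun j hj => hu j (hN P o.2.1
        (OneP.cop ((Nat.Prime.coprime_iff_not_dvd o.1).2 nd) o.2.1 o.2.2) j hj)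
      have := hκ p o.1 p2 P o i hi h1
      rw [w0 i hi] at this
      rw [mul_comm, ← this]

end Vale.Agent.P022R.Rel
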