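import Vale.Agent.P022R.Rel1

/-!
# P022R: the second order reciprocity law, the sum formula
-/

set_option linter.all false

noncomputable section

namespace Vale.Agent.P022R.Rel

open NumberField
open Vale.Agent.P022 Vale.Agent.P022.H443 Vale.Agent.P022E.GW
open Vale.Agent.P027M.S (Inert)
open Vale.Agent.P022D.Sel (IsDec)
open Vale.Agent.P022D.L2c (Hm Cob IsZ2 cup up)
open Vale.Agent.P022D.W (dec dec_gen phi_mem inP_le_dec exists_phi)
open Vale.Agent.P022E.GW.Kc
open scoped Pointwise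

variable {F : Type} [Field F] {χ ψ : GQ →* Fˣ} {S : Finset ℕ}

theorem lc_sum {J X : Type} [TopologicalSpace X] (s : Finset J) {a : J → X → F}
    (h : ∀ j, IsLocallyConstant (a j)) : IsLocallyConstant fun g => ∑ j ∈ s, a j g := by
  classical
  induction s using Finset.induction_on with
  | empty =>
    simp only [Finset.sum_empty]
    exact IsLocallyConstant.const (0 : F)
  | insert p s hp ih =>
    simp only [Finset.sum_insert hp]
    exact (h p).add ih

/-- an unramified cocycle is trivial at a regular prime -/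
theorem tr_unr [CharP F 2] (B : Bs χ ψ S) {d : GQ → F}
    (hd : ∀ g k, d (g * k) = (χ g : F) * d k + d g * ψ k) (ld : IsLocallyConstant d) {p : ℕ}
    {P : Ideal (𝓞 Qb)} {φ : GQ} (o : Ov p P) (hφ : Fb p P φ)
    (u1' : ∀ i, Inert P i → (χ i : F) = 1) (u2 : ∀ i, Inert P i → d i = 0)
    (ne : (χ φ : F) ≠ ψ φ) {g : GQ} (hg : g ∈ dec P) :
    d g = d φ / (χ φ + ψ φ) * (χ g + ψ g) := by
  have two : (2 : F) = 0 := CharTwo.two_eq_zero
  have h0 : (χ φ : F) + ψ φ ≠ 0 := fun h => ne (by linear_combination h - (ψ φ : F) * two)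
  obtain ⟨m, hm⟩ : ∃ m, m = d φ / (χ φ + ψ φ) := ⟨_, rfl⟩
  rw [← hm]
  let a : GQ → F := fun g => d g - m * (χ g + ψ g)
  have ha : ∀ g k, a (g * k) = (χ g : F) * a k + a g * ψ k := fun g k => by
    simp only [a, hd, um]
    linear_combination (m * χ g * ψ k) * two
  have a1 := coc1 ha
  obtain ⟨U, hU, hu⟩ := near (a := a) (ld.sub ((B.lc.add B.symm.lc).comp (m * ·))) a1
  obtain ⟨k, s, v, hs, hv, rfl⟩ := dec_gen o.1 o.2.1 o.2.2 hφ hg U hU
  have aφ : a φ = 0 := by simp only [a, hm, div_mul_cancel₀ _ h0, sub_self]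
  have ak : ∀ k : ℕ, a (φ ^ k) = 0 := fun k => by
    induction k with
    | zero => rwa [pow_zero]
    | succ k ih => rw [pow_succ, ha, aφ, ih, mul_zero, zero_mul, add_zero]
  have as : a s = 0 := by
    simp only [a, u2 s hs, u1' s hs, B.one (u1' s hs), CharTwo.add_self_eq_zero, mul_zero, sub_self]
  have : a (v * φ ^ k * s) = 0 := by
    rw [ha, ha v, as, ak, hu v hv, mul_zero, mul_zero, zero_mul, add_zero, zero_mul, add_zero]
  exact sub_eq_zero.1 this

variable {J : Type} [Fintype J] {b e om : J → GQ → F} {d f : GQ → F}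

/-- the triple product -/
def zm (ψ : GQ →* Fˣ) (f d : GQ → F) (om e : J → GQ → F) (g h : GQ) : F :=
  (ψ g : F) * ψ h * (f g * d h) + ∑ j, om j g * e j h

/-- the data of the triple product -/
structure Ms (χ ψ : GQ →* Fˣ) (S : Finset ℕ) (b e om : J → GQ → F) (d f : GQ → F) : Prop where
  B : Bs χ ψ S
  hb : ∀ j, Co χ ψ S (b j)
  hd : Co ψ χ S d
  he : ∀ j, Ee χ ψ (b j) d (e j)
  oa : ∀ j g h, om j (g * h) = om j g + om j h
  ol : ∀ j, IsLocallyConstant (om j)
  fc : ∀ g h, f (g * h) = (χ g : F) * f h + f g * ψ h + ∑ j, om j g * (χ g * b j h)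
  fl : IsLocallyConstant f

theorem Ms.z2 (M : Ms χ ψ S b e om d f) : IsZ2 (zm ψ f d om e) := by
  have l := M.B.symm.lc
  refine ⟨(((l.comp_continuous continuous_fst).mul (l.comp_continuous continuous_snd)).mul
    ((M.fl.comp_continuous continuous_fst).mul (M.hd.lc.comp_continuous continuous_snd))).add
    (lc_sum _ fun j => ((M.ol j).comp_continuous continuous_fst).mul
      ((M.he j).lc.comp_continuous continuous_snd)), fun g h k => ?_⟩
  have e1 : ∑ j, om j g * e j (h * k) = ∑ j, om j g * e j h + ∑ j, om j g * e j k +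
      (ψ h : F) * ψ k * d k * ∑ j, om j g * b j h := by
    rw [Finset.mul_sum, ← Finset.sum_add_distrib, ← Finset.sum_add_distrib]
    exact Finset.sum_congr rfl fun j _ => by rw [(M.he j).coc]; ring
  have e2 : ∑ j, om j (g * h) * e j k = ∑ j, om j g * e j k + ∑ j, om j h * e j k := by
    rw [← Finset.sum_add_distrib]
    exact Finset.sum_congr rfl fun j _ => by rw [M.oa]; ring
  have e3 : ∑ j, om j g * (χ g * b j h) = χ g * ∑ j, om j g * b j h := by
    rw [Finset.mul_sum]
    exact Finset.sum_congr rfl fun j _ => by ring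
  simp only [zm, e1, e2, M.fc g h, e3, M.hd.coc, um]
  linear_combination (-(ψ h : F) * ψ k * d k * (f h + ∑ j, om j g * b j h)) * M.B.inv g +
    ((ψ g : F) * ψ h * f g * d h) * M.B.inv k

/-- the local computation -/
theorem Ms.loc [CharP F 2] (M : Ms χ ψ S b e om d f) {D : Subgroup GQ} {m : F}
    (hm : ∀ g ∈ D, d g = m * (ψ g + χ g)) :
    (∀ j, Ch D fun g => e j g + m * ψ g * b j g) ∧
      Cb D (zm ψ f d om e - ∑ j, cup (om j) fun g => e j g + m * ψ g * b j g) := by
  have two : (2 : F) = 0 := CharTwo.two_eq_zero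
  refine ⟨fun j => RecP.ch_of D ((M.he j).lc.add ((M.B.symm.lc.comp (m * ·)).mul (M.hb j).lc))
    fun g _ k hk => eps_add M.B (M.hb j).coc (M.he j).coc g (hm k hk), fun g => m * ψ g * f g,
    ((M.B.symm.lc.comp (m * ·)).mul M.fl).comp_continuous continuous_subtype_val, fun g h => ?_⟩
  have e3 : ∑ j, om j g * (χ g * b j h) = χ g * ∑ j, om j g * b j h := by
    rw [Finset.mul_sum]
    exact Finset.sum_congr rfl fun j _ => by ring
  have e4 : ∑ j, om j g * (e j h + m * ψ h * b j h) =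
      ∑ j, om j g * e j h + m * ψ h * ∑ j, om j g * b j h := by
    rw [Finset.mul_sum, ← Finset.sum_add_distrib]
    exact Finset.sum_congr rfl fun j _ => by ring
  simp only [rs, zm, Pi.sub_apply, Finset.sum_apply, cup, Subgroup.coe_mul, M.fc, um, e3, e4,
    hm h h.2]
  linear_combination (m * ψ h * (f h + ∑ j, om j g * b j h)) * M.B.inv g -
    (m * ψ g * f g) * M.B.inv h + (m * ψ h * ∑ j, om j g * b j h - m * ψ g * f g) * two

theorem cb_sum {D : Subgroup GQ} {z : J → GQ → GQ → F} (h : ∀ j, Cb D (z j)) : Cb D (∑ j, z j) := by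
  have e : rs D (∑ j, z j) = ∑ j, rs D (z j) := by
    funext a b
    simp only [rs, Finset.sum_apply]
  rw [Cb, e]
  exact Submodule.sum_mem _ fun j _ => h j

/-- **second order reciprocity** -/
theorem rec2 [Finite F] [CharP F 2] (M : Ms χ ψ S b e om d f) {ι : Type} [Fintype ι] {q : ι → ℕ}
    (inj : Function.Injective q) {P : ι → Ideal (𝓞 Qb)} {τ φ : ι → GQ}
    (hq : ∀ k, Ov (q k) (P k) ∧ q k ≠ 2 ∧ q k ≠ 7 ∧ Gn (q k) (P k) (τ k) ∧ Fb (q k) (P k) (φ k))
    (qS : ∀ k, q k ∉ S) (ne : ∀ k, (χ (φ k) : F) ≠ ψ (φ k))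
    (ou : ∀ j, ∀ p ≠ 2, (∀ k, q k ≠ p) → ∀ P', Ov p P' → ∀ i, Inert P' i → om j i = 0)
    (fu : ∀ p ∉ S, p ≠ 2 → (∀ k, q k ≠ p) → ∀ P', Ov p P' → ∀ i, Inert P' i → f i = 0)
    {P2 : Ideal (𝓞 Qb)} (o2 : Ov 2 P2) (d2 : Tr ψ χ (dec P2) d)
    (om2 : ∀ j, ∀ g ∈ dec P2, om j g = 0) {c : GQ} (hc : IsConj c) (omc : ∀ j, om j c = 0) :
    ∑ k, ∑ j, sy χ ψ (b j) d (e j) (φ k) * om j (τ k) = f c * d c := by
  have two : (2 : F) = 0 := CharTwo.two_eq_zero
  have B := M.B
  have hz := M.z2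
  have co : ∀ D j, Ch D (om j) := fun D j => RecP.ch_of D (M.ol j) fun g _ k _ => M.oa j g k
  have o1 : ∀ j, om j 1 = 0 := fun j => om2 j 1 (dec P2).one_mem
  choose u U oU u0 ua ui u1' using fun k =>
    RecP.ex_u (F := F) (hq k).1 (hq k).2.1 (hq k).2.2.2.2
  have lu : ∀ k, IsLocallyConstant (u k) := fun k =>
    RecP.lc (U k) (oU k) fun g σ hσ => by rw [ua, u0 k σ hσ, add_zero]
  have key := oneR hz (by simp only [zm, coc1 M.hd.coc, o1, mul_zero, zero_mul,
      Finset.sum_const_zero, add_zero]) inj u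
    (fun k g => ∑ j, sy χ ψ (b j) d (e j) (φ k) * om j g) hq (fun k => ?_) hc ?_
  · rw [key]
    have c2 : (ψ c : F) * ψ c = 1 := by
      obtain ⟨κ, hκ⟩ := hc
      have : c * c = 1 := AlgEquiv.ext fun x => κ.injective (by
        rw [AlgEquiv.mul_apply, hκ, hκ, Complex.conj_conj, AlgEquiv.one_apply])
      rw [← um, this, u1]
    simp only [zm, omc, c2, zero_mul, Finset.sum_const_zero, add_zero, one_mul]
  · obtain ⟨o, q2, -, -, hφ⟩ := hq k
    have cu : Ch (dec (P k)) (u k) := RecP.ch_of _ (lu k) fun g _ h _ => ua k g h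
    have i1 := B.unr _ (qS k) q2 _ o
    have hm := fun g hg => tr_unr B.symm M.hd.coc M.hd.lc o hφ (fun i hi => B.one (i1 i hi))
      (M.hd.unr _ (qS k) q2 _ o) (ne k).symm (g := g) hg
    obtain ⟨k1, k2⟩ := M.loc hm
    have lΨ : IsLocallyConstant fun g => ∑ j, sy χ ψ (b j) d (e j) (φ k) * om j g :=
      lc_sum _ fun j => (M.ol j).comp (sy χ ψ (b j) d (e j) (φ k) * ·)
    have aΨ : ∀ g h, ∑ j, sy χ ψ (b j) d (e j) (φ k) * om j (g * h) =
        ∑ j, sy χ ψ (b j) d (e j) (φ k) * om j g + ∑ j, sy χ ψ (b j) d (e j) (φ k) * om j h :=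
      fun g h => by simp only [M.oa, mul_add, Finset.sum_add_distrib]
    refine ⟨cu, RecP.ch_of _ lΨ fun g _ h _ => aΨ g h, ui k, u1' k, ?_⟩
    have ev : ∀ j, ∀ g ∈ dec (P k), e j g + d (φ k) / (ψ (φ k) + χ (φ k)) * ψ g * b j g =
        sy χ ψ (b j) d (e j) (φ k) * u k g := fun j g hg => by
      refine sub_eq_zero.1 (One.unr_zero o hφ
        (a := fun g => e j g + d (φ k) / (ψ (φ k) + χ (φ k)) * ψ g * b j g -
          sy χ ψ (b j) d (e j) (φ k) * u k g)
        (sub_mem (k1 j) (Submodule.smul_mem _ (sy χ ψ (b j) d (e j) (φ k)) cu))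
        (fun i hi => ?_) ?_ hg)
      · simp only [(M.he j).unr _ q2 _ o i hi (i1 i hi), (M.hb j).unr _ (qS k) q2 _ o i hi,
          ui k i hi, mul_zero, add_zero, sub_self]
      · have h0 : (χ (φ k) : F) + ψ (φ k) ≠ 0 := fun h =>
          ne k (by linear_combination h - (ψ (φ k) : F) * two)
        have h2 := (χ (φ k)).ne_zero
        simp only [u1', sy, add_comm (ψ (φ k) : F)]
        field_simp
        linear_combination (d (φ k) * b j (φ k)) * B.inv (φ k)
    have k3 : Cb (dec (P k)) ((∑ j, cup (om j) fun g =>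
        e j g + d (φ k) / (ψ (φ k) + χ (φ k)) * ψ g * b j g) -
        cup (u k) fun g => ∑ j, sy χ ψ (b j) d (e j) (φ k) * om j g) := by
      refine ⟨fun g => (∑ j, sy χ ψ (b j) d (e j) (φ k) * om j g) * u k g,
        (lΨ.mul (lu k)).comp_continuous continuous_subtype_val, fun g h => ?_⟩
      have e5 : ∑ j, om j g * (sy χ ψ (b j) d (e j) (φ k) * u k h) =
          (∑ j, sy χ ψ (b j) d (e j) (φ k) * om j g) * u k h := by
        rw [Finset.sum_mul]
        exact Finset.sum_congr rfl fun j _ => by ring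
      simp only [rs, Pi.sub_apply, Finset.sum_apply, cup, Subgroup.coe_mul, aΨ, ua,
        ev _ h h.2, e5]
      linear_combination (u k g * ∑ j, sy χ ψ (b j) d (e j) (φ k) * om j h) * two
    rw [← sub_add_sub_cancel _ (∑ j, cup (om j) fun g =>
      e j g + d (φ k) / (ψ (φ k) + χ (φ k)) * ψ g * b j g)]
    exact add_mem k2 k3
  · intro p P' o hn
    by_cases p2 : p = 2
    · subst p2
      obtain ⟨m, hm⟩ := d2
      refine cb_all hz o2 o (One.cb_congr (M.loc hm).2 fun x hx y _ => ?_)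
      simp only [Pi.sub_apply, Finset.sum_apply, cup, om2 _ x hx, zero_mul, Finset.sum_const_zero,
        sub_zero]
    by_cases hp : p ∈ S
    · obtain ⟨m, hm⟩ := M.hd.loc p hp p2 P' o
      obtain ⟨k1, k2⟩ := M.loc hm
      rw [← sub_add_cancel (zm ψ f d om e) (∑ j, cup (om j) fun g => e j g + m * ψ g * b j g)]
      refine add_mem k2 (cb_sum fun j => cup_unr o (co _ j) (k1 j) (ou j p p2 hn P' o)
        fun i hi => ?_)
      obtain ⟨n, on, h1⟩ := ex_odd (F := F)
      have hi' : Inert P' (i ^ n) := (inP P').pow_mem hi n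
      have c1 : (χ (i ^ n) : F) = 1 := by rw [map_pow, h1, Units.val_one]
      have := Rc.add_pow (D := dec P') (a := fun g => e j g + m * ψ g * b j g)
        (fun s hs t ht => Ch.ad (k1 j) hs ht) (inP_le_dec hi) n
      rw [odd_cast on, one_mul] at this
      show e j i + m * ψ i * b j i = 0
      rw [← this, (M.he j).unr p p2 P' o _ hi' c1, (M.hb j).zero B p2 o hi' c1, mul_zero, add_zero]
    have := unrC F ⊤ p P' _ isOpen_univ o (RecP.z2_le hz _) fun g _ h _ i _ hi => by
      have i1 := B.unr p hp p2 P' o i hi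
      simp only [zm, um, M.fc g i, M.oa, M.hd.coc, (M.he _).coc, (M.hb _).unr p hp p2 P' o i hi,
        M.hd.unr p hp p2 P' o i hi, i1, B.one i1, (M.he _).unr p p2 P' o i hi i1,
        ou _ p p2 hn P' o i hi, fu p hp p2 hn P' o i hi, mul_one, mul_zero, zero_add, add_zero,
        Finset.sum_const_zero, and_self]
    rwa [top_inf_eq] at this

end Vale.Agent.P022R.Rel
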