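import Vale.Agent.P022R.Geo

/-!
# P022R: from relations in a quotient to the leading forms
-/

set_option linter.all false

open IsLocalRing

noncomputable section

namespace Vale.Agent.P022R.Wt

open Vale.Agent.P022D.Core (PS)

section fil

variable {σ O : Type} [CommRing O] {ϖ : O} {w : σ → ℕ}

theorem fil_mono {k l : ℕ} (h : k ≤ l) : Fil O w l ≤ Fil O w k :=
  fun _ hu d hd => hu d (hd.trans_le h)

theorem fil_mul {k l : ℕ} {u v : MvPowerSeries σ O} (hu : u ∈ Fil O w k) (hv : v ∈ Fil O w l) :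
    u * v ∈ Fil O w (k + l) := by
  classical
  intro d hd
  rw [MvPowerSeries.coeff_mul]
  refine Finset.sum_eq_zero fun p hp => ?_
  rw [← (Finset.HasAntidiagonal.mem_antidiagonal.mp hp), map_add] at hd
  by_cases e : Finsupp.weight w p.1 < k
  · rw [hu p.1 e, zero_mul]
  · rw [hv p.2 (by omega), mul_zero]

theorem fil_X (s : σ) : (MvPowerSeries.X s : MvPowerSeries σ O) ∈ Fil O w (w s) := by
  classical
  intro d hd
  rw [MvPowerSeries.coeff_X, if_neg]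
  rintro rfl
  simp [Finsupp.weight_single] at hd

theorem fil_const {k : ℕ} (hw : ∀ s, k ≤ w s) {u : MvPowerSeries σ O}
    (hu : MvPowerSeries.constantCoeff u = 0) : u ∈ Fil O w k := by
  intro d hd
  by_cases e : d = 0
  · subst e
    exact hu
  · obtain ⟨s, hs⟩ := Finsupp.ne_iff.1 e
    exact absurd ((hw s).trans (Finsupp.le_weight_of_ne_zero (fun _ => Nat.zero_le _) hs))
      (not_le.2 hd)

/-- the series of weighted order at least `k` modulo `ϖ` -/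
def Fp (ϖ : O) (w : σ → ℕ) (k : ℕ) : Ideal (PS O σ) :=
  Ideal.span {MvPowerSeries.C ϖ} ⊔ Fil O w k

theorem fp_mono {k l : ℕ} (h : k ≤ l) : Fp ϖ w l ≤ Fp ϖ w k := sup_le_sup_left (fil_mono h) _

theorem fp_mul (k l : ℕ) : Fp ϖ w k * Fp ϖ w l ≤ Fp ϖ w (k + l) := by
  rw [Fp, Fp, Ideal.sup_mul, Ideal.mul_sup (Fil O w k)]
  exact sup_le (le_sup_of_le_left Ideal.mul_le_left) (sup_le (le_sup_of_le_left Ideal.mul_le_right)
    (le_sup_of_le_right (Ideal.mul_le.2 fun _ hu _ hv => fil_mul hu hv)))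

theorem fp_const {k : ℕ} (hw : ∀ s, k ≤ w s) {u : MvPowerSeries σ O}
    (hu : ϖ ∣ MvPowerSeries.constantCoeff u) : u ∈ Fp ϖ w k := by
  obtain ⟨c, hc⟩ := hu
  rw [← add_sub_cancel (MvPowerSeries.C ϖ * MvPowerSeries.C c) u]
  refine add_mem (Ideal.mem_sup_left (Ideal.mul_mem_right _ _ (Ideal.mem_span_singleton_self _)))
    (Ideal.mem_sup_right (fil_const hw ?_))
  rw [map_sub, map_mul, MvPowerSeries.constantCoeff_C, MvPowerSeries.constantCoeff_C, hc, sub_self]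

variable {A : Type} [CommRing A] (Φ : PS O σ →+* A)

/-- the filtration of the quotient -/
def Jq (ϖ : O) (w : σ → ℕ) (k : ℕ) : Ideal A := (Fp ϖ w k).map Φ

theorem jq_mono {k l : ℕ} (h : k ≤ l) : Jq Φ ϖ w l ≤ Jq Φ ϖ w k := Ideal.map_mono (fp_mono h)

theorem jq_mul (k l : ℕ) : Jq Φ ϖ w k * Jq Φ ϖ w l ≤ Jq Φ ϖ w (k + l) := by
  rw [Jq, Jq, ← Ideal.map_mul]
  exact Ideal.map_mono (fp_mul k l)

theorem jq_pi (k : ℕ) : Φ (MvPowerSeries.C ϖ) ∈ Jq Φ ϖ w k :=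
  Ideal.mem_map_of_mem _ (Ideal.mem_sup_left (Ideal.mem_span_singleton_self _))

theorem jq_X (s : σ) : Φ (MvPowerSeries.X s) ∈ Jq Φ ϖ w (w s) :=
  Ideal.mem_map_of_mem _ (Ideal.mem_sup_right (fil_X s))

theorem jq_ex (hΦ : Function.Surjective Φ) {k : ℕ} {g : PS O σ} (h : Φ g ∈ Jq Φ ϖ w (k + 1)) :
    ∃ u ∈ Er ϖ w k, Φ (g + u) = 0 := by
  obtain ⟨u, hu, e⟩ := (Ideal.mem_map_iff_of_surjective Φ hΦ).1 h
  exact ⟨-u, neg_mem hu, by rw [map_add, map_neg, e, add_neg_cancel]⟩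

/-- a proper ideal of a quotient of the power series ring has weighted order `k` -/
theorem le_jq [IsLocalRing O] (hϖ : maximalIdeal O = Ideal.span {ϖ}) (hΦ : Function.Surjective Φ)
    {k : ℕ} (hw : ∀ s, k ≤ w s) {z : A} (hz : ¬ IsUnit z) : z ∈ Jq Φ ϖ w k := by
  obtain ⟨u, rfl⟩ := hΦ z
  refine Ideal.mem_map_of_mem _ (fp_const hw ?_)
  rw [← Ideal.mem_span_singleton, ← hϖ]
  exact fun e => hz ((MvPowerSeries.isUnit_iff_constantCoeff.2 e).map Φ)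

end fil

variable {I J K O A : Type} [Fintype I] [Fintype J] [DecidableEq I] [DecidableEq J] [CommRing O]
  [CommRing A]

theorem two_le (s : Sh I J) (z : Vr I J K) : 2 ≤ s.wt K z := by
  rcases z with _ | _ | _ | _
  · simp only [Sh.wt, Sum.elim_inl]
    split_ifs <;> norm_num
  · exact le_rfl
  · exact (by norm_num : 2 ≤ 4)
  · exact le_rfl

/-- **the bridge**: `M` is the maximal ideal (see `le_jq`, `two_le`), `X` the ideal of the `x i j`,
`N = (ϖ) + M ^ 2 + X` -/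
theorem bridge {ϖ : O} (s : Sh I J)
    (Φ : PS O (Vr I J K) →+* A) (hΦ : Function.Surjective Φ) {a p : A} {Y x : I → J → A}
    (hp : Φ (MvPowerSeries.C ϖ) = p) (ha : Φ (MvPowerSeries.X (Sum.inl ())) = a)
    (hY : ∀ i j, Φ (MvPowerSeries.X (Sum.inr (Sum.inl (i, j)))) = Y i j)
    (hx : ∀ i j, Φ (MvPowerSeries.X (Sum.inr (Sum.inr (Sum.inl (i, j))))) = x i j)
    {M X N : Ideal A} (m2 : M ≤ Jq Φ ϖ (s.wt K) 2)
    (hX : X ≤ Ideal.span (Set.range fun q : I × J => x q.1 q.2))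
    (hN : N ≤ Ideal.span {p} ⊔ M * M ⊔ X)
    (e1 : ∀ i k j l, x i j * x k l = x i l * x k j)
    (e2 : ∀ i ∈ s.I0, ∀ k, ∑ j, Y i j * x k j ∈ Ideal.span {p} ⊔ N * X)
    (e3 : ∀ j ∈ s.J0, ∀ l, ∑ i, Y i j * x i l ∈ Ideal.span {p} ⊔ N * X)
    (e4 : s.G = true → a ^ 2 + x s.i0 s.j0 ∈ Ideal.span {p} ⊔ M * X)
    (e5 : ¬ s.G = true → a ^ 2 + ∑ j, Y s.i0 j * x s.i0 j ∈ Ideal.span {p} ⊔ N * X) (e : Eq I J) :
    ∃ h ∈ Er ϖ (s.wt K) (s.dg e),
      Φ (((s.eqn K O e : MvPolynomial (Vr I J K) O) : PS O (Vr I J K)) + h) = 0 := by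
  have x4 : X ≤ Jq Φ ϖ (s.wt K) 4 := hX.trans (Ideal.span_le.2 (by
    rintro _ ⟨q, rfl⟩
    have := jq_X Φ (ϖ := ϖ) (w := s.wt K) (Sum.inr (Sum.inr (Sum.inl (q.1, q.2))))
    rwa [hx] at this))
  have pk : ∀ k, Ideal.span {p} ≤ Jq Φ ϖ (s.wt K) k := fun k =>
    (Ideal.span_singleton_le_iff_mem _).2 (hp ▸ jq_pi Φ k)
  have n4 : N ≤ Jq Φ ϖ (s.wt K) 4 := hN.trans (sup_le (sup_le (pk _)
    ((Ideal.mul_mono m2 m2).trans (jq_mul Φ 2 2))) x4)
  have k7 : Ideal.span {p} ⊔ N * X ≤ Jq Φ ϖ (s.wt K) 7 := sup_le (pk _)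
    (((Ideal.mul_mono n4 x4).trans (jq_mul Φ 4 4)).trans (jq_mono Φ (by norm_num)))
  have k5 : Ideal.span {p} ⊔ M * X ≤ Jq Φ ϖ (s.wt K) 5 := sup_le (pk _)
    (((Ideal.mul_mono m2 x4).trans (jq_mul Φ 2 4)).trans (jq_mono Φ (by norm_num)))
  let Ψ : MvPolynomial (Vr I J K) O →+* A := Φ.comp MvPolynomial.coeToMvPowerSeries.ringHom
  have ea : Ψ (va K O) = a := (congrArg Φ (MvPolynomial.coe_X _)).trans ha
  have eY : ∀ i j, Ψ (vY K O i j) = Y i j := fun i j =>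
    (congrArg Φ (MvPolynomial.coe_X _)).trans (hY i j)
  have ex : ∀ i j, Ψ (vx K O i j) = x i j := fun i j =>
    (congrArg Φ (MvPolynomial.coe_X _)).trans (hx i j)
  refine jq_ex Φ hΦ ?_
  change Ψ (s.eqn K O e) ∈ _
  rcases e with ⟨i, k, j, l⟩ | ⟨i, k⟩ | ⟨j, l⟩ | u
  · simp only [Sh.eqn, map_sub, map_mul, ex]
    rw [e1 i k j l, sub_self]
    exact zero_mem _
  · simp only [Sh.eqn]
    split_ifs with q
    · simp only [map_sum, map_mul, ex, eY]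
      exact k7 (e2 i q k)
    · rw [map_zero]
      exact zero_mem _
  · simp only [Sh.eqn]
    split_ifs with q
    · simp only [map_sum, map_mul, ex, eY]
      exact k7 (e3 j q l)
    · rw [map_zero]
      exact zero_mem _
  · simp only [Sh.eqn, Sh.dg, Sum.elim_inr]
    split_ifs with q
    · rw [map_add, map_pow, ea, ex]
      exact k5 (e4 q)
    · simp only [map_add, map_pow, map_sum, map_mul, ex, eY, ea]
      exact k7 (e5 q)

end Vale.Agent.P022R.Wt
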