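import Vale.Agent.P022R.Alg
import Vale.Agent.P022R.Wt

/-!
# P022R, row RELP
-/

set_option linter.all false

noncomputable section

namespace Vale.Agent.P022R.H3

open Vale.Agent.P022D.Core (PS)

theorem sum_sw {T A B : Type} [CommRing T] [Fintype A] [Fintype B] (u : A → T) (v : B → T)
    (z : B → A → T) : ∑ a, u a * ∑ b, v b * z b a = ∑ b, v b * ∑ a, u a * z b a := by
  simp only [Finset.mul_sum]
  rw [Finset.sum_comm]
  exact Finset.sum_congr rfl fun _ _ => Finset.sum_congr rfl fun _ _ => by ring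

theorem sum_mm {T A : Type} [CommRing T] [Fintype A] (u v p q p' q' : A → T)
    (h : ∀ a b, p a * q b = p' a * q' b) :
    (∑ a, u a * p a) * ∑ b, v b * q b = (∑ a, u a * p' a) * ∑ b, v b * q' b := by
  rw [Finset.sum_mul_sum, Finset.sum_mul_sum]
  exact Finset.sum_congr rfl fun a _ => Finset.sum_congr rfl fun b _ => by
    linear_combination (u a * v b) * h a b

/-- **RELP** -/
theorem relp (h1 : BGEN) (h2 : BREL) : RELP := by
  intro O F T G I J R _ _ _ _ _ _ _ _ _ _ red ι π χ ψ t d a b x D TT s β γ X τ M ϖ Φ H N hD hk hC hX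
    hΦ hπ e
  let xx : I → J → T := fun i j => xv ι x X i j
  let Y : I → J → T := fun i j => yv ι (fun g => (d g : T)) τ (M (i, j))
  let ct : I → G → T := bt ι (fun g k => x k g) X.ζ X.m
  let Xi : Ideal T := Ideal.span (Set.range fun q : I × J => xx q.1 q.2)
  have mX : ∀ i j, xx i j ∈ Xi := fun i j => Ideal.subset_span ⟨(i, j), rfl⟩
  have sc : Sd red ψ χ X.g0 (Kr b a fun g k => x k g) γ X.ζ X.m := by
    rw [Kr_swap]
    exact N.sc
  have exc : ∀ i j, xx i j = ∑ k, ι (X.n j k) * ct i (X.ξ k) := fun i j =>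
    sum_sw (fun l => ι (X.m i l)) (fun k => ι (X.n j k)) fun k l => x (X.ξ k) (X.ζ l)
  have hb : ∀ h, ∃ ν : I → T, (∀ i, π (ν i) = γ i h) ∧
      ∀ j, bt ι x X.ξ X.n j h = ∑ i, ν i * xx i j := fun h => by
    obtain ⟨ν, a1, a2⟩ := h1 O F T G I red ι π ψ χ X.g0 t d b a _ γ X.ζ X.m H.swap sc h
    refine ⟨ν, a1, fun j => ?_⟩
    simp only [exc]
    rw [sum_sw]
    exact Finset.sum_congr rfl fun k _ => congrArg _ (a2 (X.ξ k))
  have hx : ∀ g h, x g h ∈ Xi := fun g h => by
    obtain ⟨μ, -, a2⟩ := h1 O F T G J red ι π χ ψ X.g0 t d a b x β X.ξ X.n H N.sb g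
    obtain ⟨ν, -, a3⟩ := hb h
    rw [a2]
    refine sum_mem fun j _ => Ideal.mul_mem_left _ _ ?_
    rw [a3]
    exact sum_mem fun i _ => Ideal.mul_mem_left _ _ (mX i j)
  have sI : Ia red ι π (fun g k => x k g) = Ia red ι π x := by
    rw [Ia, Ia]
    congr 2
    exact Set.ext fun _ => ⟨fun ⟨g, h, q⟩ => ⟨h, g, q⟩, fun ⟨g, h, q⟩ => ⟨h, g, q⟩⟩
  have two : (2 : T) ∈ Ideal.span {ι ϖ} := by
    have q : (2 : O) ∈ Ideal.span {ϖ} := by
      rw [← hk, RingHom.mem_ker, map_ofNat]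
      exact CharTwo.two_eq_zero
    obtain ⟨o, ho⟩ := Ideal.mem_span_singleton.1 q
    exact Ideal.mem_span_singleton.2 ⟨ι o, by rw [← map_mul, ← ho, map_ofNat]⟩
  have cc : (a X.c - 1) ^ 2 + x X.c X.c ∈ Ideal.span {ι ϖ} := by
    have q := H.gm.am X.c X.c
    rw [N.c2, H.gm.a1] at q
    rw [show (a X.c - 1) ^ 2 + x X.c X.c = (1 - a X.c) * 2 by linear_combination -q]
    exact Ideal.mul_mem_left _ _ two
  obtain ⟨ν, n1, n2⟩ := hb X.c
  refine Wt.bridge s Φ hΦ (hC ϖ) (hX _) (Y := Y) (x := xx) (fun i j => hX _) (fun i j => hX _)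
    (M := RingHom.ker π) (X := Xi) (N := Ia red ι π x) (fun z hz => ?_) le_rfl ?_
    (fun i k j l => ?_) (fun i hi k => ?_) (fun j hj l => ?_) (fun q => ?_) (fun q => ?_) e
  · obtain ⟨u, rfl⟩ := hΦ z
    refine Ideal.mem_map_of_mem _ (Wt.fp_const (Wt.two_le s) ?_)
    rw [← Ideal.mem_span_singleton, ← hk, RingHom.mem_ker, ← hπ]
    exact hz
  · refine sup_le_sup (sup_le_sup ?_ (sq (RingHom.ker π)).le) (Ideal.span_le.2 ?_)
    · rw [hk, Ideal.map_span, Set.image_singleton]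
    · rintro _ ⟨g, h, rfl⟩
      exact hx g h
  · refine sum_mm _ _ _ _ _ _ fun p r => ?_
    exact (sum_mm _ _ _ _ _ _ fun u v => H.gm.sw _ _ _ _).trans (mul_comm _ _)
  · obtain ⟨μ, a1, a2⟩ := h2 O F T G J R red ι π χ ψ X.g0 t d a b x β X.ξ X.n D τ
      (fun j => M (i, j)) X.c 0 H N.sb hD (by rw [map_zero]; exact N.row i hi) (Or.inl rfl)
    have q : ∑ j, (Y i j + μ j) * xx k j = 0 := by
      refine (sum_sw _ (fun l => ι (X.m k l)) fun l j => bt ι x X.ξ X.n j (X.ζ l)).trans ?_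
      exact Finset.sum_eq_zero fun l _ => by rw [a2, map_zero, zero_mul, mul_zero]
    simp only [add_mul, Finset.sum_add_distrib] at q
    rw [eq_neg_of_add_eq_zero_left q]
    exact Ideal.mem_sup_right (neg_mem (sum_mem fun j _ => Ideal.mul_mem_mul (a1 j) (mX k j)))
  · obtain ⟨μ, a1, a2⟩ := h2 O F T G I R red ι π ψ χ X.g0 t d b a _ γ X.ζ X.m D τ
      (fun i => M (i, j)) X.c 0 H.swap sc hD (by rw [map_zero, Kr_swap]; exact N.col j hj)
      (Or.inl rfl)
    have q : ∑ i, (Y i j + μ i) * xx i l = 0 := by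
      simp only [exc]
      refine (sum_sw _ (fun k => ι (X.n l k)) fun k i => ct i (X.ξ k)).trans ?_
      exact Finset.sum_eq_zero fun k _ => by rw [a2, map_zero, zero_mul, mul_zero]
    simp only [add_mul, Finset.sum_add_distrib] at q
    rw [eq_neg_of_add_eq_zero_left q]
    exact Ideal.mem_sup_right (neg_mem (sum_mem fun i _ =>
      Ideal.mul_mem_mul (sI ▸ a1 i) (mX i l)))
  · obtain ⟨μ, a1, a2⟩ := h1 O F T G J red ι π χ ψ X.g0 t d a b x β X.ξ X.n H N.sb X.c
    have q' : x X.c X.c - xx s.i0 s.j0 = ∑ j, ∑ i,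
        (μ j * ν i - if j = s.j0 then if i = s.i0 then 1 else 0 else 0) * xx i j := by
      rw [a2]
      simp only [n2, sub_mul, Finset.sum_sub_distrib, Finset.mul_sum, mul_assoc, ite_mul, one_mul,
        zero_mul, Finset.sum_ite_irrel, Finset.sum_ite_eq', Finset.mem_univ, if_true,
        Finset.sum_const_zero]
    have q2 : x X.c X.c - xx s.i0 s.j0 ∈ RingHom.ker π * Xi := by
      rw [q']
      refine sum_mem fun j _ => sum_mem fun i _ => Ideal.mul_mem_mul ?_ (mX i j)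
      rw [RingHom.mem_ker, map_sub, map_mul, a1, n1, N.bG q, N.cc]
      split_ifs <;> simp
    have := sub_mem (Ideal.mem_sup_left (T := RingHom.ker π * Xi) cc) (Ideal.mem_sup_right q2)
    rwa [add_sub_assoc, sub_sub_cancel] at this
  · have q0 : s.G = false := by simpa using q
    obtain ⟨μ, a1, a2⟩ := h2 O F T G J R red ι π χ ψ X.g0 t d a b x β X.ξ X.n D τ
      (fun j => M (s.i0, j)) X.c 1 H N.sb hD (by rw [map_one]; exact N.lst q0) (Or.inr (N.bH q0))
    have q1 := a2 X.c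
    rw [map_one, one_mul] at q1
    have q' : x X.c X.c - ∑ j, Y s.i0 j * xx s.i0 j = ∑ j, ∑ i,
        (μ j * ν i + Y s.i0 j * (ν i - if i = s.i0 then 1 else 0)) * xx i j := by
      rw [← q1, ← Finset.sum_sub_distrib]
      refine Finset.sum_congr rfl fun j _ => ?_
      simp only [n2, add_mul, mul_sub, sub_mul, Finset.sum_add_distrib, Finset.sum_sub_distrib,
        Finset.mul_sum, mul_assoc, mul_ite, ite_mul, mul_one, mul_zero, zero_mul,
        Finset.sum_ite_eq', Finset.mem_univ, if_true]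
      ring
    have q2 : x X.c X.c - ∑ j, Y s.i0 j * xx s.i0 j ∈ Ia red ι π x * Xi := by
      rw [q']
      refine sum_mem fun j _ => sum_mem fun i _ => Ideal.mul_mem_mul
        (add_mem (Ideal.mul_mem_right _ _ (a1 j)) ?_) (mX i j)
      refine Ideal.mem_sup_left (Ideal.mem_sup_right ?_)
      rw [sq]
      refine Ideal.mul_mem_mul ?_ ?_
      · have := hπ (MvPowerSeries.X (Sum.inr (Sum.inl (s.i0, j))))
        rwa [hX, MvPowerSeries.constantCoeff_X, map_zero] at this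
      · rw [RingHom.mem_ker, map_sub, n1, N.cc]
        split_ifs <;> simp
    have := sub_mem (Ideal.mem_sup_left (T := Ia red ι π x * Xi) cc) (Ideal.mem_sup_right q2)
    rwa [add_sub_assoc, sub_sub_cancel] at this

end Vale.Agent.P022R.H3
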